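import Mathlib

/-! Explicit area preserving maps of the plane used for symplectic ball packings. -/

namespace Vale.Agent.Lib.P209

open scoped ContDiff
open Real

/-- `F` has at `p` a derivative of determinant `κ`. -/
def DetAt (F : ℝ × ℝ → ℝ × ℝ) (p : ℝ × ℝ) (κ : ℝ) : Prop :=
  ∃ D : ℝ × ℝ →L[ℝ] ℝ × ℝ, HasFDerivAt F D p ∧
    (D (1, 0)).1 * (D (0, 1)).2 - (D (0, 1)).1 * (D (1, 0)).2 = κ

lemma DetAt.comp {F G : ℝ × ℝ → ℝ × ℝ} {p : ℝ × ℝ} {κ₁ κ₂ : ℝ}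
    (hG : DetAt G (F p) κ₂) (hF : DetAt F p κ₁) : DetAt (G ∘ F) p (κ₂ * κ₁) := by
  obtain ⟨D₂, hD₂, h₂⟩ := hG
  obtain ⟨D₁, hD₁, h₁⟩ := hF
  refine ⟨D₂.comp D₁, hD₂.comp p hD₁, ?_⟩
  have e : ∀ w : ℝ × ℝ, D₂ w = w.1 • D₂ (1, 0) + w.2 • D₂ (0, 1) := by
    intro w
    rw [← map_smul, ← map_smul, ← map_add]
    congr 1
    ext <;> simp
  simp only [ContinuousLinearMap.comp_apply]
  rw [e (D₁ (1, 0)), e (D₁ (0, 1))]
  simp only [Prod.fst_add, Prod.snd_add, Prod.smul_fst, Prod.smul_snd, smul_eq_mul]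
  rw [← h₂, ← h₁]
  ring

/-! ### The normalized Poschl-Teller map -/

/-- the squared radius -/
noncomputable def ptC (p : ℝ × ℝ) : ℝ := p.1 ^ 2 + p.2 ^ 2

/-- the square root factor -/
noncomputable def ptS (g : ℝ) (p : ℝ × ℝ) : ℝ := √(ptC p + 2 * g)

/-- the cosine coordinate -/
noncomputable def ptW (g : ℝ) (p : ℝ × ℝ) : ℝ := p.1 * ptS g p / (ptC p + g)

/-- the sine coordinate -/
noncomputable def ptR (g : ℝ) (p : ℝ × ℝ) : ℝ := √(1 - ptW g p ^ 2)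

/-- first coordinate of the map -/
noncomputable def ptX (g : ℝ) (p : ℝ × ℝ) : ℝ := p.2 * ptS g p / (2 * ptR g p)

/-- second coordinate of the map -/
noncomputable def ptY (g : ℝ) (p : ℝ × ℝ) : ℝ := Real.arccos (ptW g p)

lemma ptC_nonneg (p : ℝ × ℝ) : 0 ≤ ptC p := by unfold ptC; positivity

lemma ptS_pos {g : ℝ} (hg : 0 < g) (p : ℝ × ℝ) : 0 < ptS g p := by
  unfold ptS
  have := ptC_nonneg p
  exact Real.sqrt_pos.mpr (by linarith)

lemma ptS_sq {g : ℝ} (hg : 0 < g) (p : ℝ × ℝ) : ptS g p ^ 2 = ptC p + 2 * g := by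
  unfold ptS
  have := ptC_nonneg p
  exact Real.sq_sqrt (by linarith)

lemma ptW_sq {g : ℝ} (hg : 0 < g) (p : ℝ × ℝ) :
    ptW g p ^ 2 = p.1 ^ 2 * (ptC p + 2 * g) / (ptC p + g) ^ 2 := by
  unfold ptW
  rw [div_pow, mul_pow, ptS_sq hg]

lemma one_sub_ptW_sq {g : ℝ} (hg : 0 < g) (p : ℝ × ℝ) :
    (g / (ptC p + g)) ^ 2 ≤ 1 - ptW g p ^ 2 := by
  have hc := ptC_nonneg p
  have ha : 0 < ptC p + g := by linarith
  rw [ptW_sq hg, div_pow, le_sub_iff_add_le, ← add_div, div_le_one (by positivity)]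
  have : p.1 ^ 2 ≤ ptC p := by unfold ptC; nlinarith [sq_nonneg p.2]
  nlinarith

lemma ptW_sq_lt {g : ℝ} (hg : 0 < g) (p : ℝ × ℝ) : ptW g p ^ 2 < 1 := by
  have h := one_sub_ptW_sq hg p
  have hc := ptC_nonneg p
  have ha : 0 < ptC p + g := by linarith
  have : 0 < (g / (ptC p + g)) ^ 2 := by positivity
  linarith

lemma ptW_ne_neg_one {g : ℝ} (hg : 0 < g) (p : ℝ × ℝ) : ptW g p ≠ -1 := by
  intro h
  have := ptW_sq_lt hg p
  rw [h] at this
  norm_num at this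

lemma ptW_ne_one {g : ℝ} (hg : 0 < g) (p : ℝ × ℝ) : ptW g p ≠ 1 := by
  intro h
  have := ptW_sq_lt hg p
  rw [h] at this
  norm_num at this

lemma ptR_pos {g : ℝ} (hg : 0 < g) (p : ℝ × ℝ) : 0 < ptR g p := by
  unfold ptR
  have := ptW_sq_lt hg p
  exact Real.sqrt_pos.mpr (by linarith)

lemma ptR_sq {g : ℝ} (hg : 0 < g) (p : ℝ × ℝ) : ptR g p ^ 2 = 1 - ptW g p ^ 2 := by
  unfold ptR
  have := ptW_sq_lt hg p
  exact Real.sq_sqrt (by linarith)

lemma hasFDerivAt_ptC (p : ℝ × ℝ) :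
    HasFDerivAt ptC ((2 * p.1) • ContinuousLinearMap.fst ℝ ℝ ℝ +
      (2 * p.2) • ContinuousLinearMap.snd ℝ ℝ ℝ) p := by
  have h1 : HasFDerivAt (fun q : ℝ × ℝ => q.1 ^ 2) ((2 * p.1) • ContinuousLinearMap.fst ℝ ℝ ℝ) p := by
    have := (hasFDerivAt_fst (𝕜 := ℝ) (p := p)).pow 2
    simpa using this
  have h2 : HasFDerivAt (fun q : ℝ × ℝ => q.2 ^ 2) ((2 * p.2) • ContinuousLinearMap.snd ℝ ℝ ℝ) p := by
    have := (hasFDerivAt_snd (𝕜 := ℝ) (p := p)).pow 2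
    simpa using this
  exact h1.add h2



lemma hasFDerivAt_div' {f h : ℝ × ℝ → ℝ} {f' h' : ℝ × ℝ →L[ℝ] ℝ} {p : ℝ × ℝ}
    (hf : HasFDerivAt f f' p) (hh : HasFDerivAt h h' p) (hne : h p ≠ 0) :
    HasFDerivAt (fun q => f q / h q) ((1 / h p) • f' - (f p / h p ^ 2) • h') p := by
  have h1 : HasFDerivAt (fun q => (h q)⁻¹) ((-(h p ^ 2)⁻¹) • h') p :=
    (hasDerivAt_inv hne).comp_hasFDerivAt p hh
  have h2 : HasFDerivAt (fun q => f q * (h q)⁻¹) (f p • ((-(h p ^ 2)⁻¹) • h') + (h p)⁻¹ • f') p :=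
    hf.mul h1
  have e : (fun q => f q / h q) = fun q => f q * (h q)⁻¹ := by
    funext q; rw [div_eq_mul_inv]
  rw [e]
  refine h2.congr_fderiv (ContinuousLinearMap.ext fun v => ?_)
  simp [div_eq_mul_inv]
  ring

/-- The derivative identity behind the Poschl-Teller map. -/
lemma pt_detAt {g : ℝ} (hg : 0 < g) (p : ℝ × ℝ) :
    DetAt (fun q => (ptX g q, ptY g q)) p 1 := by
  have hc0 := ptC_nonneg p
  have ha : 0 < ptC p + g := by linarith
  have hb : 0 < ptC p + 2 * g := by linarith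
  have hS := ptS_pos hg p
  have hS2 := ptS_sq hg p
  have hR := ptR_pos hg p
  have hR2 := ptR_sq hg p
  set fstL := ContinuousLinearMap.fst ℝ ℝ ℝ with hfst
  set sndL := ContinuousLinearMap.snd ℝ ℝ ℝ with hsnd
  set Dc : ℝ × ℝ →L[ℝ] ℝ := (2 * p.1) • fstL + (2 * p.2) • sndL with hDc
  have hc : HasFDerivAt ptC Dc p := hasFDerivAt_ptC p
  -- derivative of S
  have hS' : HasFDerivAt (ptS g) ((1 / (2 * ptS g p)) • Dc) p := by
    have h1 : HasFDerivAt (fun q => ptC q + 2 * g) Dc p := hc.add_const _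
    exact h1.sqrt (by linarith)
  -- derivative of W
  set DW : ℝ × ℝ →L[ℝ] ℝ := ((ptS g p / (ptC p + g)) • fstL +
        (p.1 * (1 / (2 * ptS g p) / (ptC p + g) - ptS g p / (ptC p + g) ^ 2)) • Dc) with hDW
  have hW' : HasFDerivAt (ptW g) DW p := by
    have h1 : HasFDerivAt (fun q : ℝ × ℝ => q.1 * ptS g q)
        (p.1 • ((1 / (2 * ptS g p)) • Dc) + (ptS g p) • fstL) p :=
      (hasFDerivAt_fst (𝕜 := ℝ) (p := p)).mul hS'
    have h2 : HasFDerivAt (fun q => ptC q + g) Dc p := hc.add_const _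
    have h3 := hasFDerivAt_div' h1 h2 ha.ne'
    refine h3.congr_fderiv (ContinuousLinearMap.ext fun v => ?_)
    simp [hDW]
    field_simp
    ring
  -- derivative of R
  have hR' : HasFDerivAt (ptR g) ((-(ptW g p) / ptR g p) • DW) p := by
    have h1 : HasFDerivAt (fun q => 1 - ptW g q ^ 2) (-((2 * ptW g p) • DW)) p := by
      have := (hW'.pow 2).const_sub 1
      simpa using this
    have h2 := h1.sqrt (by nlinarith [ptW_sq_lt hg p])
    refine h2.congr_fderiv (ContinuousLinearMap.ext fun v => ?_)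
    simp [ptR]
    field_simp
  -- derivative of X
  have hq' : HasFDerivAt (fun q : ℝ × ℝ => q.2 * ptS g q)
      (p.2 • ((1 / (2 * ptS g p)) • Dc) + (ptS g p) • sndL) p :=
    (hasFDerivAt_snd (𝕜 := ℝ) (p := p)).mul hS'
  set Dq : ℝ × ℝ →L[ℝ] ℝ := p.2 • ((1 / (2 * ptS g p)) • Dc) + (ptS g p) • sndL with hDq
  have hX' : HasFDerivAt (ptX g)
      ((1 / (2 * ptR g p)) • Dq + ((p.2 * ptS g p * ptW g p) / (2 * ptR g p ^ 3)) • DW) p := by
    have h2R : HasFDerivAt (fun q => 2 * ptR g q) ((2 : ℝ) • ((-(ptW g p) / ptR g p) • DW)) p :=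
      hR'.const_mul 2
    have h3 := hasFDerivAt_div' hq' h2R (by positivity)
    refine h3.congr_fderiv (ContinuousLinearMap.ext fun v => ?_)
    simp
    field_simp
    ring
  -- derivative of Y
  have hY' : HasFDerivAt (ptY g) ((-(1 / ptR g p)) • DW) p := by
    have h1 := (Real.hasDerivAt_arccos (ptW_ne_neg_one hg p) (ptW_ne_one hg p)).comp_hasFDerivAt p hW'
    refine h1.congr_fderiv (ContinuousLinearMap.ext fun v => ?_)
    simp [ptR]
  refine ⟨ContinuousLinearMap.prod _ _, hX'.prodMk hY', ?_⟩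
  have hWdef : ptW g p = p.1 * ptS g p / (ptC p + g) := rfl
  have hCdef : ptC p = p.1 ^ 2 + p.2 ^ 2 := rfl
  have hR2' : ptR g p ^ 2 = 1 - p.1 ^ 2 * (ptS g p) ^ 2 / (ptC p + g) ^ 2 := by
    rw [hR2, hWdef, div_pow, mul_pow]
  have eDW1 : DW (1, 0) = ptS g p / (ptC p + g) +
      (p.1 * (1 / (2 * ptS g p) / (ptC p + g) - ptS g p / (ptC p + g) ^ 2)) * (2 * p.1) := by
    simp [hDW, hDc, hfst, hsnd]
  have eDW2 : DW (0, 1) =
      (p.1 * (1 / (2 * ptS g p) / (ptC p + g) - ptS g p / (ptC p + g) ^ 2)) * (2 * p.2) := by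
    simp [hDW, hDc, hfst, hsnd]
  have eDq1 : Dq (1, 0) = p.2 * ((1 / (2 * ptS g p)) * (2 * p.1)) := by
    simp [hDq, hDc, hfst, hsnd]
  have eDq2 : Dq (0, 1) = p.2 * ((1 / (2 * ptS g p)) * (2 * p.2)) + ptS g p := by
    simp [hDq, hDc, hfst, hsnd]
  have key : Dq (0, 1) * DW (1, 0) - Dq (1, 0) * DW (0, 1) = 2 * ptR g p ^ 2 := by
    have hS2' : ptS g p ^ 2 = p.1 ^ 2 + p.2 ^ 2 + 2 * g := by rw [hS2, hCdef]
    have e1 : Dq (0, 1) * DW (1, 0) - Dq (1, 0) * DW (0, 1) =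
        (p.2 ^ 2 + ptS g p ^ 2 + p.1 ^ 2) / (ptC p + g) -
          2 * p.1 ^ 2 * ptS g p ^ 2 / (ptC p + g) ^ 2 := by
      rw [eDq1, eDq2, eDW1, eDW2]
      field_simp
      ring
    have e2 : p.2 ^ 2 + ptS g p ^ 2 + p.1 ^ 2 = 2 * (ptC p + g) := by
      rw [hS2', hCdef]; ring
    rw [e1, e2, hR2']
    field_simp
  have hX1 : ((1 / (2 * ptR g p)) • Dq + ((p.2 * ptS g p * ptW g p) / (2 * ptR g p ^ 3)) • DW) (1, 0)
      = (1 / (2 * ptR g p)) * Dq (1, 0) +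
        ((p.2 * ptS g p * ptW g p) / (2 * ptR g p ^ 3)) * DW (1, 0) := by simp
  have hX2 : ((1 / (2 * ptR g p)) • Dq + ((p.2 * ptS g p * ptW g p) / (2 * ptR g p ^ 3)) • DW) (0, 1)
      = (1 / (2 * ptR g p)) * Dq (0, 1) +
        ((p.2 * ptS g p * ptW g p) / (2 * ptR g p ^ 3)) * DW (0, 1) := by simp
  have hY1 : ((-(1 / ptR g p)) • DW) (1, 0) = (-(1 / ptR g p)) * DW (1, 0) := by simp
  have hY2 : ((-(1 / ptR g p)) • DW) (0, 1) = (-(1 / ptR g p)) * DW (0, 1) := by simp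
  simp only [ContinuousLinearMap.prod_apply]
  rw [hX1, hX2, hY1, hY2]
  have : (1 / (2 * ptR g p) * Dq (1, 0) +
        ((p.2 * ptS g p * ptW g p) / (2 * ptR g p ^ 3)) * DW (1, 0)) * (-(1 / ptR g p) * DW (0, 1)) -
      (1 / (2 * ptR g p) * Dq (0, 1) +
        ((p.2 * ptS g p * ptW g p) / (2 * ptR g p ^ 3)) * DW (0, 1)) * (-(1 / ptR g p) * DW (1, 0))
      = (1 / (2 * ptR g p ^ 2)) * (Dq (0, 1) * DW (1, 0) - Dq (1, 0) * DW (0, 1)) := by
    field_simp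
    ring
  rw [this, key]
  field_simp


lemma ptY_pos {g : ℝ} (hg : 0 < g) (p : ℝ × ℝ) : 0 < ptY g p := by
  unfold ptY
  rw [Real.arccos_pos]
  nlinarith [ptW_sq_lt hg p, sq_nonneg (ptW g p - 1)]

lemma ptY_lt_pi {g : ℝ} (hg : 0 < g) (p : ℝ × ℝ) : ptY g p < π := by
  unfold ptY
  refine lt_of_le_of_ne (Real.arccos_le_pi _) ?_
  rw [Ne, Real.arccos_eq_pi]
  nlinarith [ptW_sq_lt hg p, sq_nonneg (ptW g p + 1)]

/-- the basic identity relating the coordinates of the map -/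
lemma pt_level {g : ℝ} (hg : 0 < g) (p : ℝ × ℝ) :
    (ptC p + g) ^ 2 * ptR g p ^ 2 = 4 * ptX g p ^ 2 * ptR g p ^ 2 + g ^ 2 := by
  have hc0 := ptC_nonneg p
  have ha : 0 < ptC p + g := by linarith
  have hR := ptR_pos hg p
  have hS2 := ptS_sq hg p
  have hR2 := ptR_sq hg p
  have e1 : 4 * ptX g p ^ 2 * ptR g p ^ 2 = p.2 ^ 2 * ptS g p ^ 2 := by
    unfold ptX
    field_simp
    ring
  have e2 : (ptC p + g) ^ 2 * ptW g p ^ 2 = p.1 ^ 2 * ptS g p ^ 2 := by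
    unfold ptW
    field_simp
  rw [e1, hR2]
  have hCdef : ptC p = p.1 ^ 2 + p.2 ^ 2 := rfl
  have : (ptC p + g) ^ 2 * (1 - ptW g p ^ 2) = (ptC p + g) ^ 2 - p.1 ^ 2 * ptS g p ^ 2 := by
    rw [← e2]; ring
  rw [this, hS2]
  rw [hCdef]
  ring

lemma ptX_sq_le {g : ℝ} (hg : 0 < g) (p : ℝ × ℝ) :
    4 * ptX g p ^ 2 ≤ (ptC p + g) ^ 2 := by
  have h := pt_level hg p
  have hR := ptR_pos hg p
  have hR2 : 0 < ptR g p ^ 2 := by positivity
  by_contra hcon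
  rw [not_le] at hcon
  nlinarith [sq_nonneg g]

lemma abs_ptX_le {g : ℝ} (hg : 0 < g) (p : ℝ × ℝ) :
    2 * |ptX g p| ≤ ptC p + g := by
  have h := ptX_sq_le hg p
  have hc0 := ptC_nonneg p
  have ha : 0 < ptC p + g := by linarith
  have : (2 * |ptX g p|) ^ 2 ≤ (ptC p + g) ^ 2 := by
    rw [mul_pow, sq_abs]; linarith
  exact le_of_sq_le_sq this ha.le |> fun h => h

lemma pt_injective {g : ℝ} (hg : 0 < g) {p p' : ℝ × ℝ}
    (hX : ptX g p = ptX g p') (hY : ptY g p = ptY g p') : p = p' := by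
  have hW : ptW g p = ptW g p' := by
    have h1 : ptW g p ∈ Set.Icc (-1 : ℝ) 1 := by
      constructor <;> nlinarith [ptW_sq_lt hg p]
    have h2 : ptW g p' ∈ Set.Icc (-1 : ℝ) 1 := by
      constructor <;> nlinarith [ptW_sq_lt hg p']
    exact Real.arccos_injOn h1 h2 hY
  have hR : ptR g p = ptR g p' := by
    unfold ptR; rw [hW]
  have hRpos := ptR_pos hg p
  have l1 := pt_level hg p
  have l2 := pt_level hg p'
  rw [← hX, ← hR] at l2
  have hc0 := ptC_nonneg p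
  have hc0' := ptC_nonneg p'
  have hsq : (ptC p + g) ^ 2 = (ptC p' + g) ^ 2 := by
    have : (ptC p + g) ^ 2 * ptR g p ^ 2 = (ptC p' + g) ^ 2 * ptR g p ^ 2 := by
      rw [l1, l2]
    exact mul_right_cancel₀ (by positivity) this
  have hc : ptC p = ptC p' := by
    have h3 : ptC p + g = ptC p' + g := by
      have := (sq_eq_sq₀ (by linarith) (by linarith)).mp hsq
      exact this
    linarith
  have hS : ptS g p = ptS g p' := by
    unfold ptS; rw [hc]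
  have hSpos := ptS_pos hg p
  have ha : 0 < ptC p + g := by linarith
  have h1 : p.1 = p'.1 := by
    have : p.1 * ptS g p / (ptC p + g) = p'.1 * ptS g p / (ptC p + g) := by
      have := hW
      unfold ptW at this
      rw [← hS, ← hc] at this
      exact this
    have h4 := (div_left_inj' ha.ne').mp this
    exact mul_right_cancel₀ hSpos.ne' h4
  have h2 : p.2 = p'.2 := by
    have : p.2 * ptS g p / (2 * ptR g p) = p'.2 * ptS g p / (2 * ptR g p) := by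
      have := hX
      unfold ptX at this
      rw [← hS, ← hR] at this
      exact this
    have h4 := (div_left_inj' (by positivity)).mp this
    exact mul_right_cancel₀ hSpos.ne' h4
  exact Prod.ext h1 h2

/-! Smoothness of the coordinate functions -/

lemma contDiff_ptC : ContDiff ℝ ∞ ptC := by
  unfold ptC
  exact (contDiff_fst.pow 2).add (contDiff_snd.pow 2)

lemma contDiff_ptS {g : ℝ} (hg : 0 < g) : ContDiff ℝ ∞ (ptS g) := by
  unfold ptS
  refine (contDiff_ptC.add contDiff_const).sqrt fun p => ?_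
  have := ptC_nonneg p
  linarith

lemma contDiff_ptW {g : ℝ} (hg : 0 < g) : ContDiff ℝ ∞ (ptW g) := by
  unfold ptW
  refine (contDiff_fst.mul (contDiff_ptS hg)).div (contDiff_ptC.add contDiff_const) fun p => ?_
  have := ptC_nonneg p
  linarith

lemma contDiff_ptR {g : ℝ} (hg : 0 < g) : ContDiff ℝ ∞ (ptR g) := by
  unfold ptR
  refine (contDiff_const.sub ((contDiff_ptW hg).pow 2)).sqrt fun p => ?_
  have := ptW_sq_lt hg p
  linarith

lemma contDiff_ptX {g : ℝ} (hg : 0 < g) : ContDiff ℝ ∞ (ptX g) := by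
  unfold ptX
  refine (contDiff_snd.mul (contDiff_ptS hg)).div (contDiff_const.mul (contDiff_ptR hg)) fun p => ?_
  have := ptR_pos hg p
  positivity

lemma contDiff_ptY {g : ℝ} (hg : 0 < g) : ContDiff ℝ ∞ (ptY g) := by
  unfold ptY
  rw [contDiff_iff_contDiffAt]
  intro p
  exact (Real.contDiffAt_arccos (ptW_ne_neg_one hg p) (ptW_ne_one hg p)).comp p
    ((contDiff_ptW hg).contDiffAt)


/-! ### Diagonal linear maps -/

lemma detAt_diag (a b : ℝ) (p : ℝ × ℝ) : DetAt (fun q => (a * q.1, b * q.2)) p (a * b) := by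
  refine ⟨((a • ContinuousLinearMap.fst ℝ ℝ ℝ).prod (b • ContinuousLinearMap.snd ℝ ℝ ℝ)), ?_, ?_⟩
  · exact (((hasFDerivAt_fst (𝕜 := ℝ) (p := p)).const_mul a)).prodMk
      ((hasFDerivAt_snd (𝕜 := ℝ) (p := p)).const_mul b)
  · simp

/-! ### The folding map: angle doubling in the upper half plane -/

/-- the radius used by the folding map -/
noncomputable def foldRho (s : ℝ) (p : ℝ × ℝ) : ℝ := √(p.1 ^ 2 + s ^ 2 * p.2 ^ 2)

/-- first coordinate of the folding map -/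
noncomputable def foldX (s : ℝ) (p : ℝ × ℝ) : ℝ :=
  2 * s + 2 * (p.1 ^ 2 - s ^ 2 * p.2 ^ 2) / foldRho s p

/-- second coordinate of the folding map -/
noncomputable def foldY (s : ℝ) (p : ℝ × ℝ) : ℝ :=
  1 / 2 + p.1 * p.2 / (2 * foldRho s p)

lemma foldRho_pos {s : ℝ} (hs : 0 < s) {p : ℝ × ℝ} (hp : 0 < p.2) : 0 < foldRho s p := by
  unfold foldRho
  apply Real.sqrt_pos.mpr
  positivity

lemma foldRho_sq (s : ℝ) (p : ℝ × ℝ) : foldRho s p ^ 2 = p.1 ^ 2 + s ^ 2 * p.2 ^ 2 := by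
  unfold foldRho
  exact Real.sq_sqrt (by positivity)

lemma fold_detAt {s : ℝ} (hs : 0 < s) {p : ℝ × ℝ} (hp : 0 < p.2) :
    DetAt (fun q => (foldX s q, foldY s q)) p 1 := by
  have hρ := foldRho_pos hs hp
  have hρ2 := foldRho_sq s p
  set fstL := ContinuousLinearMap.fst ℝ ℝ ℝ with hfst
  set sndL := ContinuousLinearMap.snd ℝ ℝ ℝ with hsnd
  have h1 : HasFDerivAt (fun q : ℝ × ℝ => q.1 ^ 2) ((2 * p.1) • fstL) p := by
    have := (hasFDerivAt_fst (𝕜 := ℝ) (p := p)).pow 2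
    simpa using this
  have h2 : HasFDerivAt (fun q : ℝ × ℝ => q.2 ^ 2) ((2 * p.2) • sndL) p := by
    have := (hasFDerivAt_snd (𝕜 := ℝ) (p := p)).pow 2
    simpa using this
  set Dρ : ℝ × ℝ →L[ℝ] ℝ :=
    (1 / (2 * foldRho s p)) • ((2 * p.1) • fstL + (s ^ 2 * (2 * p.2)) • sndL) with hDρ
  have hin : HasFDerivAt (fun q : ℝ × ℝ => q.1 ^ 2 + s ^ 2 * q.2 ^ 2)
      ((2 * p.1) • fstL + (s ^ 2 * (2 * p.2)) • sndL) p := by
    have := h1.add (h2.const_mul (s ^ 2))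
    refine this.congr_fderiv (ContinuousLinearMap.ext fun v => ?_)
    simp
    ring
  have hρ' : HasFDerivAt (foldRho s) Dρ p :=
    hin.sqrt (by have : 0 < p.2 ^ 2 := by positivity
                 positivity)
  have hN : HasFDerivAt (fun q : ℝ × ℝ => 2 * (q.1 ^ 2 - s ^ 2 * q.2 ^ 2))
      ((2 : ℝ) • ((2 * p.1) • fstL - (s ^ 2 * (2 * p.2)) • sndL)) p := by
    have := h1.sub (h2.const_mul (s ^ 2))
    refine (this.const_mul 2).congr_fderiv (ContinuousLinearMap.ext fun v => ?_)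
    simp
    ring
  have hM : HasFDerivAt (fun q : ℝ × ℝ => q.1 * q.2) (p.1 • sndL + p.2 • fstL) p :=
    (hasFDerivAt_fst (𝕜 := ℝ) (p := p)).mul (hasFDerivAt_snd (𝕜 := ℝ) (p := p))
  have hX0 := hasFDerivAt_div' hN hρ' hρ.ne'
  have hX : HasFDerivAt (foldX s) _ p := hX0.const_add (2 * s)
  have hY0 := hasFDerivAt_div' hM (hρ'.const_mul 2) (by positivity)
  have hY : HasFDerivAt (foldY s) _ p := hY0.const_add (1 / 2)
  refine ⟨ContinuousLinearMap.prod _ _, HasFDerivAt.prodMk hX hY, ?_⟩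
  simp only [ContinuousLinearMap.prod_apply]
  have e0 : ∀ v : ℝ × ℝ, Dρ v = (p.1 * v.1 + s ^ 2 * p.2 * v.2) / foldRho s p := by
    intro v
    simp [hDρ, hfst, hsnd]
    field_simp
  simp [e0, hfst, hsnd]
  have hρ3 : (foldRho s p) ^ 6 = (p.1 ^ 2 + s ^ 2 * p.2 ^ 2) ^ 3 := by
    rw [← hρ2]; ring
  field_simp
  rw [hρ3, hρ2]
  ring


lemma foldY_sub_half {s : ℝ} (hs : 0 < s) {p : ℝ × ℝ} (hp : 0 < p.2) :
    |foldY s p - 1 / 2| < p.2 / 2 := by
  have hρ := foldRho_pos hs hp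
  have hρ2 := foldRho_sq s p
  have h1 : foldY s p - 1 / 2 = p.1 * p.2 / (2 * foldRho s p) := by
    unfold foldY; ring
  rw [h1, abs_div, abs_mul, abs_of_pos hp, abs_of_pos (by positivity : 0 < 2 * foldRho s p),
    div_lt_div_iff₀ (by positivity) (by norm_num)]
  have h2 : |p.1| < foldRho s p := by
    apply abs_lt_of_sq_lt_sq _ hρ.le
    rw [hρ2]
    have : 0 < s ^ 2 * p.2 ^ 2 := by positivity
    linarith
  nlinarith

lemma foldX_pos {s : ℝ} (hs : 0 < s) {p : ℝ × ℝ} (hp : 0 < p.2) (hp1 : p.2 < 1) :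
    0 < foldX s p := by
  have hρ := foldRho_pos hs hp
  have hρ2 := foldRho_sq s p
  unfold foldX
  have h1 : s * p.2 ≤ foldRho s p := by
    apply le_of_sq_le_sq _ hρ.le
    rw [hρ2, mul_pow]
    nlinarith [sq_nonneg p.1]
  have h2 : - (s * p.2) ≤ (p.1 ^ 2 - s ^ 2 * p.2 ^ 2) / foldRho s p := by
    rw [le_div_iff₀ hρ]
    nlinarith [sq_nonneg p.1, mul_nonneg (by positivity : 0 ≤ s * p.2) (sub_nonneg.mpr h1)]
  have h3 : 2 * (p.1 ^ 2 - s ^ 2 * p.2 ^ 2) / foldRho s p =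
      2 * ((p.1 ^ 2 - s ^ 2 * p.2 ^ 2) / foldRho s p) := by ring
  rw [h3]
  nlinarith [mul_pos hs (sub_pos.mpr hp1)]

lemma foldX_le {s : ℝ} (hs : 0 < s) {p : ℝ × ℝ} (hp : 0 < p.2) :
    foldX s p ≤ 2 * s + 2 * |p.1| := by
  have hρ := foldRho_pos hs hp
  have hρ2 := foldRho_sq s p
  unfold foldX
  have h1 : |p.1| ≤ foldRho s p := by
    apply abs_le_of_sq_le_sq _ hρ.le
    rw [hρ2]
    have : 0 ≤ s ^ 2 * p.2 ^ 2 := by positivity
    linarith
  have h2 : (p.1 ^ 2 - s ^ 2 * p.2 ^ 2) / foldRho s p ≤ |p.1| := by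
    rw [div_le_iff₀ hρ]
    have : p.1 ^ 2 = |p.1| * |p.1| := by rw [← sq, sq_abs]
    nlinarith [abs_nonneg p.1, (by positivity : 0 ≤ s ^ 2 * p.2 ^ 2)]
  have h3 : 2 * (p.1 ^ 2 - s ^ 2 * p.2 ^ 2) / foldRho s p =
      2 * ((p.1 ^ 2 - s ^ 2 * p.2 ^ 2) / foldRho s p) := by ring
  rw [h3]
  linarith

lemma fold_injective {s : ℝ} (hs : 0 < s) {p p' : ℝ × ℝ} (hp : 0 < p.2) (hp' : 0 < p'.2)
    (hX : foldX s p = foldX s p') (hY : foldY s p = foldY s p') : p = p' := by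
  have hρ := foldRho_pos hs hp
  have hρ' := foldRho_pos hs hp'
  have hρ2 := foldRho_sq s p
  have hρ2' := foldRho_sq s p'
  set ρ := foldRho s p with hρdef
  set ρ' := foldRho s p' with hρ'def
  -- abbreviations for the two normalized quantities
  have hA : (p.1 ^ 2 - s ^ 2 * p.2 ^ 2) / ρ = (p'.1 ^ 2 - s ^ 2 * p'.2 ^ 2) / ρ' := by
    have : 2 * (p.1 ^ 2 - s ^ 2 * p.2 ^ 2) / ρ = 2 * (p'.1 ^ 2 - s ^ 2 * p'.2 ^ 2) / ρ' := by
      unfold foldX at hX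
      linarith
    have e1 : 2 * (p.1 ^ 2 - s ^ 2 * p.2 ^ 2) / ρ = 2 * ((p.1 ^ 2 - s ^ 2 * p.2 ^ 2) / ρ) := by ring
    have e2 : 2 * (p'.1 ^ 2 - s ^ 2 * p'.2 ^ 2) / ρ' =
        2 * ((p'.1 ^ 2 - s ^ 2 * p'.2 ^ 2) / ρ') := by ring
    linarith
  have hB : p.1 * p.2 / ρ = p'.1 * p'.2 / ρ' := by
    have : p.1 * p.2 / (2 * ρ) = p'.1 * p'.2 / (2 * ρ') := by
      unfold foldY at hY
      linarith
    have e1 : p.1 * p.2 / (2 * ρ) = (p.1 * p.2 / ρ) / 2 := by field_simp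
    have e2 : p'.1 * p'.2 / (2 * ρ') = (p'.1 * p'.2 / ρ') / 2 := by field_simp
    linarith
  -- the radius is determined
  have hrad : ∀ (a b r : ℝ), 0 < r → r ^ 2 = a ^ 2 + s ^ 2 * b ^ 2 →
      r ^ 2 = ((a ^ 2 - s ^ 2 * b ^ 2) / r) ^ 2 + (2 * s * (a * b / r)) ^ 2 := by
    intro a b r hr hr2
    have hr4 : r ^ 2 * r ^ 2 = (a ^ 2 + s ^ 2 * b ^ 2) ^ 2 := by rw [hr2]; ring
    field_simp
    nlinarith
  have h1 := hrad p.1 p.2 ρ hρ hρ2
  have h2 := hrad p'.1 p'.2 ρ' hρ' hρ2'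
  rw [hA, hB, ← h2] at h1
  have hρeq : ρ = ρ' := (sq_eq_sq₀ hρ.le hρ'.le).mp h1
  rw [← hρeq] at hA hB hρ2'
  have hA' : p.1 ^ 2 - s ^ 2 * p.2 ^ 2 = p'.1 ^ 2 - s ^ 2 * p'.2 ^ 2 :=
    (div_left_inj' hρ.ne').mp hA
  have hB' : p.1 * p.2 = p'.1 * p'.2 := (div_left_inj' hρ.ne').mp hB
  have h2nd : p.2 ^ 2 = p'.2 ^ 2 := by
    have : s ^ 2 * p.2 ^ 2 = s ^ 2 * p'.2 ^ 2 := by linarith
    exact mul_left_cancel₀ (by positivity) this
  have h2nd' : p.2 = p'.2 := (sq_eq_sq₀ hp.le hp'.le).mp h2nd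
  have h1st : p.1 = p'.1 := by
    rw [← h2nd'] at hB'
    exact mul_right_cancel₀ hp.ne' hB'
  exact Prod.ext h1st h2nd'

/-! ### The toric chart -/

/-- first coordinate of the toric chart -/
noncomputable def chartX (p : ℝ × ℝ) : ℝ := √(p.1 / π) * Real.cos (2 * π * p.2)

/-- second coordinate of the toric chart -/
noncomputable def chartY (p : ℝ × ℝ) : ℝ := √(p.1 / π) * Real.sin (2 * π * p.2)

lemma chart_sq {p : ℝ × ℝ} (hp : 0 < p.1) : π * (chartX p ^ 2 + chartY p ^ 2) = p.1 := by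
  unfold chartX chartY
  have h : √(p.1 / π) ^ 2 = p.1 / π := Real.sq_sqrt (by positivity)
  rw [mul_pow, mul_pow, ← mul_add, Real.cos_sq_add_sin_sq, mul_one, h]
  field_simp

lemma chart_detAt {p : ℝ × ℝ} (hp : 0 < p.1) :
    DetAt (fun q => (chartX q, chartY q)) p 1 := by
  have hpi := Real.pi_pos
  have hr : 0 < √(p.1 / π) := Real.sqrt_pos.mpr (by positivity)
  have hr2 : √(p.1 / π) ^ 2 = p.1 / π := Real.sq_sqrt (by positivity)
  set r := √(p.1 / π) with hrdef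
  set fstL := ContinuousLinearMap.fst ℝ ℝ ℝ with hfst
  set sndL := ContinuousLinearMap.snd ℝ ℝ ℝ with hsnd
  have h0 : HasFDerivAt (fun q : ℝ × ℝ => q.1 / π) ((1 / π) • fstL) p := by
    have := (hasFDerivAt_fst (𝕜 := ℝ) (p := p)).const_mul (1 / π)
    refine (this.congr_of_eventuallyEq ?_).congr_fderiv rfl
    exact Filter.Eventually.of_forall fun q => by simp [div_eq_mul_inv, mul_comm]
  have hr' : HasFDerivAt (fun q : ℝ × ℝ => √(q.1 / π)) ((1 / (2 * r)) • ((1 / π) • fstL)) p :=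
    h0.sqrt (by positivity)
  have hang : HasFDerivAt (fun q : ℝ × ℝ => 2 * π * q.2) ((2 * π) • sndL) p :=
    (hasFDerivAt_snd (𝕜 := ℝ) (p := p)).const_mul (2 * π)
  have hcos : HasFDerivAt (fun q : ℝ × ℝ => Real.cos (2 * π * q.2))
      ((-Real.sin (2 * π * p.2)) • ((2 * π) • sndL)) p :=
    (Real.hasDerivAt_cos _).comp_hasFDerivAt p hang
  have hsin : HasFDerivAt (fun q : ℝ × ℝ => Real.sin (2 * π * q.2))
      ((Real.cos (2 * π * p.2)) • ((2 * π) • sndL)) p :=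
    (Real.hasDerivAt_sin _).comp_hasFDerivAt p hang
  have hX : HasFDerivAt chartX _ p := hr'.mul hcos
  have hY : HasFDerivAt chartY _ p := hr'.mul hsin
  refine ⟨ContinuousLinearMap.prod _ _, HasFDerivAt.prodMk hX hY, ?_⟩
  simp only [ContinuousLinearMap.prod_apply]
  simp [hfst, hsnd]
  have e : Real.sin (2 * π * p.2) ^ 2 + Real.cos (2 * π * p.2) ^ 2 = 1 :=
    Real.sin_sq_add_cos_sq _
  field_simp
  nlinarith [e]

/-- A non-vanishing chart image determines its base point up to integer translation. -/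
lemma chart_eq {p p' : ℝ × ℝ} (hp : 0 < p.1) (hp' : 0 < p'.1)
    (hX : chartX p = chartX p') (hY : chartY p = chartY p') :
    p.1 = p'.1 ∧ ∃ m : ℤ, p.2 - p'.2 = m := by
  have h1 := chart_sq hp
  have h2 := chart_sq hp'
  rw [hX, hY, h2] at h1
  have heq : p.1 = p'.1 := h1.symm
  refine ⟨heq, ?_⟩
  have hpi := Real.pi_pos
  have hr : 0 < √(p.1 / π) := Real.sqrt_pos.mpr (by positivity)
  unfold chartX at hX
  unfold chartY at hY
  rw [← heq] at hX hY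
  have hc := mul_left_cancel₀ hr.ne' hX
  have hs := mul_left_cancel₀ hr.ne' hY
  have hang := Real.Angle.cos_sin_inj hc hs
  rw [Real.Angle.angle_eq_iff_two_pi_dvd_sub] at hang
  obtain ⟨k, hk⟩ := hang
  refine ⟨k, ?_⟩
  have : 2 * π * (p.2 - p'.2) = 2 * π * k := by linarith
  exact mul_left_cancel₀ (by positivity) this


/-! ### The composite map from the plane into the half strip -/

/-- scaled form of the plane to strip map -/
noncomputable def pt2 (g : ℝ) (p : ℝ × ℝ) : ℝ × ℝ :=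
  (ptX g (√π * p.1, √π * p.2), ptY g (√π * p.1, √π * p.2) / π)

/-- The plane to half strip map. -/
noncomputable def trayn (g s : ℝ) (p : ℝ × ℝ) : ℝ × ℝ :=
  (foldX s (pt2 g p), foldY s (pt2 g p))

lemma pt2_snd_pos {g : ℝ} (hg : 0 < g) (p : ℝ × ℝ) : 0 < (pt2 g p).2 :=
  div_pos (ptY_pos hg _) Real.pi_pos

lemma pt2_snd_lt {g : ℝ} (hg : 0 < g) (p : ℝ × ℝ) : (pt2 g p).2 < 1 := by
  have := ptY_lt_pi hg (√π * p.1, √π * p.2)
  unfold pt2
  rw [div_lt_one Real.pi_pos]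
  exact this

lemma ptC_scale (p : ℝ × ℝ) : ptC (√π * p.1, √π * p.2) = π * (p.1 ^ 2 + p.2 ^ 2) := by
  have h : √π ^ 2 = π := Real.sq_sqrt Real.pi_pos.le
  unfold ptC
  simp only [mul_pow, h]
  ring

lemma pt2_detAt {g : ℝ} (hg : 0 < g) (p : ℝ × ℝ) : DetAt (pt2 g) p 1 := by
  have hpi := Real.pi_pos
  have h1 := detAt_diag (√π) (√π) p
  have h2 := pt_detAt hg (√π * p.1, √π * p.2)
  have h3 := detAt_diag 1 (1 / π) (ptX g (√π * p.1, √π * p.2), ptY g (√π * p.1, √π * p.2))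
  have h4 := (h3.comp h2).comp h1
  have e : pt2 g = (fun q : ℝ × ℝ => (1 * q.1, 1 / π * q.2)) ∘
      (fun q => (ptX g q, ptY g q)) ∘ fun q : ℝ × ℝ => (√π * q.1, √π * q.2) := by
    funext q
    simp [pt2, div_eq_mul_inv, mul_comm]
  have hk : 1 * (1 / π) * 1 * (√π * √π) = 1 := by
    rw [Real.mul_self_sqrt hpi.le]
    field_simp
  rw [e]
  rw [hk] at h4
  exact h4

lemma trayn_detAt {g s : ℝ} (hg : 0 < g) (hs : 0 < s) (p : ℝ × ℝ) : DetAt (trayn g s) p 1 := by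
  have h1 := pt2_detAt hg p
  have h2 := fold_detAt hs (pt2_snd_pos hg p)
  have h3 := h2.comp h1
  rw [mul_one] at h3
  exact h3

lemma pt2_injective {g : ℝ} (hg : 0 < g) {p p' : ℝ × ℝ} (h : pt2 g p = pt2 g p') : p = p' := by
  have hpi := Real.pi_pos
  have h1 : ptX g (√π * p.1, √π * p.2) = ptX g (√π * p'.1, √π * p'.2) := congrArg Prod.fst h
  have h2 : ptY g (√π * p.1, √π * p.2) / π = ptY g (√π * p'.1, √π * p'.2) / π :=
    congrArg Prod.snd h
  have h3 := (div_left_inj' hpi.ne').mp h2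
  have h4 := pt_injective hg h1 h3
  have hs : 0 < √π := Real.sqrt_pos.mpr hpi
  have e1 : √π * p.1 = √π * p'.1 := congrArg Prod.fst h4
  have e2 : √π * p.2 = √π * p'.2 := congrArg Prod.snd h4
  exact Prod.ext (mul_left_cancel₀ hs.ne' e1) (mul_left_cancel₀ hs.ne' e2)

lemma trayn_injective {g s : ℝ} (hg : 0 < g) (hs : 0 < s) {p p' : ℝ × ℝ}
    (h : trayn g s p = trayn g s p') : p = p' := by
  have h1 : foldX s (pt2 g p) = foldX s (pt2 g p') := congrArg Prod.fst h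
  have h2 : foldY s (pt2 g p) = foldY s (pt2 g p') := congrArg Prod.snd h
  exact pt2_injective hg (fold_injective hs (pt2_snd_pos hg p) (pt2_snd_pos hg p') h1 h2)

lemma trayn_fst_pos {g s : ℝ} (hg : 0 < g) (hs : 0 < s) (p : ℝ × ℝ) : 0 < (trayn g s p).1 :=
  foldX_pos hs (pt2_snd_pos hg p) (pt2_snd_lt hg p)

lemma trayn_fst_le {g s : ℝ} (hg : 0 < g) (hs : 0 < s) (p : ℝ × ℝ) :
    (trayn g s p).1 ≤ π * (p.1 ^ 2 + p.2 ^ 2) + g + 2 * s := by
  have h1 := foldX_le hs (pt2_snd_pos hg p)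
  have h2 := abs_ptX_le hg (√π * p.1, √π * p.2)
  rw [ptC_scale] at h2
  unfold trayn
  have h3 : (pt2 g p).1 = ptX g (√π * p.1, √π * p.2) := rfl
  rw [h3] at h1
  simp only
  linarith

lemma trayn_snd_pos {g s : ℝ} (hg : 0 < g) (hs : 0 < s) (p : ℝ × ℝ) : 0 < (trayn g s p).2 := by
  have h1 := foldY_sub_half hs (pt2_snd_pos hg p)
  have h2 := pt2_snd_lt hg p
  have h3 := (abs_lt.mp h1).1
  unfold trayn
  simp only
  linarith

lemma trayn_snd_lt {g s : ℝ} (hg : 0 < g) (hs : 0 < s) (p : ℝ × ℝ) : (trayn g s p).2 < 1 := by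
  have h1 := foldY_sub_half hs (pt2_snd_pos hg p)
  have h2 := pt2_snd_lt hg p
  have h3 := (abs_lt.mp h1).2
  unfold trayn
  simp only
  linarith

lemma contDiff_pt2 {g : ℝ} (hg : 0 < g) : ContDiff ℝ ∞ (pt2 g) := by
  unfold pt2
  have h0 : ContDiff ℝ ∞ (fun p : ℝ × ℝ => ((√π * p.1, √π * p.2) : ℝ × ℝ)) :=
    (contDiff_const.mul contDiff_fst).prodMk (contDiff_const.mul contDiff_snd)
  exact ((contDiff_ptX hg).comp h0).prodMk (((contDiff_ptY hg).comp h0).div_const π)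

lemma contDiff_trayn {g s : ℝ} (hg : 0 < g) (hs : 0 < s) : ContDiff ℝ ∞ (trayn g s) := by
  have h0 := contDiff_pt2 hg
  have h1 : ContDiff ℝ ∞ (fun p => (pt2 g p).1) := contDiff_fst.comp h0
  have h2 : ContDiff ℝ ∞ (fun p => (pt2 g p).2) := contDiff_snd.comp h0
  have hρ : ContDiff ℝ ∞ (fun p => foldRho s (pt2 g p)) := by
    unfold foldRho
    refine ((h1.pow 2).add (contDiff_const.mul (h2.pow 2))).sqrt fun p => ?_
    have := pt2_snd_pos hg p
    positivity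
  have hne : ∀ p, foldRho s (pt2 g p) ≠ 0 := fun p => (foldRho_pos hs (pt2_snd_pos hg p)).ne'
  unfold trayn
  unfold foldX foldY
  refine ContDiff.prodMk ?_ ?_
  · exact contDiff_const.add ((contDiff_const.mul ((h1.pow 2).sub
      (contDiff_const.mul (h2.pow 2)))).div hρ hne)
  · refine contDiff_const.add ((h1.mul h2).div (contDiff_const.mul hρ) fun p => ?_)
    have := hne p
    positivity

lemma contDiffAt_chart {p : ℝ × ℝ} (hp : 0 < p.1) :
    ContDiffAt ℝ ∞ (fun q : ℝ × ℝ => (chartX q, chartY q)) p := by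
  have hpi := Real.pi_pos
  have h0 : ContDiffAt ℝ ∞ (fun q : ℝ × ℝ => √(q.1 / π)) p := by
    refine ContDiffAt.sqrt (contDiffAt_fst.div_const π) ?_
    positivity
  have h2 : ContDiff ℝ ∞ (fun q : ℝ × ℝ => 2 * π * q.2) := contDiff_const.mul contDiff_snd
  unfold chartX chartY
  exact (h0.mul (Real.contDiff_cos.comp h2).contDiffAt).prodMk
    (h0.mul (Real.contDiff_sin.comp h2).contDiffAt)

end Vale.Agent.Lib.P209
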