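import Mathlib

/-! Definitions used in the statements on symplectic ball packings. -/

namespace Vale.Agent.Lib.P209

open scoped ContDiff

/-- The standard symplectic form `∑ dx_j ∧ dy_j` on `ℂ^n`, where `z_j = x_j + i y_j`. -/
def omega {n : ℕ} (v w : Fin n → ℂ) : ℝ :=
  ∑ j, ((v j).re * (w j).im - (v j).im * (w j).re)

/-- The closed ball of capacity `R` in `ℂ^n`. -/
def closedCapBall (n : ℕ) (R : ℝ) : Set (Fin n → ℂ) :=
  {z | Real.pi * ∑ j, ‖z j‖ ^ 2 ≤ R}

/-- The open ball of capacity `R` in `ℂ^n`. -/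
def openCapBall (n : ℕ) (R : ℝ) : Set (Fin n → ℂ) :=
  {z | Real.pi * ∑ j, ‖z j‖ ^ 2 < R}

/-- `φ` is a symplectic embedding of the set `S`: it is defined on an open neighbourhood `U`
of `S`, it is smooth on `U`, it restricts to a topological embedding of `U` and it pulls the
standard symplectic form back to itself at every point of `U`. -/
def IsSymplecticEmbedding {n : ℕ} (φ : (Fin n → ℂ) → (Fin n → ℂ)) (S : Set (Fin n → ℂ)) : Prop :=
  ∃ U : Set (Fin n → ℂ), IsOpen U ∧ S ⊆ U ∧ ContDiffOn ℝ ∞ φ U ∧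
    Topology.IsEmbedding (U.domRestrict φ) ∧
    ∀ z ∈ U, ∀ v w : Fin n → ℂ, omega (fderiv ℝ φ z v) (fderiv ℝ φ z w) = omega v w

/-- There is a symplectic embedding of the disjoint union of the closed balls of capacities
`r i` into the open ball of capacity `R`. -/
def BallPacking (n k : ℕ) (R : ℝ) (r : Fin k → ℝ) : Prop :=
  ∃ φ : Fin k → (Fin n → ℂ) → (Fin n → ℂ),
    (∀ i, IsSymplecticEmbedding (φ i) (closedCapBall n (r i))) ∧
    (∀ i, φ i '' closedCapBall n (r i) ⊆ openCapBall n R) ∧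
    ∀ i j, i ≠ j → Disjoint (φ i '' closedCapBall n (r i)) (φ j '' closedCapBall n (r j))

end Vale.Agent.Lib.P209
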