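import Mathlib
import Vale.Agent.Lib.P209.Defs
import Vale.Agent.Lib.P209.Area2D

/-! Products of area preserving maps and the general embedding lemma. -/

namespace Vale.Agent.Lib.P209

open scoped ContDiff
open Real

variable {n : ℕ}

/-- `F` has at `z` a derivative that preserves the symplectic form. -/
def SympAt (F : (Fin n → ℂ) → (Fin n → ℂ)) (z : Fin n → ℂ) : Prop :=
  ∃ D : (Fin n → ℂ) →L[ℝ] (Fin n → ℂ), HasFDerivAt F D z ∧
    ∀ v w, omega (D v) (D w) = omega v w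

lemma SympAt.comp {F G : (Fin n → ℂ) → (Fin n → ℂ)} {z : Fin n → ℂ}
    (hG : SympAt G (F z)) (hF : SympAt F z) : SympAt (G ∘ F) z := by
  obtain ⟨D₂, hD₂, h₂⟩ := hG
  obtain ⟨D₁, hD₁, h₁⟩ := hF
  refine ⟨D₂.comp D₁, hD₂.comp z hD₁, fun v w => ?_⟩
  simp only [ContinuousLinearMap.comp_apply]
  rw [h₂, h₁]

/-- transport of a plane map to the complex line -/
noncomputable def cF (F : ℝ × ℝ → ℝ × ℝ) : ℂ → ℂ :=
  fun z => Complex.equivRealProdCLM.symm (F (Complex.equivRealProdCLM z))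

lemma cF_re (F : ℝ × ℝ → ℝ × ℝ) (z : ℂ) : (cF F z).re = (F (z.re, z.im)).1 := rfl

lemma cF_im (F : ℝ × ℝ → ℝ × ℝ) (z : ℂ) : (cF F z).im = (F (z.re, z.im)).2 := rfl

/-- the coordinatewise product of a plane map -/
noncomputable def prodMap (F : ℝ × ℝ → ℝ × ℝ) : (Fin n → ℂ) → (Fin n → ℂ) :=
  fun z j => cF F (z j)

lemma prodMap_sympAt {F : ℝ × ℝ → ℝ × ℝ} {z : Fin n → ℂ}
    (hF : ∀ j, DetAt F ((z j).re, (z j).im) 1) : SympAt (prodMap F) z := by
  classical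
  choose D hD hdet using hF
  have hG : ∀ j, HasFDerivAt (cF F)
      ((Complex.equivRealProdCLM.symm : (ℝ × ℝ) →L[ℝ] ℂ).comp
        ((D j).comp (Complex.equivRealProdCLM : ℂ →L[ℝ] ℝ × ℝ))) (z j) := by
    intro j
    have h1 : HasFDerivAt (Complex.equivRealProdCLM : ℂ → ℝ × ℝ)
        (Complex.equivRealProdCLM : ℂ →L[ℝ] ℝ × ℝ) (z j) :=
      (Complex.equivRealProdCLM : ℂ →L[ℝ] ℝ × ℝ).hasFDerivAt
    have h2 := (hD j).comp (z j) h1
    have h3 := (Complex.equivRealProdCLM.symm : (ℝ × ℝ) →L[ℝ] ℂ).hasFDerivAt.comp (z j) h2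
    exact h3
  have hP : HasFDerivAt (prodMap F (n := n))
      (ContinuousLinearMap.pi fun j =>
        ((Complex.equivRealProdCLM.symm : (ℝ × ℝ) →L[ℝ] ℂ).comp
          ((D j).comp (Complex.equivRealProdCLM : ℂ →L[ℝ] ℝ × ℝ))).comp
            (ContinuousLinearMap.proj (R := ℝ) (φ := fun _ : Fin n => ℂ) j)) z := by
    rw [hasFDerivAt_pi]
    intro j
    exact (hG j).comp z (ContinuousLinearMap.proj (R := ℝ) (φ := fun _ : Fin n => ℂ) j).hasFDerivAt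
  refine ⟨_, hP, fun v w => ?_⟩
  unfold omega
  refine Finset.sum_congr rfl fun j _ => ?_
  have e : ∀ q : ℝ × ℝ, D j q = q.1 • D j (1, 0) + q.2 • D j (0, 1) := by
    intro q
    rw [← map_smul, ← map_smul, ← map_add]
    congr 1
    ext <;> simp
  have hdj := hdet j
  simp only [ContinuousLinearMap.coe_pi', ContinuousLinearMap.comp_apply,
    ContinuousLinearMap.proj_apply]
  set a := D j (1, 0) with ha
  set b := D j (0, 1) with hb
  have hre : ∀ u : ℂ, ((Complex.equivRealProdCLM.symm : (ℝ × ℝ) →L[ℝ] ℂ)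
      (D j ((Complex.equivRealProdCLM : ℂ →L[ℝ] ℝ × ℝ) u))).re = u.re * a.1 + u.im * b.1 := by
    intro u
    have h0 : ∀ q : ℝ × ℝ, ((Complex.equivRealProdCLM.symm : (ℝ × ℝ) →L[ℝ] ℂ) q).re = q.1 :=
      fun q => rfl
    have : (Complex.equivRealProdCLM : ℂ →L[ℝ] ℝ × ℝ) u = (u.re, u.im) := rfl
    rw [h0, this, e]
    simp
  have him : ∀ u : ℂ, ((Complex.equivRealProdCLM.symm : (ℝ × ℝ) →L[ℝ] ℂ)
      (D j ((Complex.equivRealProdCLM : ℂ →L[ℝ] ℝ × ℝ) u))).im = u.re * a.2 + u.im * b.2 := by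
    intro u
    have h0 : ∀ q : ℝ × ℝ, ((Complex.equivRealProdCLM.symm : (ℝ × ℝ) →L[ℝ] ℂ) q).im = q.2 :=
      fun q => rfl
    have : (Complex.equivRealProdCLM : ℂ →L[ℝ] ℝ × ℝ) u = (u.re, u.im) := rfl
    rw [h0, this, e]
    simp
  rw [hre, hre, him, him]
  have : a.1 * b.2 - b.1 * a.2 = 1 := hdj
  linear_combination ((v j).re * (w j).im - (v j).im * (w j).re) * this

lemma contDiffAt_prodMap {F : ℝ × ℝ → ℝ × ℝ} {z : Fin n → ℂ}
    (hF : ∀ j, ContDiffAt ℝ ∞ F ((z j).re, (z j).im)) : ContDiffAt ℝ ∞ (prodMap F) z := by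
  rw [contDiffAt_pi]
  intro j
  unfold prodMap cF
  have h1 : ContDiff ℝ ∞ (fun y : Fin n → ℂ => (Complex.equivRealProdCLM (y j) : ℝ × ℝ)) :=
    (Complex.equivRealProdCLM : ℂ →L[ℝ] ℝ × ℝ).contDiff.comp
      (ContinuousLinearMap.proj (R := ℝ) (φ := fun _ : Fin n => ℂ) j).contDiff
  have h2 : ContDiffAt ℝ ∞ (fun y : Fin n → ℂ => F (Complex.equivRealProdCLM (y j))) z :=
    ContDiffAt.comp z (hF j) h1.contDiffAt
  exact (Complex.equivRealProdCLM.symm : (ℝ × ℝ) →L[ℝ] ℂ).contDiff.comp_contDiffAt z h2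

end Vale.Agent.Lib.P209
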