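import Mathlib
import Vale.Agent.Lib.P209.Defs
import Vale.Agent.Lib.P209.Area2D
import Vale.Agent.Lib.P209.Product

/-! From toric data to symplectic packings. -/

namespace Vale.Agent.Lib.P209

open scoped ContDiff
open Real

variable {n : ℕ}

/-- the open standard simplex of size `a` -/
def openSimplex (n : ℕ) (a : ℝ) : Set (Fin n → ℝ) :=
  {x | (∀ l, 0 < x l) ∧ ∑ l, x l < a}

lemma omega_self_I (v : Fin n → ℂ) :
    omega v (fun j => Complex.I * v j) = ∑ j, ‖v j‖ ^ 2 := by
  unfold omega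
  refine Finset.sum_congr rfl fun j _ => ?_
  rw [Complex.sq_norm, Complex.normSq_apply]
  simp

lemma eq_zero_of_omega_eq_zero {v : Fin n → ℂ} (h : ∀ w, omega v w = 0) : v = 0 := by
  have h1 := h (fun j => Complex.I * v j)
  rw [omega_self_I] at h1
  have h2 := (Finset.sum_eq_zero_iff_of_nonneg (fun j _ => by positivity)).mp h1
  funext j
  have h3 := h2 j (Finset.mem_univ j)
  simpa using h3

lemma omega_zero_left (w : Fin n → ℂ) : omega (0 : Fin n → ℂ) w = 0 := by
  simp [omega]

/-- A smooth injective symplectic map on an open set is an embedding. -/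
lemma isEmbedding_of_symplectic {φ : (Fin n → ℂ) → (Fin n → ℂ)} {U : Set (Fin n → ℂ)}
    (hU : IsOpen U) (hφ : ContDiffOn ℝ ∞ φ U) (hinj : Set.InjOn φ U)
    (hsym : ∀ z ∈ U, ∀ v w, omega (fderiv ℝ φ z v) (fderiv ℝ φ z w) = omega v w) :
    Topology.IsEmbedding (U.domRestrict φ) := by
  have hopen : ∀ z ∈ U, Filter.map φ (nhds z) = nhds (φ z) := by
    intro z hz
    have hc : ContDiffAt ℝ ∞ φ z := hφ.contDiffAt (hU.mem_nhds hz)
    have hstrict : HasStrictFDerivAt φ (fderiv ℝ φ z) z :=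
      hc.hasStrictFDerivAt (by simp)
    have hker : (fderiv ℝ φ z : (Fin n → ℂ) →ₗ[ℝ] (Fin n → ℂ)).ker = ⊥ := by
      rw [LinearMap.ker_eq_bot']
      intro v hv
      apply eq_zero_of_omega_eq_zero
      intro w
      have hv' : fderiv ℝ φ z v = 0 := hv
      rw [← hsym z hz v w, hv', omega_zero_left]
    have hinjD : Function.Injective (fderiv ℝ φ z : (Fin n → ℂ) →ₗ[ℝ] (Fin n → ℂ)) :=
      LinearMap.ker_eq_bot.mp hker
    have hsurjD : Function.Surjective (fderiv ℝ φ z : (Fin n → ℂ) →ₗ[ℝ] (Fin n → ℂ)) :=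
      LinearMap.injective_iff_surjective.mp hinjD
    let e : (Fin n → ℂ) ≃L[ℝ] (Fin n → ℂ) :=
      (LinearEquiv.ofBijective _ ⟨hinjD, hsurjD⟩).toContinuousLinearEquiv
    have he : HasStrictFDerivAt φ (e : (Fin n → ℂ) →L[ℝ] (Fin n → ℂ)) z := by
      convert hstrict using 1
      ext v
      rfl
    exact he.map_nhds_eq_of_equiv
  have hcont : Continuous (U.domRestrict φ) := by
    exact hφ.continuousOn.domRestrict
  have hinj' : Function.Injective (U.domRestrict φ) := by
    intro a b hab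
    exact Subtype.ext (hinj a.2 b.2 hab)
  have hopenMap : IsOpenMap (U.domRestrict φ) := by
    rw [isOpenMap_iff_nhds_le]
    intro z
    have h1 := hopen z.1 z.2
    have h2 : Filter.map Subtype.val (nhds z) = nhds z.1 :=
      map_nhds_subtype_coe_eq_nhds z.2 (hU.mem_nhds z.2)
    show nhds (φ z.1) ≤ Filter.map (φ ∘ Subtype.val) (nhds z)
    rw [← Filter.map_map, h2, h1]
  exact (Topology.IsOpenEmbedding.of_continuous_injective_isOpenMap hcont hinj' hopenMap).isEmbedding


/-- the coordinatewise plane to half strip map -/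
noncomputable def tauMap (g s : ℝ) : (Fin n → ℂ) → (Fin n → ℂ) := prodMap (trayn g s)

/-- the coordinatewise toric chart -/
noncomputable def chiMap : (Fin n → ℂ) → (Fin n → ℂ) := prodMap fun q => (chartX q, chartY q)

lemma tauMap_re (g s : ℝ) (z : Fin n → ℂ) (l : Fin n) :
    (tauMap g s z l).re = (trayn g s ((z l).re, (z l).im)).1 := rfl

lemma tauMap_im (g s : ℝ) (z : Fin n → ℂ) (l : Fin n) :
    (tauMap g s z l).im = (trayn g s ((z l).re, (z l).im)).2 := rfl

lemma chiMap_re (z : Fin n → ℂ) (l : Fin n) :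
    (chiMap z l).re = chartX ((z l).re, (z l).im) := rfl

lemma chiMap_im (z : Fin n → ℂ) (l : Fin n) :
    (chiMap z l).im = chartY ((z l).re, (z l).im) := rfl

lemma tauMap_injective {g s : ℝ} (hg : 0 < g) (hs : 0 < s) :
    Function.Injective (tauMap (n := n) g s) := by
  intro z z' h
  funext l
  have h1 : tauMap g s z l = tauMap g s z' l := congrFun h l
  have h2 : trayn g s ((z l).re, (z l).im) = trayn g s ((z' l).re, (z' l).im) :=
    Prod.ext (by
      have := congrArg Complex.re h1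
      simpa [tauMap_re] using this) (by
      have := congrArg Complex.im h1
      simpa [tauMap_im] using this)
  have h3 := trayn_injective hg hs h2
  exact Complex.ext (congrArg Prod.fst h3) (congrArg Prod.snd h3)

lemma tauMap_sum_le {g s : ℝ} (hg : 0 < g) (hs : 0 < s) (z : Fin n → ℂ) :
    ∑ l, (tauMap g s z l).re ≤ π * ∑ l, ‖z l‖ ^ 2 + n * (g + 2 * s) := by
  have h : ∀ l, (tauMap g s z l).re ≤ π * ‖z l‖ ^ 2 + (g + 2 * s) := by
    intro l
    rw [tauMap_re]
    have := trayn_fst_le hg hs ((z l).re, (z l).im)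
    rw [Complex.sq_norm, Complex.normSq_apply]
    simp only at this
    nlinarith
  calc ∑ l, (tauMap g s z l).re ≤ ∑ l, (π * ‖z l‖ ^ 2 + (g + 2 * s)) :=
        Finset.sum_le_sum fun l _ => h l
    _ = π * ∑ l, ‖z l‖ ^ 2 + n * (g + 2 * s) := by
        rw [Finset.sum_add_distrib, Finset.mul_sum]
        simp [mul_add]

lemma chiMap_norm_sum {z : Fin n → ℂ} (hz : ∀ l, 0 < (z l).re) :
    π * ∑ l, ‖chiMap z l‖ ^ 2 = ∑ l, (z l).re := by
  rw [Finset.mul_sum]
  refine Finset.sum_congr rfl fun l _ => ?_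
  rw [Complex.sq_norm, Complex.normSq_apply, chiMap_re, chiMap_im]
  have := chart_sq (p := ((z l).re, (z l).im)) (hz l)
  simp only at this
  nlinarith

lemma chiMap_eq {z z' : Fin n → ℂ} (hz : ∀ l, 0 < (z l).re) (hz' : ∀ l, 0 < (z' l).re)
    (h : chiMap z = chiMap z') :
    (∀ l, (z l).re = (z' l).re) ∧ ∀ l, ∃ m : ℤ, (z l).im - (z' l).im = m := by
  have key : ∀ l, (z l).re = (z' l).re ∧ ∃ m : ℤ, (z l).im - (z' l).im = m := by
    intro l
    have h1 : chiMap z l = chiMap z' l := congrFun h l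
    have hX : chartX ((z l).re, (z l).im) = chartX ((z' l).re, (z' l).im) := by
      have := congrArg Complex.re h1
      simpa [chiMap_re] using this
    have hY : chartY ((z l).re, (z l).im) = chartY ((z' l).re, (z' l).im) := by
      have := congrArg Complex.im h1
      simpa [chiMap_im] using this
    exact chart_eq (hz l) (hz' l) hX hY
  exact ⟨fun l => (key l).1, fun l => (key l).2⟩

/-- The toric criterion: suitable symplectic maps of the phase space preserving the projection to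
the real parts give symplectic ball packings. -/
theorem ballPacking_of_toric {k : ℕ} (R : ℝ) (r a : Fin k → ℝ) (hra : ∀ i, r i < a i)
    (T : Fin k → (Fin n → ℂ) → (Fin n → ℂ))
    (hTs : ∀ i, ContDiff ℝ ∞ (T i)) (hTsymp : ∀ i z, SympAt (T i) z)
    (f : Fin k → (Fin n → ℝ) → (Fin n → ℝ))
    (hf : ∀ i z l, (T i z l).re = f i (fun m => (z m).re) l)
    (hfin : ∀ i, ∀ x ∈ openSimplex n (a i), f i x ∈ openSimplex n R)
    (hfinj : ∀ i, Set.InjOn (f i) (openSimplex n (a i)))
    (hfdisj : ∀ i j, i ≠ j → ∀ x ∈ openSimplex n (a i), ∀ x' ∈ openSimplex n (a j), f i x ≠ f j x')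
    (hQ : ∀ i (z z' : Fin n → ℂ), (∀ l, (z l).re = (z' l).re) →
      (∀ l, 0 < (z l).im ∧ (z l).im < 1) → (∀ l, 0 < (z' l).im ∧ (z' l).im < 1) →
      (∀ l, ∃ m : ℤ, (T i z l).im - (T i z' l).im = m) → z = z') :
    BallPacking n k R r := by
  -- the parameters
  set η : Fin k → ℝ := fun i => (a i - r i) / 2 with hη
  set g : Fin k → ℝ := fun i => (a i - r i) / (6 * (n + 1)) with hgdef
  have hn : (0 : ℝ) < 6 * (n + 1) := by positivity
  have hηpos : ∀ i, 0 < η i := fun i => by
    have := hra i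
    simp only [hη]; linarith
  have hgpos : ∀ i, 0 < g i := fun i => div_pos (by linarith [hra i]) hn
  have hbudget : ∀ i, r i + η i + n * (g i + 2 * g i) ≤ a i := by
    intro i
    have h1 : n * (g i + 2 * g i) ≤ η i := by
      simp only [hgdef, hη]
      have hd : 0 < a i - r i := by linarith [hra i]
      have : (n : ℝ) * ((a i - r i) / (6 * (n + 1)) + 2 * ((a i - r i) / (6 * (n + 1)))) =
          (a i - r i) / 2 * ((n : ℝ) / (n + 1)) := by
        field_simp
        ring
      rw [this]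
      have h2 : (n : ℝ) / (n + 1) ≤ 1 := by
        rw [div_le_one (by positivity)]
        linarith
      nlinarith
    simp only [hη] at h1 ⊢
    linarith
  set U : Fin k → Set (Fin n → ℂ) := fun i => openCapBall n (r i + η i) with hU
  set φ : Fin k → (Fin n → ℂ) → (Fin n → ℂ) :=
    fun i => chiMap ∘ T i ∘ tauMap (g i) (g i) with hφ
  -- basic facts about points of U
  have hsimp : ∀ i, ∀ z ∈ U i, (fun m => (tauMap (g i) (g i) z m).re) ∈ openSimplex n (a i) := by
    intro i z hz
    refine ⟨fun l => ?_, ?_⟩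
    · show 0 < (tauMap (g i) (g i) z l).re
      rw [tauMap_re]
      exact trayn_fst_pos (hgpos i) (hgpos i) _
    · have h1 := tauMap_sum_le (hgpos i) (hgpos i) z
      have h2 : π * ∑ l, ‖z l‖ ^ 2 < r i + η i := hz
      have h3 := hbudget i
      linarith
  have him : ∀ i (z : Fin n → ℂ) l, 0 < (tauMap (g i) (g i) z l).im ∧ (tauMap (g i) (g i) z l).im < 1 := by
    intro i z l
    rw [tauMap_im]
    exact ⟨trayn_snd_pos (hgpos i) (hgpos i) _, trayn_snd_lt (hgpos i) (hgpos i) _⟩
  have hpos : ∀ i, ∀ z ∈ U i, ∀ l, 0 < (T i (tauMap (g i) (g i) z) l).re := by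
    intro i z hz l
    rw [hf]
    exact (hfin i _ (hsimp i z hz)).1 l
  have hsum : ∀ i, ∀ z ∈ U i, ∑ l, (T i (tauMap (g i) (g i) z) l).re < R := by
    intro i z hz
    have := (hfin i _ (hsimp i z hz)).2
    simpa only [hf] using this
  have hUopen : ∀ i, IsOpen (U i) := by
    intro i
    have : Continuous fun z : Fin n → ℂ => π * ∑ j, ‖z j‖ ^ 2 := by fun_prop
    exact isOpen_lt this continuous_const
  have hsub : ∀ i, closedCapBall n (r i) ⊆ U i := by
    intro i z hz
    have h1 : π * ∑ j, ‖z j‖ ^ 2 ≤ r i := hz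
    show π * ∑ j, ‖z j‖ ^ 2 < r i + η i
    linarith [hηpos i]
  have hcontDiff : ∀ i, ContDiffOn ℝ ∞ (φ i) (U i) := by
    intro i z hz
    apply ContDiffAt.contDiffWithinAt
    have h1 : ContDiffAt ℝ ∞ (tauMap (n := n) (g i) (g i)) z :=
      contDiffAt_prodMap fun j => (contDiff_trayn (hgpos i) (hgpos i)).contDiffAt
    have h2 : ContDiffAt ℝ ∞ (T i) (tauMap (g i) (g i) z) := (hTs i).contDiffAt
    have h3 : ContDiffAt ℝ ∞ (chiMap (n := n)) (T i (tauMap (g i) (g i) z)) :=
      contDiffAt_prodMap fun j => contDiffAt_chart (hpos i z hz j)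
    exact h3.comp z (h2.comp z h1)
  have hinj : ∀ i, Set.InjOn (φ i) (U i) := by
    intro i z hz z' hz' h
    obtain ⟨h1, h2⟩ := chiMap_eq (hpos i z hz) (hpos i z' hz') h
    have h3 : f i (fun m => (tauMap (g i) (g i) z m).re) =
        f i (fun m => (tauMap (g i) (g i) z' m).re) := by
      funext l
      rw [← hf, ← hf]
      exact h1 l
    have h4 := hfinj i (hsimp i z hz) (hsimp i z' hz') h3
    have h5 := hQ i (tauMap (g i) (g i) z) (tauMap (g i) (g i) z') (fun l => congrFun h4 l)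
      (him i z) (him i z') h2
    exact tauMap_injective (hgpos i) (hgpos i) h5
  have hsym : ∀ i, ∀ z ∈ U i, SympAt (φ i) z := by
    intro i z hz
    have h1 : SympAt (tauMap (n := n) (g i) (g i)) z :=
      prodMap_sympAt fun j => trayn_detAt (hgpos i) (hgpos i) _
    have h3 : SympAt (chiMap (n := n)) (T i (tauMap (g i) (g i) z)) :=
      prodMap_sympAt fun j => chart_detAt (hpos i z hz j)
    have h2 : SympAt (T i ∘ tauMap (g i) (g i)) z :=
      SympAt.comp (F := tauMap (g i) (g i)) (hTsymp i _) h1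
    exact SympAt.comp (F := T i ∘ tauMap (g i) (g i)) h3 h2
  have hsym' : ∀ i, ∀ z ∈ U i, ∀ v w, omega (fderiv ℝ (φ i) z v) (fderiv ℝ (φ i) z w) = omega v w := by
    intro i z hz v w
    obtain ⟨D, hD, hDo⟩ := hsym i z hz
    rw [hD.fderiv]
    exact hDo v w
  refine ⟨φ, fun i => ⟨U i, hUopen i, hsub i, hcontDiff i,
    isEmbedding_of_symplectic (hUopen i) (hcontDiff i) (hinj i) (hsym' i), hsym' i⟩, ?_, ?_⟩
  · rintro i _ ⟨z, hz, rfl⟩
    have hz' := hsub i hz
    show π * ∑ j, ‖φ i z j‖ ^ 2 < R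
    have : φ i z = chiMap (T i (tauMap (g i) (g i) z)) := rfl
    rw [this, chiMap_norm_sum (hpos i z hz')]
    exact hsum i z hz'
  · intro i j hij
    rw [Set.disjoint_left]
    rintro _ ⟨z, hz, rfl⟩ ⟨z', hz', h⟩
    have hzU := hsub i hz
    have hzU' := hsub j hz'
    obtain ⟨h1, -⟩ := chiMap_eq (hpos j z' hzU') (hpos i z hzU) h
    apply hfdisj i j hij _ (hsimp i z hzU) _ (hsimp j z' hzU')
    funext l
    rw [← hf, ← hf]
    exact (h1 l).symm

end Vale.Agent.Lib.P209
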