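import Vale.Agent.Lib.P209.Capacity

/-! Big balls in the hosts of a lattice and tiny balls in all of the remaining space. -/

namespace Vale.Agent.Lib.P209

open Nat

variable {n : ℕ}

/-- the digits of a pattern as natural numbers -/
def digOf {q : ℕ} (κ : Fin n → Fin q) : Fin n → ℕ := fun l => (κ l : ℕ)

lemma digOf_injective {q : ℕ} : Function.Injective (digOf (n := n) (q := q)) := by
  intro κ κ' h
  funext l
  apply Fin.ext
  exact congrFun h l

/-- The capacity of a host of size `u` containing a ball of size `m`. -/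
noncomputable def hostCap (d : ℕ) (u m x : ℝ) : ℝ :=
  if m + ((d : ℝ) + 2) * x ≤ u then (u - ((d : ℝ) + 2) * x) ^ (d + 2) - m ^ (d + 2) else 0

lemma hostCap_nonneg (d : ℕ) {u m x : ℝ} (hm : 0 ≤ m) : 0 ≤ hostCap d u m x := by
  unfold hostCap
  split_ifs with h
  · exact sub_nonneg.mpr (pow_le_pow_left₀ hm (by linarith) _)
  · exact le_rfl

lemma hostCap_lower (d : ℕ) {u m x : ℝ} (hm : 0 ≤ m) :
    (max (u - ((d : ℝ) + 2) * x) 0) ^ (d + 2) - m ^ (d + 2) ≤ hostCap d u m x := by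
  unfold hostCap
  split_ifs with h
  · rw [max_eq_left (by linarith)]
  · have h1 : max (u - ((d : ℝ) + 2) * x) 0 ≤ m := by
      apply max_le
      · linarith [not_le.mp h]
      · exact hm
    have h2 := pow_le_pow_left₀ (le_max_right (u - ((d : ℝ) + 2) * x) 0) h1 (d + 2)
    linarith

lemma canPlace_host {d : ℕ} {ρ : Equiv.Perm (Fin (d + 2))} {b : Fin (d + 2) → ℝ} {u m R x : ℝ}
    (hc : ChainMap ρ b u R) (hm : 0 ≤ m) (hpos : 0 < hostCap d u m x) :
    CanPlace (d + 2) R x (chainRegion ρ b u m) (hostCap d u m x) := by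
  have e : ((d + 1 : ℕ) : ℝ) + 1 = (d : ℝ) + 2 := by push_cast; ring
  unfold hostCap at hpos ⊢
  split_ifs at hpos ⊢ with h
  · have := canPlace_chain (d := d + 1) hc hm (x := x) (by rw [e]; exact h)
    rw [e] at this
    exact this
  · exact absurd hpos (lt_irrefl _)

lemma chainMap_one {a' R : ℝ} (h : a' ≤ R) : ChainMap (1 : Equiv.Perm (Fin n)) 0 a' R := by
  refine ⟨fun j => le_rfl, fun j => by simpa using h, ?_⟩
  intro j j' hjj'
  right
  exact ⟨rfl, hjj'⟩

lemma cellG_one_zero' (w : Fin n → ℝ) : cellG 1 0 w = w := by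
  funext j
  simp [cellG]

/-- A host cell of the outer layers has a coordinate above the big corner. -/
lemma host_above {u c : ℝ} (hu : 0 < u) {κ : Fin n → ℕ} {l : Fin n} {t : ℝ}
    (hl : t ≤ (κ l : ℝ)) {w : Fin n → ℝ} (hw : w ∈ ordSimplex n u) :
    c + u * t < cellG (digitPerm κ) (hostB u c κ) w ((digitPerm κ).symm l) := by
  rw [hostG_apply]
  simp only [Equiv.apply_symm_apply]
  have h1 := hw.2.1 l
  have h2 := mul_le_mul_of_nonneg_left hl hu.le
  linarith

lemma host_lower {u c : ℝ} (hu : 0 < u) {κ : Fin n → ℕ} {w : Fin n → ℝ}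
    (hw : w ∈ ordSimplex n u) (j : Fin n) :
    c < cellG (digitPerm κ) (hostB u c κ) w j := by
  rw [hostG_apply]
  have h1 := hw.2.1 (digitPerm κ j)
  have h2 : 0 ≤ u * (κ (digitPerm κ j) : ℝ) := by positivity
  linarith

/-- The list of regions. -/
noncomputable def targetList (d q : ℕ) (R u c a' big x : ℝ) (Sκ : Finset (Fin (d + 2) → Fin q))
    (mid : (Fin (d + 2) → Fin q) → ℝ) : List (Set (Fin (d + 2) → ℝ) × ℝ) :=
  (chainRegion (1 : Equiv.Perm (Fin (d + 2))) 0 a' big, hostCap d a' big x) ::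
  (regionA a' c, if x ≤ c then capA d R a' c x else 0) ::
  Sκ.toList.map fun κ =>
    (chainRegion (digitPerm (digOf κ)) (hostB u c (digOf κ)) u (mid κ), hostCap d u (mid κ) x)

lemma targetList_sum (d q : ℕ) (R u c a' big x : ℝ) (Sκ : Finset (Fin (d + 2) → Fin q))
    (mid : (Fin (d + 2) → Fin q) → ℝ) :
    ((targetList d q R u c a' big x Sκ mid).map Prod.snd).sum =
      hostCap d a' big x + ((if x ≤ c then capA d R a' c x else 0) +
        ∑ κ ∈ Sκ, hostCap d u (mid κ) x) := by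
  simp only [targetList, List.map_cons, List.sum_cons, List.map_map]
  congr 2
  exact Finset.sum_map_toList Sκ fun κ => hostCap d u (mid κ) x

/-- The regions accept the cube lists up to their total capacity. -/
theorem targetList_fill (d q e : ℕ) {R u x c a' big : ℝ} (hu : 0 < u) (hx : 0 ≤ x)
    (hnx : ((d : ℝ) + 2) * x ≤ u) (hc0 : 0 ≤ c) (hqR : (q : ℝ) * u + c ≤ R)
    (he1 : 1 ≤ e) (he2 : e ≤ q) (ha' : a' = R - e * u) (hc : c = R - q * u)
    (hbig : 0 ≤ big) (Sκ : Finset (Fin (d + 2) → Fin q))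
    (hSκ : ∀ κ ∈ Sκ, ∃ l, q - e ≤ (κ l : ℕ))
    (mid : (Fin (d + 2) → Fin q) → ℝ) (hmid : ∀ κ, 0 ≤ mid κ)
    (L : List ℝ) (hsort : L.Pairwise (· ≥ ·)) (hL : ∀ y ∈ L, 0 ≤ y ∧ y ≤ x)
    (hs : (((d + 2)! : ℕ) : ℝ) * (L.map fun y => y ^ (d + 2)).sum ≤
      ((targetList d q R u c a' big x Sκ mid).map Prod.snd).sum) :
    FinalPlaced (d + 2) R (⋃ t ∈ targetList d q R u c a' big x Sκ mid, t.1) L := by
  have hR0 : 0 ≤ R := by
    have : 0 ≤ (q : ℝ) * u := by positivity
    linarith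
  have he0 : (0 : ℝ) ≤ e := by positivity
  have hqe : ((q - e : ℕ) : ℝ) = (q : ℝ) - e := by rw [Nat.cast_sub he2]
  have ha'c : a' - c = ((q - e : ℕ) : ℝ) * u := by
    rw [ha', hc, hqe]; ring
  have hF0 : 0 ≤ a' - c := by rw [ha'c]; positivity
  have ha'R : a' ≤ R := by
    rw [ha']
    have : 0 ≤ (e : ℝ) * u := by positivity
    linarith
  have hchain : ∀ κ : Fin (d + 2) → Fin q,
      ChainMap (digitPerm (digOf κ)) (hostB u c (digOf κ)) u R :=
    fun κ => host_chain hu hc0 hqR _ fun l => (κ l).2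
  have hfitA : ((d : ℝ) + 1) * x ≤ R - a' := by
    have h1 : ((d : ℝ) + 1) * x ≤ ((d : ℝ) + 2) * x := by
      apply mul_le_mul_of_nonneg_right _ hx
      linarith
    have h2 : (1 : ℝ) ≤ e := by exact_mod_cast he1
    have h3 : u ≤ (e : ℝ) * u := by nlinarith
    rw [ha']
    linarith
  refine greedy_fill (by omega) hR0 _ ?_ ?_ L hsort hL hs
  · -- the capacities
    intro t ht
    simp only [targetList, List.mem_cons, List.mem_map] at ht
    rcases ht with rfl | rfl | ⟨κ, -, rfl⟩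
    · exact ⟨hostCap_nonneg d hbig, fun hpos => canPlace_host (chainMap_one ha'R) hbig hpos⟩
    · dsimp only
      split_ifs with hxc
      · exact ⟨capA_nonneg d hF0 hxc hfitA, fun _ => canPlace_A hF0 hxc hfitA hx⟩
      · exact ⟨le_rfl, fun h => absurd h (lt_irrefl _)⟩
    · exact ⟨hostCap_nonneg d (hmid κ), fun hpos => canPlace_host (hchain κ) (hmid κ) hpos⟩
  · -- the regions are disjoint
    have hO : ∀ v ∈ chainRegion (1 : Equiv.Perm (Fin (d + 2))) 0 a' big, v ∈ ordSimplex (d + 2) a' := by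
      rintro v ⟨w, hw, -, rfl⟩
      rw [cellG_one_zero']
      exact hw
    have hH : ∀ κ ∈ Sκ, ∀ v ∈ chainRegion (digitPerm (digOf κ)) (hostB u c (digOf κ)) u (mid κ),
        (∃ j, a' < v j) ∧ ∀ j, c < v j := by
      rintro κ hκ v ⟨w, hw, -, rfl⟩
      obtain ⟨l, hl⟩ := hSκ κ hκ
      constructor
      · refine ⟨(digitPerm (digOf κ)).symm l, ?_⟩
        have h1 : (((q - e : ℕ) : ℝ)) ≤ (digOf κ l : ℝ) := by
          exact_mod_cast hl
        have := host_above (c := c) hu h1 hw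
        have e1 : c + u * ((q - e : ℕ) : ℝ) = a' := by
          rw [mul_comm, ← ha'c]; ring
        rw [e1] at this
        exact this
      · exact fun j => host_lower hu hw j
    simp only [targetList]
    rw [List.pairwise_cons, List.pairwise_cons]
    refine ⟨?_, ?_, ?_⟩
    · intro t ht
      simp only [List.mem_cons, List.mem_map] at ht
      rcases ht with rfl | ⟨κ, hκ, rfl⟩
      · rw [Set.disjoint_left]
        intro v hv hv'
        have h1 := (hO v hv).2.2 0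
        have h2 := hv'.1
        linarith
      · rw [Set.disjoint_left]
        intro v hv hv'
        obtain ⟨⟨j, hj⟩, -⟩ := hH κ (Finset.mem_toList.mp hκ) v hv'
        have h1 := (hO v hv).2.2 j
        linarith
    · intro t ht
      obtain ⟨κ, hκ, rfl⟩ := List.mem_map.mp ht
      rw [Set.disjoint_left]
      intro v hv hv'
      have h1 := (hH κ (Finset.mem_toList.mp hκ) v hv').2 (Fin.last _)
      have h2 := hv.2
      linarith
    · rw [List.pairwise_map]
      refine (Finset.nodup_toList Sκ).imp_of_mem ?_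
      intro κ κ' _ _ hne
      rw [Set.disjoint_left]
      rintro v ⟨w, hw, -, rfl⟩ ⟨w', hw', -, he⟩
      exact hne (digOf_injective (host_disjoint hu hw' hw he).symm)

lemma mem_targets_cases {d q : ℕ} {R u c a' big x : ℝ} {Sκ : Finset (Fin (d + 2) → Fin q)}
    {mid : (Fin (d + 2) → Fin q) → ℝ} {v : Fin (d + 2) → ℝ}
    (hv : v ∈ ⋃ t ∈ targetList d q R u c a' big x Sκ mid, t.1) :
    v ∈ chainRegion (1 : Equiv.Perm (Fin (d + 2))) 0 a' big ∨ v ∈ regionA a' c ∨
      ∃ κ ∈ Sκ, v ∈ chainRegion (digitPerm (digOf κ)) (hostB u c (digOf κ)) u (mid κ) := by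
  simp only [Set.mem_iUnion] at hv
  obtain ⟨t, ht, hv⟩ := hv
  simp only [targetList, List.mem_cons, List.mem_map] at ht
  rcases ht with rfl | rfl | ⟨κ, hκ, rfl⟩
  · exact Or.inl hv
  · exact Or.inr (Or.inl hv)
  · exact Or.inr (Or.inr ⟨κ, Finset.mem_toList.mp hκ, hv⟩)

/-- The sum of the capacities covers the volumes of the tiny balls. -/
lemma total_capacity (d q e : ℕ) {R u x : ℝ} (hu : 0 < u) (hx : 0 ≤ x)
    (hnx : ((d : ℝ) + 2) * x ≤ u) (hq : (q : ℝ) * u ≤ R) (he1 : 1 ≤ e) (he2 : e ≤ q)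
    {big tinyS midS : ℝ} (hbig0 : 0 ≤ big) (Sκ : Finset (Fin (d + 2) → Fin q))
    (hcard : q ^ (d + 2) - (q - e) ^ (d + 2) ≤ Sκ.card)
    (mid : (Fin (d + 2) → Fin q) → ℝ) (hmid : ∀ κ, 0 ≤ mid κ)
    (hmidS : ∑ κ ∈ Sκ, mid κ ^ (d + 2) = midS)
    (hvol : big ^ (d + 2) + midS + tinyS + (((d + 2)! : ℕ) : ℝ) * x ^ (d + 2) +
      ((d : ℝ) + 2) ^ 2 * x * (2 * R ^ (d + 1) +
        ((q ^ (d + 2) - (q - e) ^ (d + 2) : ℕ) : ℝ) * u ^ (d + 1)) ≤ R ^ (d + 2)) :
    tinyS + (((d + 2)! : ℕ) : ℝ) * x ^ (d + 2) ≤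
      ((targetList d q R u (R - q * u) (R - e * u) big x Sκ mid).map Prod.snd).sum := by
  rw [targetList_sum]
  have hO := hostCap_lower d (u := R - e * u) (x := x) hbig0
  have hcap := capacity_lower d q e hu hx hnx hq he1 he2
  set Nr : ℝ := ((q ^ (d + 2) - (q - e) ^ (d + 2) : ℕ) : ℝ) with hNr
  have hux : 0 ≤ u - ((d : ℝ) + 2) * x := by linarith
  have hpow0 : 0 ≤ (u - ((d : ℝ) + 2) * x) ^ (d + 2) := pow_nonneg hux _
  have hhost : Nr * (u - ((d : ℝ) + 2) * x) ^ (d + 2) - midS ≤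
      ∑ κ ∈ Sκ, hostCap d u (mid κ) x := by
    have h1 : ∑ κ ∈ Sκ, ((u - ((d : ℝ) + 2) * x) ^ (d + 2) - mid κ ^ (d + 2)) ≤
        ∑ κ ∈ Sκ, hostCap d u (mid κ) x := by
      apply Finset.sum_le_sum
      intro κ _
      have := hostCap_lower d (u := u) (x := x) (hmid κ)
      rwa [max_eq_left hux] at this
    rw [Finset.sum_sub_distrib, hmidS, Finset.sum_const, nsmul_eq_mul] at h1
    have h2 : Nr ≤ (Sκ.card : ℝ) := by
      simp only [hNr]
      exact_mod_cast hcard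
    have h3 := mul_le_mul_of_nonneg_right h2 hpow0
    linarith
  linarith

/-- The rigid packing of a big ball, balls of size at most `u` in the outer layers of a lattice of
mesh `u`, and tiny balls. -/
theorem rigid_bigTiny (d k q e : ℕ) (R u x : ℝ) (hu : 0 < u) (hx : 0 ≤ x)
    (hnx : ((d : ℝ) + 2) * x ≤ u) (hq : (q : ℝ) * u ≤ R) (he1 : 1 ≤ e) (he2 : e ≤ q)
    (a : Fin k → ℝ) (ha : ∀ i, 0 < a i) (i₀ : Fin k) (S : Finset (Fin k)) (hi₀ : i₀ ∉ S)
    (hS : S.card ≤ q ^ (d + 2) - (q - e) ^ (d + 2))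
    (hbig : a i₀ ≤ R - e * u) (hmid : ∀ i ∈ S, a i ≤ u)
    (htiny : ∀ i, i ∉ S → i ≠ i₀ → a i ≤ x)
    (hvol : ∑ i, a i ^ (d + 2) + (((d + 2)! : ℕ) : ℝ) * x ^ (d + 2) +
      ((d : ℝ) + 2) ^ 2 * x * (2 * R ^ (d + 1) +
        ((q ^ (d + 2) - (q - e) ^ (d + 2) : ℕ) : ℝ) * u ^ (d + 1)) ≤ R ^ (d + 2)) :
    ∃ (ρ : Fin k → Equiv.Perm (Fin (d + 2))) (b : Fin k → Fin (d + 2) → ℝ),
      (∀ i, ∀ w ∈ ordSimplex (d + 2) (a i), cellG (ρ i) (b i) w ∈ ordSimplex (d + 2) R) ∧
      ∀ i j, i ≠ j → ∀ w ∈ ordSimplex (d + 2) (a i), ∀ w' ∈ ordSimplex (d + 2) (a j),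
        cellG (ρ i) (b i) w ≠ cellG (ρ j) (b j) w' := by
  classical
  set c : ℝ := R - q * u with hc
  set a' : ℝ := R - e * u with ha'
  have hc0 : 0 ≤ c := by simp only [hc]; linarith
  have hqR : (q : ℝ) * u + c ≤ R := by simp only [hc]; linarith
  set Sκ : Finset (Fin (d + 2) → Fin q) :=
    Finset.univ.filter fun κ => ∃ l, q - e ≤ (κ l : ℕ) with hSκ
  have hSκmem : ∀ κ ∈ Sκ, ∃ l, q - e ≤ (κ l : ℕ) := by
    intro κ hκ
    simpa [hSκ] using hκ
  have hcardκ : q ^ (d + 2) - (q - e) ^ (d + 2) ≤ Sκ.card := card_digit_lower (d + 2) q e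
  have hcard : Fintype.card {i // i ∈ S} ≤ Fintype.card {κ // κ ∈ Sκ} := by
    rw [Fintype.card_coe, Fintype.card_coe]
    omega
  obtain ⟨f⟩ := Function.Embedding.nonempty_of_card_le hcard
  set g : {i // i ∈ S} → (Fin (d + 2) → Fin q) := fun i => (f i).1 with hg
  have hginj : Function.Injective g := by
    intro i i' h
    exact f.injective (Subtype.ext h)
  have hgmem : ∀ i, g i ∈ Sκ := fun i => (f i).2
  set mid : (Fin (d + 2) → Fin q) → ℝ := Function.extend g (fun i => a i.1) 0 with hmiddef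
  have hmidval : ∀ i, mid (g i) = a i.1 := fun i => hginj.extend_apply _ _ i
  have hmidout : ∀ κ, (¬ ∃ i, g i = κ) → mid κ = 0 := fun κ h => by
    simp only [hmiddef]
    rw [Function.extend_apply' _ _ _ h]
    rfl
  have hmid0 : ∀ κ, 0 ≤ mid κ := by
    intro κ
    by_cases h : ∃ i, g i = κ
    · obtain ⟨i, rfl⟩ := h
      rw [hmidval]
      exact (ha _).le
    · rw [hmidout κ h]
  have hmidu : ∀ κ, mid κ ≤ u := by
    intro κ
    by_cases h : ∃ i, g i = κ
    · obtain ⟨i, rfl⟩ := h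
      rw [hmidval]
      exact hmid _ i.2
    · rw [hmidout κ h]
      exact hu.le
  have hsummid : ∑ κ ∈ Sκ, mid κ ^ (d + 2) = ∑ i ∈ S, a i ^ (d + 2) := by
    have e1 : ∑ i ∈ S, a i ^ (d + 2) = ∑ i : {i // i ∈ S}, a i.1 ^ (d + 2) :=
      (Finset.sum_coe_sort S fun i => a i ^ (d + 2)).symm
    have e2 : ∑ κ ∈ Finset.univ.image g, mid κ ^ (d + 2) = ∑ i : {i // i ∈ S}, a i.1 ^ (d + 2) := by
      rw [Finset.sum_image (fun i _ i' _ h => hginj h)]
      exact Finset.sum_congr rfl fun i _ => by rw [hmidval]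
    rw [e1, ← e2]
    symm
    apply Finset.sum_subset
    · intro κ hκ
      obtain ⟨i, -, rfl⟩ := Finset.mem_image.mp hκ
      exact hgmem i
    · intro κ _ hκ
      have h : ¬ ∃ i, g i = κ := by
        rintro ⟨i, rfl⟩
        exact hκ (Finset.mem_image_of_mem _ (Finset.mem_univ _))
      rw [hmidout κ h]
      simp
  -- the tiny balls
  set Tf : Finset (Fin k) := Finset.univ \ insert i₀ S with hTf
  have hTfmem : ∀ i, i ∈ Tf ↔ i ≠ i₀ ∧ i ∉ S := by
    intro i
    simp [hTf]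
  let eT : {i // i ∈ Tf} ≃ Fin Tf.card := Tf.equivFin
  let a2 : Fin Tf.card → ℝ := fun j => a (eT.symm j).1
  have hsumall : ∑ i, a i ^ (d + 2) =
      a i₀ ^ (d + 2) + ∑ i ∈ S, a i ^ (d + 2) + ∑ j, a2 j ^ (d + 2) := by
    have e1 : ∑ j, a2 j ^ (d + 2) = ∑ i ∈ Tf, a i ^ (d + 2) := by
      rw [← Finset.sum_coe_sort Tf fun i => a i ^ (d + 2)]
      exact Equiv.sum_comp eT.symm fun i : {i // i ∈ Tf} => a i.1 ^ (d + 2)
    have e2 : ∑ i ∈ insert i₀ S, a i ^ (d + 2) = a i₀ ^ (d + 2) + ∑ i ∈ S, a i ^ (d + 2) :=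
      Finset.sum_insert hi₀
    have e3 := Finset.sum_sdiff (s₁ := insert i₀ S) (s₂ := Finset.univ)
      (f := fun i => a i ^ (d + 2)) (Finset.subset_univ _)
    rw [← hTf] at e3
    rw [e1, ← e2]
    linarith
  have hT : ∑ j, a2 j ^ (d + 2) + (((d + 2)! : ℕ) : ℝ) * x ^ (d + 2) ≤
      ((targetList d q R u c a' (a i₀) x Sκ mid).map Prod.snd).sum := by
    apply total_capacity d q e hu hx hnx hq he1 he2 (ha i₀).le Sκ hcardκ mid hmid0 hsummid
    rw [← hsumall]
    exact hvol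
  have ha2 : ∀ j, a2 j ≤ x := by
    intro j
    have h := (eT.symm j).2
    rw [hTfmem] at h
    exact htiny _ h.2 h.1
  obtain ⟨ρt, bt, ht1, ht2⟩ := tiny_assign (d + 1) Tf.card a2 (fun j => ha _) ha2 hx
    (fun L hsort hL hs => targetList_fill d q e hu hx hnx hc0 hqR he1 he2 ha' hc (ha i₀).le Sκ
      hSκmem mid hmid0 L hsort hL hs) hT
  -- the host of a ball
  have hchain : ∀ κ : Fin (d + 2) → Fin q,
      ChainMap (digitPerm (digOf κ)) (hostB u c (digOf κ)) u R :=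
    fun κ => host_chain hu hc0 hqR _ fun l => (κ l).2
  have hord : ∀ {s t : ℝ} {w : Fin (d + 2) → ℝ}, s ≤ t → w ∈ ordSimplex (d + 2) s →
      w ∈ ordSimplex (d + 2) t := fun hst hw =>
    ⟨hw.1, hw.2.1, fun j => lt_of_lt_of_le (hw.2.2 j) hst⟩
  have hqe : ((q - e : ℕ) : ℝ) = (q : ℝ) - e := by rw [Nat.cast_sub he2]
  have hctop : c + u * ((q - e : ℕ) : ℝ) = a' := by
    rw [hqe]
    simp only [hc, ha']
    ring
  have hhost_above : ∀ κ ∈ Sκ, ∀ w ∈ ordSimplex (d + 2) u,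
      ∃ j, a' < cellG (digitPerm (digOf κ)) (hostB u c (digOf κ)) w j := by
    intro κ hκ w hw
    obtain ⟨l, hl⟩ := hSκmem κ hκ
    refine ⟨(digitPerm (digOf κ)).symm l, ?_⟩
    have h1 : (((q - e : ℕ) : ℝ)) ≤ (digOf κ l : ℝ) := by exact_mod_cast hl
    have := host_above (c := c) hu h1 hw
    rwa [hctop] at this
  -- the facts on the regions
  have hΩbig : ∀ v ∈ ⋃ t ∈ targetList d q R u c a' (a i₀) x Sκ mid, t.1,
      v ∉ ordSimplex (d + 2) (a i₀) := by
    intro v hv hvb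
    rcases mem_targets_cases hv with h | h | ⟨κ, hκ, h⟩
    · obtain ⟨w, -, ⟨l, hl⟩, rfl⟩ := h
      rw [cellG_one_zero'] at hvb
      exact absurd (hvb.2.2 l) (not_lt.mpr hl)
    · have := hvb.2.2 0
      have := h.1
      linarith
    · obtain ⟨w, hw, -, rfl⟩ := h
      obtain ⟨j, hj⟩ := hhost_above κ hκ w hw
      have := hvb.2.2 j
      linarith
  have hΩmid : ∀ v ∈ ⋃ t ∈ targetList d q R u c a' (a i₀) x Sκ mid, t.1,
      ∀ κ ∈ Sκ, ∀ w ∈ ordSimplex (d + 2) (mid κ),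
        v ≠ cellG (digitPerm (digOf κ)) (hostB u c (digOf κ)) w := by
    intro v hv κ hκ w hw he
    have hwu := hord (hmidu κ) hw
    rcases mem_targets_cases hv with h | h | ⟨κ₁, hκ₁, h⟩
    · obtain ⟨w₁, hw₁, -, rfl⟩ := h
      rw [cellG_one_zero'] at he
      obtain ⟨j, hj⟩ := hhost_above κ hκ w hwu
      rw [← he] at hj
      have := hw₁.2.2 j
      linarith
    · have h1 := h.2
      rw [he] at h1
      have h2 := host_lower (c := c) (κ := digOf κ) hu hwu (Fin.last _)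
      linarith
    · obtain ⟨w₁, hw₁, ⟨l, hl⟩, rfl⟩ := h
      have h1 := digOf_injective (host_disjoint hu hw₁ hwu he)
      subst h1
      have h2 := cellG_injective _ _ he
      rw [h2] at hl
      exact absurd (hw.2.2 l) (not_lt.mpr hl)
  have hbigmid : ∀ κ ∈ Sκ, ∀ w ∈ ordSimplex (d + 2) (a i₀), ∀ w' ∈ ordSimplex (d + 2) (mid κ),
      w ≠ cellG (digitPerm (digOf κ)) (hostB u c (digOf κ)) w' := by
    intro κ hκ w hw w' hw' he
    obtain ⟨j, hj⟩ := hhost_above κ hκ w' (hord (hmidu κ) hw')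
    rw [← he] at hj
    have := hw.2.2 j
    linarith
  -- the data of the balls
  have hcases : ∀ i, i = i₀ ∨ i ∈ S ∨ i ∈ Tf := by
    intro i
    by_cases h0 : i = i₀
    · exact Or.inl h0
    · by_cases h1 : i ∈ S
      · exact Or.inr (Or.inl h1)
      · exact Or.inr (Or.inr ((hTfmem i).mpr ⟨h0, h1⟩))
  have hne : ∀ i ∈ S, i ≠ i₀ := fun i hi h => hi₀ (h ▸ hi)
  let ρ : Fin k → Equiv.Perm (Fin (d + 2)) := fun i =>
    if h0 : i = i₀ then 1 else if h1 : i ∈ S then digitPerm (digOf (g ⟨i, h1⟩))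
    else ρt (eT ⟨i, (hTfmem i).mpr ⟨h0, h1⟩⟩)
  let b : Fin k → Fin (d + 2) → ℝ := fun i =>
    if h0 : i = i₀ then 0 else if h1 : i ∈ S then hostB u c (digOf (g ⟨i, h1⟩))
    else bt (eT ⟨i, (hTfmem i).mpr ⟨h0, h1⟩⟩)
  have hρ0 : ρ i₀ = 1 := by simp [ρ]
  have hb0 : b i₀ = 0 := by simp [b]
  have hρ1 : ∀ i (h : i ∈ S), ρ i = digitPerm (digOf (g ⟨i, h⟩)) := by
    intro i h
    simp only [ρ, dif_neg (hne i h), dif_pos h]
  have hb1 : ∀ i (h : i ∈ S), b i = hostB u c (digOf (g ⟨i, h⟩)) := by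
    intro i h
    simp only [b, dif_neg (hne i h), dif_pos h]
  have hρ2 : ∀ i (h : i ∈ Tf), ρ i = ρt (eT ⟨i, h⟩) := by
    intro i h
    have h' := (hTfmem i).mp h
    simp only [ρ, dif_neg h'.1, dif_neg h'.2]
  have hb2 : ∀ i (h : i ∈ Tf), b i = bt (eT ⟨i, h⟩) := by
    intro i h
    have h' := (hTfmem i).mp h
    simp only [b, dif_neg h'.1, dif_neg h'.2]
  have hamid : ∀ i (h : i ∈ S), a i = mid (g ⟨i, h⟩) := fun i h => (hmidval ⟨i, h⟩).symm
  have hatiny : ∀ i (h : i ∈ Tf), a i = a2 (eT ⟨i, h⟩) := by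
    intro i h
    simp [a2]
  refine ⟨ρ, b, ?_, ?_⟩
  · intro i w hw
    rcases hcases i with rfl | h | h
    · rw [hρ0, hb0, cellG_one_zero']
      exact hord (by
        have : a' ≤ R := by
          simp only [ha']
          have : 0 ≤ (e : ℝ) * u := by positivity
          linarith
        linarith) hw
    · rw [hρ1 i h, hb1 i h]
      exact cellG_mem_of_chain (hchain _) (hord (hmid i h) hw)
    · rw [hρ2 i h, hb2 i h]
      rw [hatiny i h] at hw
      exact (ht1 _ w hw).1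
  · intro i j hij w hw w' hw'
    rcases hcases i with rfl | h | h
    · rcases hcases j with rfl | h' | h'
      · exact absurd rfl hij
      · rw [hρ0, hb0, cellG_one_zero', hρ1 j h', hb1 j h']
        rw [hamid j h'] at hw'
        exact hbigmid _ (hgmem _) w hw w' hw'
      · rw [hρ0, hb0, cellG_one_zero', hρ2 j h', hb2 j h']
        rw [hatiny j h'] at hw'
        intro he
        rw [he] at hw
        exact hΩbig _ (ht1 _ w' hw').2 hw
    · rcases hcases j with rfl | h' | h'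
      · rw [hρ0, hb0, cellG_one_zero', hρ1 i h, hb1 i h]
        rw [hamid i h] at hw
        exact fun he => hbigmid _ (hgmem _) w' hw' w hw he.symm
      · rw [hρ1 i h, hb1 i h, hρ1 j h', hb1 j h']
        rw [hamid i h] at hw
        rw [hamid j h'] at hw'
        intro he
        have h1 := digOf_injective (host_disjoint hu (hord (hmidu _) hw) (hord (hmidu _) hw') he)
        have h2 := hginj h1
        exact hij (congrArg Subtype.val h2)
      · rw [hρ1 i h, hb1 i h, hρ2 j h', hb2 j h']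
        rw [hamid i h] at hw
        rw [hatiny j h'] at hw'
        exact fun he => hΩmid _ (ht1 _ w' hw').2 _ (hgmem _) w hw he.symm
    · rcases hcases j with rfl | h' | h'
      · rw [hρ0, hb0, cellG_one_zero', hρ2 i h, hb2 i h]
        rw [hatiny i h] at hw
        intro he
        rw [← he] at hw'
        exact hΩbig _ (ht1 _ w hw).2 hw'
      · rw [hρ1 j h', hb1 j h', hρ2 i h, hb2 i h]
        rw [hamid j h'] at hw'
        rw [hatiny i h] at hw
        exact hΩmid _ (ht1 _ w hw).2 _ (hgmem _) w' hw'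
      · rw [hρ2 i h, hb2 i h, hρ2 j h', hb2 j h']
        rw [hatiny i h] at hw
        rw [hatiny j h'] at hw'
        refine ht2 _ _ ?_ w hw w' hw'
        intro he
        have h1 := eT.injective he
        exact hij (congrArg Subtype.val h1)

end Vale.Agent.Lib.P209
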