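import Vale.Agent.Lib.P209.BigTiny

/-! Ball packings from the rigid packings with big and tiny balls. -/

namespace Vale.Agent.Lib.P209

open Nat Filter Topology

/-- A big ball, balls of capacity below `u` in the outer layers of a lattice of mesh `u`, and tiny
balls of capacity at most `x` filling the remaining space up to a slack linear in `x`. -/
theorem ballPacking_bigTiny_lattice {n k q e : ℕ} (hn : 2 ≤ n) {R u x : ℝ} (hu : 0 < u)
    (hx : 0 ≤ x) (hnx : (n : ℝ) * x < u) (hq : (q : ℝ) * u ≤ R) (he1 : 1 ≤ e) (he2 : e ≤ q)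
    (r : Fin k → ℝ) (hr : ∀ i, 0 < r i) (i₀ : Fin k) (S : Finset (Fin k)) (hi₀ : i₀ ∉ S)
    (hS : S.card ≤ q ^ n - (q - e) ^ n) (hbig : r i₀ + e * u < R) (hmid : ∀ i ∈ S, r i < u)
    (htiny : ∀ i, i ∉ S → i ≠ i₀ → r i ≤ x)
    (hvol : ∑ i, r i ^ n + ((n ! : ℕ) : ℝ) * x ^ n +
      (n : ℝ) ^ 2 * x * (2 * R ^ (n - 1) + ((q ^ n - (q - e) ^ n : ℕ) : ℝ) * u ^ (n - 1)) < R ^ n) :
    BallPacking n k R r := by
  obtain ⟨d, rfl⟩ : ∃ d, n = d + 2 := ⟨n - 2, by omega⟩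
  have hcast : ((d + 2 : ℕ) : ℝ) = (d : ℝ) + 2 := by push_cast; ring
  rw [hcast] at hnx hvol
  have hpred : d + 2 - 1 = d + 1 := rfl
  rw [hpred] at hvol
  set Nr : ℝ := ((q ^ (d + 2) - (q - e) ^ (d + 2) : ℕ) : ℝ) with hNr
  -- inflate
  have h1 : ∀ᶠ t in 𝓝 (1 : ℝ), t * r i₀ + e * u < R := by
    have hc : Continuous fun t : ℝ => t * r i₀ + e * u := by fun_prop
    apply hc.continuousAt.eventually (gt_mem_nhds _)
    simpa using hbig
  have h2 : ∀ᶠ t in 𝓝 (1 : ℝ), ∀ i, i ∈ S → t * r i < u := by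
    rw [Filter.eventually_all]
    intro i
    by_cases hi : i ∈ S
    · have hc : Continuous fun t : ℝ => t * r i := by fun_prop
      have hlt : (fun t : ℝ => t * r i) 1 < u := by simpa using hmid i hi
      have := hc.continuousAt.eventually (gt_mem_nhds hlt)
      exact this.mono fun t ht _ => ht
    · exact Filter.Eventually.of_forall fun t h => absurd h hi
  have h3 : ∀ᶠ t in 𝓝 (1 : ℝ), ((d : ℝ) + 2) * (t * x) < u := by
    have hc : Continuous fun t : ℝ => ((d : ℝ) + 2) * (t * x) := by fun_prop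
    apply hc.continuousAt.eventually (gt_mem_nhds _)
    simpa using hnx
  have h4 : ∀ᶠ t in 𝓝 (1 : ℝ), ∑ i, (t * r i) ^ (d + 2) +
      (((d + 2)! : ℕ) : ℝ) * (t * x) ^ (d + 2) +
      ((d : ℝ) + 2) ^ 2 * (t * x) * (2 * R ^ (d + 1) + Nr * u ^ (d + 1)) < R ^ (d + 2) := by
    have hc : Continuous fun t : ℝ => ∑ i, (t * r i) ^ (d + 2) +
        (((d + 2)! : ℕ) : ℝ) * (t * x) ^ (d + 2) +
        ((d : ℝ) + 2) ^ 2 * (t * x) * (2 * R ^ (d + 1) + Nr * u ^ (d + 1)) := by fun_prop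
    apply hc.continuousAt.eventually (gt_mem_nhds _)
    simpa using hvol
  obtain ⟨t, ⟨⟨⟨ht1, ht2⟩, ht3⟩, ht4⟩, ht5⟩ :=
    (((h1.and h2).and h3).and h4 |>.filter_mono
      (nhdsWithin_le_nhds (s := Set.Ioi 1))).and self_mem_nhdsWithin |>.exists
  have ht : (1 : ℝ) < t := ht5
  have ht0 : 0 < t := by linarith
  have hx' : 0 ≤ t * x := mul_nonneg ht0.le hx
  obtain ⟨ρ, b, hin, hdisj⟩ := rigid_bigTiny d k q e R u (t * x) hu hx' ht3.le hq he1 he2
    (fun i => t * r i) (fun i => mul_pos ht0 (hr i)) i₀ S hi₀ hS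
    (by linarith)
    (fun i hi => (ht2 i hi).le)
    (fun i hi hi' => mul_le_mul_of_nonneg_left (htiny i hi hi') ht0.le)
    ht4.le
  refine ballPacking_of_cells (by omega) R r (fun i => t * r i) ?_ ρ b hin hdisj
  intro i
  nlinarith [hr i]

/-- At most `2 ^ n` big balls satisfying the pair condition, and balls of capacity at most `x`, with
the volume condition up to a slack linear in `x`. -/
theorem ballPacking_bigTiny {n k : ℕ} (hn : 2 ≤ n) {R x : ℝ} (hR : 0 < R) (hx : 0 ≤ x)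
    (r : Fin k → ℝ) (hr : ∀ i, 0 < r i) (S : Finset (Fin k)) (hS : S.card ≤ 2 ^ n)
    (hpair : ∀ i ∈ S, ∀ j ∈ S, i ≠ j → r i + r j < R) (htiny : ∀ i, i ∉ S → r i ≤ x)
    (hvol : ∑ i, r i ^ n + 5 * (n : ℝ) ^ 2 * x * R ^ (n - 1) < R ^ n) :
    BallPacking n k R r := by
  classical
  rcases Nat.eq_zero_or_pos k with rfl | hk0
  · exact ⟨fun i => i.elim0, fun i => i.elim0, fun i => i.elim0, fun i => i.elim0⟩
  have hn0 : (0 : ℝ) < n := by positivity
  have hn1 : (2 : ℝ) ≤ n := by exact_mod_cast hn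
  have hn' : n ≠ 0 := by omega
  have hsumnn : ∀ i, 0 ≤ r i ^ n := fun i => pow_nonneg (hr i).le _
  have hsum0 : 0 ≤ ∑ i, r i ^ n := Finset.sum_nonneg fun i _ => hsumnn i
  have hRn1 : 0 < R ^ (n - 1) := by positivity
  have hRn : R ^ n = R * R ^ (n - 1) := by
    rw [← _root_.pow_succ', Nat.sub_add_cancel (by omega)]
  -- the slack compared with `R`
  have hxR : 5 * (n : ℝ) ^ 2 * x ≤ R := by
    have h1 : 5 * (n : ℝ) ^ 2 * x * R ^ (n - 1) ≤ R * R ^ (n - 1) := by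
      rw [← hRn]
      linarith
    exact le_of_mul_le_mul_right h1 hRn1
  have hnxR : (n : ℝ) * x ≤ R / 10 := by
    have h1 : (n : ℝ) * x * 10 ≤ 5 * (n : ℝ) ^ 2 * x := by
      have h2 : 0 ≤ (n : ℝ) * x := by positivity
      nlinarith
    linarith
  -- the biggest ball
  obtain ⟨i₀, S', hi₀, hS'card, htiny', hS'big, hpair'⟩ : ∃ (i₀ : Fin k) (S' : Finset (Fin k)),
      i₀ ∉ S' ∧ S'.card ≤ 2 ^ n - 1 ∧ (∀ i, i ∉ S' → i ≠ i₀ → r i ≤ x) ∧
      (∀ i ∈ S', r i ≤ r i₀) ∧ (∀ i ∈ S', r i + r i₀ < R) := by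
    rcases S.eq_empty_or_nonempty with hSe | hSne
    · refine ⟨⟨0, hk0⟩, ∅, by simp, by simp, ?_, by simp, by simp⟩
      intro i _ _
      exact htiny i (by simp [hSe])
    · obtain ⟨i₀, hi₀S, hmax⟩ := S.exists_max_image r hSne
      refine ⟨i₀, S.erase i₀, by simp, ?_, ?_, ?_, ?_⟩
      · rw [Finset.card_erase_of_mem hi₀S]
        omega
      · intro i hi hi'
        apply htiny i
        intro hS'
        exact hi (Finset.mem_erase.mpr ⟨hi', hS'⟩)
      · intro i hi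
        exact hmax i (Finset.mem_of_mem_erase hi)
      · intro i hi
        exact hpair i (Finset.mem_of_mem_erase hi) i₀ hi₀S (Finset.ne_of_mem_erase hi)
  -- the bounds for the big ball
  have hbigpow : r i₀ ^ n + 5 * (n : ℝ) ^ 2 * x * R ^ (n - 1) < R ^ n := by
    have h1 : r i₀ ^ n ≤ ∑ i, r i ^ n :=
      Finset.single_le_sum (f := fun i => r i ^ n) (fun i _ => hsumnn i) (Finset.mem_univ i₀)
    linarith
  have hslack0 : 0 ≤ 5 * (n : ℝ) ^ 2 * x * R ^ (n - 1) := by positivity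
  have hbigR : r i₀ < R := by
    have h1 : r i₀ ^ n < R ^ n := by linarith
    exact lt_of_pow_lt_pow_left₀ n hR.le h1
  have hnxgap : (n : ℝ) * x < R - r i₀ := by
    have h1 := pow_le_sub_pow_add (n - 1) (t := R - r i₀) (y := R) (by linarith)
      (by linarith [hr i₀])
    have e1 : n - 1 + 1 = n := Nat.sub_add_cancel (by omega)
    rw [e1] at h1
    have e2 : R - (R - r i₀) = r i₀ := by ring
    rw [e2] at h1
    have e3 : (((n - 1 : ℕ) : ℝ) + 1) = n := by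
      rw [Nat.cast_sub (by omega)]
      push_cast
      ring
    rw [e3] at h1
    have h2 : 5 * (n : ℝ) ^ 2 * x * R ^ (n - 1) < (n : ℝ) * (R - r i₀) * R ^ (n - 1) := by linarith
    have h3 : 5 * (n : ℝ) ^ 2 * x < (n : ℝ) * (R - r i₀) := lt_of_mul_lt_mul_right h2 hRn1.le
    have h4 : 5 * ((n : ℝ) * x) < R - r i₀ := by
      have e4 : 5 * (n : ℝ) ^ 2 * x = (n : ℝ) * (5 * ((n : ℝ) * x)) := by ring
      rw [e4] at h3
      exact lt_of_mul_lt_mul_left h3 hn0.le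
    have h5 : 0 ≤ (n : ℝ) * x := by positivity
    linarith
  -- the mesh
  obtain ⟨M, hM0, hM1, hM2, hM3⟩ : ∃ M : ℝ, (n : ℝ) * x ≤ M ∧ M < R - r i₀ ∧ M < R / 2 ∧
      ∀ i ∈ S', r i ≤ M := by
    rcases S'.eq_empty_or_nonempty with hSe | hSne
    · refine ⟨(n : ℝ) * x, le_rfl, hnxgap, by linarith, by simp [hSe]⟩
    · obtain ⟨i₂, hi₂, hmax⟩ := S'.exists_max_image r hSne
      refine ⟨max ((n : ℝ) * x) (r i₂), le_max_left _ _, max_lt hnxgap ?_, max_lt (by linarith) ?_,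
        fun i hi => le_trans (hmax i hi) (le_max_right _ _)⟩
      · linarith [hpair' i₂ hi₂]
      · linarith [hpair' i₂ hi₂, hS'big i₂ hi₂]
  set u : ℝ := min (R / 2) ((M + (R - r i₀)) / 2) with hu
  have hMu : M < u := lt_min hM2 (by linarith)
  have hu2 : u ≤ R / 2 := min_le_left _ _
  have hu3 : u < R - r i₀ := lt_of_le_of_lt (min_le_right _ _) (by linarith)
  have hnxu : (n : ℝ) * x < u := lt_of_le_of_lt hM0 hMu
  have hnx00 : 0 ≤ (n : ℝ) * x := by positivity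
  have hu0 : 0 < u := by linarith
  have hmem : S'.card ≤ 2 ^ n - (2 - 1) ^ n := by simpa using hS'card
  refine ballPacking_bigTiny_lattice hn (q := 2) (e := 1) hu0 hx hnxu (by push_cast; linarith)
    le_rfl (by omega) r hr i₀ S' hi₀ hmem (by push_cast; linarith)
    (fun i hi => lt_of_le_of_lt (hM3 i hi) hMu) htiny' ?_
  -- the volume
  have e5 : ((2 ^ n - (2 - 1) ^ n : ℕ) : ℝ) ≤ 2 ^ n := by
    have h1 : 2 ^ n - (2 - 1) ^ n ≤ 2 ^ n := Nat.sub_le _ _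
    exact_mod_cast h1
  have hupow : u ^ (n - 1) ≤ (R / 2) ^ (n - 1) := pow_le_pow_left₀ hu0.le hu2 _
  have hN : ((2 ^ n - (2 - 1) ^ n : ℕ) : ℝ) * u ^ (n - 1) ≤ 2 * R ^ (n - 1) := by
    calc ((2 ^ n - (2 - 1) ^ n : ℕ) : ℝ) * u ^ (n - 1) ≤ 2 ^ n * (R / 2) ^ (n - 1) :=
          mul_le_mul e5 hupow (by positivity) (by positivity)
      _ = 2 * R ^ (n - 1) := by
          have e6 : (2 : ℝ) ^ n = 2 * 2 ^ (n - 1) := by
            rw [← _root_.pow_succ', Nat.sub_add_cancel (by omega)]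
          rw [e6, div_pow]
          field_simp
  have hn2x : 0 ≤ (n : ℝ) ^ 2 * x := by positivity
  have hsl : (n : ℝ) ^ 2 * x * (2 * R ^ (n - 1) + ((2 ^ n - (2 - 1) ^ n : ℕ) : ℝ) * u ^ (n - 1)) ≤
      4 * (n : ℝ) ^ 2 * x * R ^ (n - 1) := by
    have h0 : 2 * R ^ (n - 1) + ((2 ^ n - (2 - 1) ^ n : ℕ) : ℝ) * u ^ (n - 1) ≤
        2 * R ^ (n - 1) + 2 * R ^ (n - 1) := by linarith
    have := mul_le_mul_of_nonneg_left h0 hn2x
    calc (n : ℝ) ^ 2 * x * (2 * R ^ (n - 1) + ((2 ^ n - (2 - 1) ^ n : ℕ) : ℝ) * u ^ (n - 1))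
        ≤ (n : ℝ) ^ 2 * x * (2 * R ^ (n - 1) + 2 * R ^ (n - 1)) := this
      _ = 4 * (n : ℝ) ^ 2 * x * R ^ (n - 1) := by ring
  -- the factorial term
  have hfact : ((n ! : ℕ) : ℝ) * x ^ n ≤ (n : ℝ) ^ 2 * x * R ^ (n - 1) := by
    have e7 : x ^ n = x * x ^ (n - 1) := by
      rw [← _root_.pow_succ', Nat.sub_add_cancel (by omega)]
    have h1 : ((n ! : ℕ) : ℝ) ≤ (n : ℝ) * (n : ℝ) ^ (n - 1) := by
      have h2 : n ! ≤ n ^ n := Nat.factorial_le_pow n
      have h3 : (n : ℝ) ^ n = (n : ℝ) * (n : ℝ) ^ (n - 1) := by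
        rw [← _root_.pow_succ', Nat.sub_add_cancel (by omega)]
      rw [← h3]
      exact_mod_cast h2
    have h4 : ((n : ℝ) * x) ^ (n - 1) ≤ R ^ (n - 1) := by
      apply pow_le_pow_left₀ (by positivity)
      linarith
    have h5 : (n : ℝ) ^ (n - 1) * x ^ (n - 1) ≤ R ^ (n - 1) := by
      rw [← mul_pow]
      exact h4
    rw [e7]
    calc ((n ! : ℕ) : ℝ) * (x * x ^ (n - 1)) ≤ ((n : ℝ) * (n : ℝ) ^ (n - 1)) * (x * x ^ (n - 1)) :=
          mul_le_mul_of_nonneg_right h1 (by positivity)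
      _ = (n : ℝ) * x * ((n : ℝ) ^ (n - 1) * x ^ (n - 1)) := by ring
      _ ≤ (n : ℝ) * x * R ^ (n - 1) := mul_le_mul_of_nonneg_left h5 (by positivity)
      _ ≤ (n : ℝ) ^ 2 * x * R ^ (n - 1) := by
          apply mul_le_mul_of_nonneg_right _ hRn1.le
          have : (n : ℝ) * x ≤ (n : ℝ) * (n : ℝ) * x := by
            apply mul_le_mul_of_nonneg_right _ hx
            nlinarith
          calc (n : ℝ) * x ≤ (n : ℝ) * (n : ℝ) * x := this
            _ = _ := by ring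
  linarith

end Vale.Agent.Lib.P209
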