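import Vale.Agent.Lib.P209.Targets

/-! The lower bound for the total capacity of the regions. -/

namespace Vale.Agent.Lib.P209

open Nat

lemma pow_le_sub_pow_add (D : ℕ) {y t : ℝ} (ht : 0 ≤ t) (hty : t ≤ y) :
    y ^ (D + 1) ≤ (y - t) ^ (D + 1) + ((D : ℝ) + 1) * t * y ^ D := by
  have := bernoulli_hom D ht hty
  linarith

/-- Bernoulli for the three bodies -/
lemma pow_le_sub_pow_add' (d : ℕ) {y t : ℝ} (ht : 0 ≤ t) (hty : t ≤ y) :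
    y ^ (d + 2) ≤ (y - t) ^ (d + 2) + ((d : ℝ) + 2) * t * y ^ (d + 1) := by
  have := pow_le_sub_pow_add (d + 1) ht hty
  push_cast at this
  have e1 : (d : ℝ) + 1 + 1 = (d : ℝ) + 2 := by ring
  rw [e1] at this
  exact this

lemma bound_corner (d : ℕ) {a' R t : ℝ} (ha'0 : 0 ≤ a') (ha'R : a' ≤ R) (ht : 0 ≤ t) :
    a' ^ (d + 2) ≤ (max (a' - t) 0) ^ (d + 2) + ((d : ℝ) + 2) * t * R ^ (d + 1) := by
  have hnr : (1 : ℝ) ≤ (d : ℝ) + 2 := by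
    have : (0 : ℝ) ≤ d := by positivity
    linarith
  have hpowR : a' ^ (d + 1) ≤ R ^ (d + 1) := pow_le_pow_left₀ ha'0 ha'R _
  have hnn : 0 ≤ ((d : ℝ) + 2) * t := by positivity
  have h2 : ((d : ℝ) + 2) * t * a' ^ (d + 1) ≤ ((d : ℝ) + 2) * t * R ^ (d + 1) :=
    mul_le_mul_of_nonneg_left hpowR hnn
  rcases le_total t a' with h | h
  · have := pow_le_sub_pow_add' d ht h
    rw [max_eq_left (by linarith)]
    linarith
  · rw [max_eq_right (by linarith)]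
    have h0 : (0 : ℝ) ^ (d + 2) = 0 := by simp
    rw [h0, zero_add]
    have h3 : a' ^ (d + 2) = a' * a' ^ (d + 1) := by ring
    have h4 : a' * a' ^ (d + 1) ≤ t * a' ^ (d + 1) :=
      mul_le_mul_of_nonneg_right h (pow_nonneg ha'0 _)
    have h5 : t * a' ^ (d + 1) ≤ ((d : ℝ) + 2) * t * a' ^ (d + 1) := by
      apply mul_le_mul_of_nonneg_right _ (pow_nonneg ha'0 _)
      nlinarith
    linarith

/-- first regime: the region `A` is used -/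
lemma capacity_aux1 (d : ℕ) {R u x c a' F Nr Qu : ℝ} (hx : 0 ≤ x)
    (hnx : ((d : ℝ) + 2) * x ≤ u) (hRu : u ≤ R) (hQu1 : u ≤ Qu) (hQc : R - c = Qu)
    (hFe : F = a' - c) (hF0 : 0 ≤ F) (ha'R : a' ≤ R) (hNr0 : 0 ≤ Nr)
    (hquF : Qu ^ (d + 2) = Nr * u ^ (d + 2) + F ^ (d + 2)) (hc0 : 0 ≤ c) (hxc : x ≤ c) :
    R ^ (d + 2) - ((d : ℝ) + 2) ^ 2 * x * (2 * R ^ (d + 1) + Nr * u ^ (d + 1)) ≤
      capA d R a' c x + (max (a' - ((d : ℝ) + 2) * x) 0) ^ (d + 2) +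
      Nr * (u - ((d : ℝ) + 2) * x) ^ (d + 2) := by
  have hnx0 : 0 ≤ ((d : ℝ) + 2) * x := by positivity
  have ha'0 : 0 ≤ a' := by linarith
  have hbR := pow_le_sub_pow_add' d hnx0 (hnx.trans hRu)
  have hbu := pow_le_sub_pow_add' d hnx0 hnx
  have hba := bound_corner d ha'0 ha'R hnx0
  have hbNu := mul_le_mul_of_nonneg_left hbu hNr0
  have e2 : ((d : ℝ) + 2) ^ 2 * x * (2 * R ^ (d + 1) + Nr * u ^ (d + 1)) =
      ((d : ℝ) + 2) * (((d : ℝ) + 2) * x) * R ^ (d + 1) +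
      ((d : ℝ) + 2) * (((d : ℝ) + 2) * x) * R ^ (d + 1) +
      Nr * (((d : ℝ) + 2) * (((d : ℝ) + 2) * x) * u ^ (d + 1)) := by ring
  have hE : R - c - ((d : ℝ) + 1) * x = Qu - ((d : ℝ) + 1) * x := by rw [hQc]
  have hd1 : ((d : ℝ) + 1) * x ≤ ((d : ℝ) + 2) * x := by
    apply mul_le_mul_of_nonneg_right _ hx
    linarith
  have hE0 : 0 ≤ Qu - ((d : ℝ) + 1) * x := by linarith
  have hEle : (Qu - ((d : ℝ) + 1) * x) ^ (d + 2) ≤ Qu ^ (d + 2) := by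
    apply pow_le_pow_left₀ hE0
    have : 0 ≤ ((d : ℝ) + 1) * x := by positivity
    linarith
  have ha'x : 0 ≤ a' - x := by linarith
  have hale : (a' - x) ^ (d + 2) ≤ a' ^ (d + 2) := pow_le_pow_left₀ ha'x (by linarith) _
  have hcap : capA d R a' c x = (R - ((d : ℝ) + 2) * x) ^ (d + 2) - (a' - x) ^ (d + 2) -
      ((Qu - ((d : ℝ) + 1) * x) ^ (d + 2) - F ^ (d + 2)) := by
    unfold capA
    rw [hE, hFe]
    have e1 : (d : ℝ) + 1 + 1 = (d : ℝ) + 2 := by ring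
    rw [e1]
  rw [e2, hcap]
  have hb2 : Nr * (u - ((d : ℝ) + 2) * x) ^ (d + 2) ≥ Nr * u ^ (d + 2) -
      Nr * (((d : ℝ) + 2) * (((d : ℝ) + 2) * x) * u ^ (d + 1)) := by
    have : Nr * ((u - ((d : ℝ) + 2) * x) ^ (d + 2) +
        ((d : ℝ) + 2) * (((d : ℝ) + 2) * x) * u ^ (d + 1)) =
        Nr * (u - ((d : ℝ) + 2) * x) ^ (d + 2) +
        Nr * (((d : ℝ) + 2) * (((d : ℝ) + 2) * x) * u ^ (d + 1)) := by ring
    linarith
  linarith

/-- second regime: the region `A` is too thin -/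
lemma capacity_aux2 (d : ℕ) {R u x c a' F Nr Qu : ℝ} (hx : 0 ≤ x)
    (hnx : ((d : ℝ) + 2) * x ≤ u) (hQu0 : 0 ≤ Qu) (hQc : R - c = Qu)
    (hFe : F = a' - c) (hF0 : 0 ≤ F) (ha'R : a' ≤ R) (hNr0 : 0 ≤ Nr)
    (hquF : Qu ^ (d + 2) = Nr * u ^ (d + 2) + F ^ (d + 2)) (hc0 : 0 ≤ c) (hxc : c < x) :
    R ^ (d + 2) - ((d : ℝ) + 2) ^ 2 * x * (2 * R ^ (d + 1) + Nr * u ^ (d + 1)) ≤
      0 + (max (a' - ((d : ℝ) + 2) * x) 0) ^ (d + 2) +
      Nr * (u - ((d : ℝ) + 2) * x) ^ (d + 2) := by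
  have hnx0 : 0 ≤ ((d : ℝ) + 2) * x := by positivity
  have ha'0 : 0 ≤ a' := by linarith
  have hbu := pow_le_sub_pow_add' d hnx0 hnx
  have hba := bound_corner d ha'0 ha'R hnx0
  have hbNu := mul_le_mul_of_nonneg_left hbu hNr0
  have e2 : ((d : ℝ) + 2) ^ 2 * x * (2 * R ^ (d + 1) + Nr * u ^ (d + 1)) =
      ((d : ℝ) + 2) * (((d : ℝ) + 2) * x) * R ^ (d + 1) +
      ((d : ℝ) + 2) * (((d : ℝ) + 2) * x) * R ^ (d + 1) +
      Nr * (((d : ℝ) + 2) * (((d : ℝ) + 2) * x) * u ^ (d + 1)) := by ring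
  have hbc : R ^ (d + 2) ≤ Qu ^ (d + 2) + ((d : ℝ) + 2) * c * R ^ (d + 1) := by
    have := pow_le_sub_pow_add' d hc0 (t := c) (y := R) (by linarith)
    rw [hQc] at this
    exact this
  have hFle : F ^ (d + 2) ≤ a' ^ (d + 2) := by
    apply pow_le_pow_left₀ hF0
    rw [hFe]
    linarith
  have hRpow : 0 ≤ R ^ (d + 1) := pow_nonneg (by linarith) _
  have hnr : (1 : ℝ) ≤ (d : ℝ) + 2 := by
    have : (0 : ℝ) ≤ d := by positivity
    linarith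
  have h1 : ((d : ℝ) + 2) * c * R ^ (d + 1) ≤
      ((d : ℝ) + 2) * (((d : ℝ) + 2) * x) * R ^ (d + 1) := by
    apply mul_le_mul_of_nonneg_right _ hRpow
    apply mul_le_mul_of_nonneg_left _ (by linarith)
    nlinarith
  rw [e2]
  have hb2 : Nr * (u - ((d : ℝ) + 2) * x) ^ (d + 2) ≥ Nr * u ^ (d + 2) -
      Nr * (((d : ℝ) + 2) * (((d : ℝ) + 2) * x) * u ^ (d + 1)) := by
    have : Nr * ((u - ((d : ℝ) + 2) * x) ^ (d + 2) +
        ((d : ℝ) + 2) * (((d : ℝ) + 2) * x) * u ^ (d + 1)) =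
        Nr * (u - ((d : ℝ) + 2) * x) ^ (d + 2) +
        Nr * (((d : ℝ) + 2) * (((d : ℝ) + 2) * x) * u ^ (d + 1)) := by ring
    linarith
  linarith

/-- The total capacity of the regions in a lattice of mesh `u`. -/
theorem capacity_lower (d q e : ℕ) {R u x : ℝ} (hu : 0 < u) (hx : 0 ≤ x)
    (hnx : ((d : ℝ) + 2) * x ≤ u) (hq : (q : ℝ) * u ≤ R) (he1 : 1 ≤ e) (he2 : e ≤ q) :
    R ^ (d + 2) - ((d : ℝ) + 2) ^ 2 * x *
        (2 * R ^ (d + 1) + ((q ^ (d + 2) - (q - e) ^ (d + 2) : ℕ) : ℝ) * u ^ (d + 1)) ≤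
      (if x ≤ R - q * u then capA d R (R - e * u) (R - q * u) x else 0) +
      (max (R - e * u - ((d : ℝ) + 2) * x) 0) ^ (d + 2) +
      ((q ^ (d + 2) - (q - e) ^ (d + 2) : ℕ) : ℝ) * (u - ((d : ℝ) + 2) * x) ^ (d + 2) := by
  have hq1 : (1 : ℝ) ≤ q := by exact_mod_cast (he1.trans he2)
  have he0 : (0 : ℝ) ≤ e := by positivity
  have hc0 : 0 ≤ R - q * u := by linarith
  have hQu1 : u ≤ (q : ℝ) * u := by nlinarith
  have hRu : u ≤ R := by linarith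
  have hqe : ((q - e : ℕ) : ℝ) = (q : ℝ) - e := by
    rw [Nat.cast_sub he2]
  have hFe : ((q - e : ℕ) : ℝ) * u = (R - e * u) - (R - q * u) := by
    rw [hqe]
    ring
  have hF0 : 0 ≤ ((q - e : ℕ) : ℝ) * u := by positivity
  have ha'R : R - e * u ≤ R := by
    have : 0 ≤ (e : ℝ) * u := by positivity
    linarith
  have hNr0 : 0 ≤ ((q ^ (d + 2) - (q - e) ^ (d + 2) : ℕ) : ℝ) := by positivity
  have hNreq : ((q ^ (d + 2) - (q - e) ^ (d + 2) : ℕ) : ℝ) =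
      (q : ℝ) ^ (d + 2) - ((q - e : ℕ) : ℝ) ^ (d + 2) := by
    rw [Nat.cast_sub (Nat.pow_le_pow_left (Nat.sub_le _ _) _)]
    push_cast
    rfl
  have hquF : ((q : ℝ) * u) ^ (d + 2) = ((q ^ (d + 2) - (q - e) ^ (d + 2) : ℕ) : ℝ) * u ^ (d + 2) +
      (((q - e : ℕ) : ℝ) * u) ^ (d + 2) := by
    rw [hNreq, mul_pow, mul_pow]
    ring
  have hQc : R - (R - q * u) = (q : ℝ) * u := by ring
  split_ifs with hxc
  · exact capacity_aux1 d hx hnx hRu hQu1 hQc hFe hF0 ha'R hNr0 hquF hc0 hxc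
  · exact capacity_aux2 d hx hnx (by positivity) hQc hFe hF0 ha'R hNr0 hquF hc0 (not_le.mp hxc)

end Vale.Agent.Lib.P209
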