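import Vale.Agent.Lib.P209.RegionA

/-! Filling several disjoint regions by a sorted list of cubes, and distributing small balls in the
cubes. -/

namespace Vale.Agent.Lib.P209

open Nat

variable {n : ℕ}

/-- the open cube with corner `q.1` and side `q.2` -/
def openCube (q : (Fin n → ℝ) × ℝ) : Set (Fin n → ℝ) :=
  {v | ∀ l, q.1 l < v l ∧ v l < q.1 l + q.2}

lemma disjoint_openCube_of_sep {q q' : (Fin n → ℝ) × ℝ} (h : CubeSep q q') :
    Disjoint (openCube q) (openCube q') := by
  rw [Set.disjoint_left]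
  intro v hv hv'
  obtain ⟨l, hl⟩ := h
  rcases hl with hl | hl
  · linarith [(hv l).2, (hv' l).1]
  · linarith [(hv l).1, (hv' l).2]

/-- The list `L` of sides is realized by open cubes in the chamber of size `R`, inside the region
`Ω`, with pairwise disjoint open cubes. -/
def FinalPlaced (n : ℕ) (R : ℝ) (Ω : Set (Fin n → ℝ)) (L : List ℝ) : Prop :=
  ∃ Q : List ((Fin n → ℝ) × ℝ), Q.map Prod.snd = L ∧
    (∀ q ∈ Q, InChamber R q ∧ openCube q ⊆ Ω) ∧
    Q.Pairwise fun q q' => Disjoint (openCube q) (openCube q')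

lemma FinalPlaced.mono {R : ℝ} {Ω Ω' : Set (Fin n → ℝ)} {L : List ℝ} (h : FinalPlaced n R Ω L)
    (hΩ : Ω ⊆ Ω') : FinalPlaced n R Ω' L := by
  obtain ⟨Q, h1, h2, h3⟩ := h
  exact ⟨Q, h1, fun q hq => ⟨(h2 q hq).1, (h2 q hq).2.trans hΩ⟩, h3⟩

lemma FinalPlaced.append {R : ℝ} {Ω Ω' : Set (Fin n → ℝ)} {L L' : List ℝ}
    (h : FinalPlaced n R Ω L) (h' : FinalPlaced n R Ω' L') (hd : Disjoint Ω Ω') :
    FinalPlaced n R (Ω ∪ Ω') (L ++ L') := by
  obtain ⟨Q, h1, h2, h3⟩ := h
  obtain ⟨Q', h1', h2', h3'⟩ := h'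
  refine ⟨Q ++ Q', by simp [h1, h1'], ?_, ?_⟩
  · intro q hq
    rcases List.mem_append.mp hq with hq | hq
    · exact ⟨(h2 q hq).1, (h2 q hq).2.trans Set.subset_union_left⟩
    · exact ⟨(h2' q hq).1, (h2' q hq).2.trans Set.subset_union_right⟩
  · rw [List.pairwise_append]
    refine ⟨h3, h3', ?_⟩
    intro q hq q' hq'
    exact Set.disjoint_of_subset (h2 q hq).2 (h2' q' hq').2 hd

/-- A list of zero sides can be placed anywhere. -/
lemma finalPlaced_zero (hn : 0 < n) {R : ℝ} (hR : 0 ≤ R) (Ω : Set (Fin n → ℝ)) (L : List ℝ)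
    (hL : ∀ x ∈ L, x = 0) : FinalPlaced n R Ω L := by
  have hempty : openCube ((0 : Fin n → ℝ), (0 : ℝ)) = ∅ := by
    ext v
    simp only [openCube, Set.mem_ofPred_eq, Set.mem_empty_iff_false, iff_false, not_forall]
    refine ⟨⟨0, hn⟩, ?_⟩
    simp only [Pi.zero_apply, add_zero, not_and, not_lt]
    exact fun h => h.le
  induction L with
  | nil => exact ⟨[], rfl, by simp, List.Pairwise.nil⟩
  | cons x T ih =>
    obtain ⟨Q, h1, h2, h3⟩ := ih (fun y hy => hL y (List.mem_cons_of_mem _ hy))
    refine ⟨((0 : Fin n → ℝ), (0 : ℝ)) :: Q, ?_, ?_, ?_⟩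
    · simp [h1, hL x List.mem_cons_self]
    · intro q hq
      rcases List.mem_cons.mp hq with rfl | hq
      · refine ⟨⟨?_, ?_, ?_⟩, ?_⟩
        · intro j; simp
        · intro j; simpa using hR
        · intro j j' _; simp
        · rw [hempty]; exact Set.empty_subset _
      · exact h2 q hq
    · rw [List.pairwise_cons]
      refine ⟨?_, h3⟩
      intro q _
      rw [hempty]
      exact Set.empty_disjoint _

/-- The region `Ω` accepts cube lists of sides at most `x`, with the largest side excluded from the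
volume count, as soon as the volume count is at most `C`. -/
def CanPlace (n : ℕ) (R x : ℝ) (Ω : Set (Fin n → ℝ)) (C : ℝ) : Prop :=
  ∀ (h : ℝ) (L : List ℝ), 0 ≤ h → h ≤ x → (∀ y ∈ L, 0 ≤ y ∧ y ≤ h) → L.Pairwise (· ≥ ·) →
    ((n ! : ℕ) : ℝ) * (L.map fun y => y ^ n).sum ≤ C → FinalPlaced n R Ω (h :: L)

/-- Greedy filling of a list of regions. -/
theorem greedy_fill (hn : 0 < n) {R x : ℝ} (hR : 0 ≤ R) (T : List (Set (Fin n → ℝ) × ℝ))
    (hT : ∀ t ∈ T, 0 ≤ t.2 ∧ (0 < t.2 → CanPlace n R x t.1 t.2))
    (hd : T.Pairwise fun t t' => Disjoint t.1 t'.1) :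
    ∀ L : List ℝ, L.Pairwise (· ≥ ·) → (∀ y ∈ L, 0 ≤ y ∧ y ≤ x) →
      ((n ! : ℕ) : ℝ) * (L.map fun y => y ^ n).sum ≤ (T.map Prod.snd).sum →
      FinalPlaced n R (⋃ t ∈ T, t.1) L := by
  have hfac : (0 : ℝ) < ((n ! : ℕ) : ℝ) := by exact_mod_cast Nat.factorial_pos _
  induction T with
  | nil =>
    intro L _ hL hs
    apply finalPlaced_zero hn hR
    simp only [List.map_nil, List.sum_nil] at hs
    have h0 : (L.map fun y => y ^ n).sum ≤ 0 := by
      by_contra hcon
      have := mul_pos hfac (not_le.mp hcon)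
      linarith
    have h1 := sum_pow_nonneg n L fun y hy => (hL y hy).1
    intro y hy
    have h2 : (L.map fun y => y ^ n).sum = 0 := le_antisymm h0 h1
    have h3 : y ^ n ≤ (L.map fun y => y ^ n).sum := by
      apply List.single_le_sum
      · intro z hz
        obtain ⟨c, hc, rfl⟩ := List.mem_map.mp hz
        exact pow_nonneg (hL c hc).1 _
      · exact List.mem_map_of_mem hy
    have h4 : y ^ n = 0 := le_antisymm (by linarith) (pow_nonneg (hL y hy).1 _)
    exact pow_eq_zero_iff (by omega) |>.mp h4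
  | cons t T' ih =>
    intro L hsort hL hs
    have hT' : ∀ t ∈ T', 0 ≤ t.2 ∧ (0 < t.2 → CanPlace n R x t.1 t.2) :=
      fun t ht => hT t (List.mem_cons_of_mem _ ht)
    have hd' := (List.pairwise_cons.mp hd).2
    have hd0 := (List.pairwise_cons.mp hd).1
    have hdU : Disjoint t.1 (⋃ t' ∈ T', t'.1) := by
      simp only [Set.disjoint_iUnion_right]
      intro t' ht'
      exact hd0 t' ht'
    have hU : ∀ Ω, Ω = t.1 ∪ ⋃ t' ∈ T', t'.1 → Ω = ⋃ t' ∈ t :: T', t'.1 := by
      intro Ω hΩ
      rw [hΩ]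
      simp
    have ht := hT t List.mem_cons_self
    simp only [List.map_cons, List.sum_cons] at hs
    rcases ht.1.eq_or_lt with ht0 | ht0
    · -- the region has no capacity
      have := ih hT' hd' L hsort hL (by rw [← ht0] at hs; simpa using hs)
      refine this.mono ?_
      intro v hv
      simp only [Set.mem_iUnion] at hv ⊢
      obtain ⟨t', ht', hv⟩ := hv
      exact ⟨t', List.mem_cons_of_mem _ ht', hv⟩
    · cases L with
      | nil => exact ⟨[], rfl, by simp, List.Pairwise.nil⟩
      | cons h L' =>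
        have hhm := hL h List.mem_cons_self
        have hL'm : ∀ y ∈ L', 0 ≤ y ∧ y ≤ h := fun y hy =>
          ⟨(hL y (List.mem_cons_of_mem _ hy)).1, (List.pairwise_cons.mp hsort).1 y hy⟩
        have hsort' := (List.pairwise_cons.mp hsort).2
        obtain ⟨P, W, hLPW, hP, hW⟩ := exists_split (fun y => y ^ n)
          (fun y hy => pow_nonneg hy _) L' (fun y hy => (hL'm y hy).1) _
          (div_nonneg ht.1 hfac.le)
        have hPm : ∀ y ∈ P, 0 ≤ y ∧ y ≤ h := fun y hy => hL'm y (by rw [hLPW]; simp [hy])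
        have hPsort : P.Pairwise (· ≥ ·) := by
          rw [hLPW] at hsort'
          exact (List.pairwise_append.mp hsort').1
        have h1 : FinalPlaced n R t.1 (h :: P) := by
          apply ht.2 ht0 h P hhm.1 hhm.2 hPm hPsort
          rw [le_div_iff₀ hfac] at hP
          linarith
        have hUeq : (⋃ t' ∈ t :: T', t'.1) = t.1 ∪ ⋃ t' ∈ T', t'.1 := by simp
        rw [hUeq]
        rcases hW with rfl | ⟨w, W', rfl, hclose⟩
        · have h2 := h1.mono (Set.subset_union_left (t := ⋃ t' ∈ T', t'.1))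
          simpa [hLPW] using h2
        · have hwm : 0 ≤ w ∧ w ≤ h := hL'm w (by rw [hLPW]; simp)
          have hWsort : (w :: W').Pairwise (· ≥ ·) := by
            rw [hLPW] at hsort'
            exact (List.pairwise_append.mp hsort').2.1
          have hWm : ∀ y ∈ w :: W', 0 ≤ y ∧ y ≤ x := fun y hy =>
            hL y (List.mem_cons_of_mem _ (by rw [hLPW]; simp [hy]))
          have hrest : ((n ! : ℕ) : ℝ) * ((w :: W').map fun y => y ^ n).sum ≤
              (T'.map Prod.snd).sum := by
            have e : ((h :: L').map fun y => y ^ n).sum =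
                h ^ n + (P.map fun y => y ^ n).sum + ((w :: W').map fun y => y ^ n).sum := by
              rw [hLPW]
              simp [add_assoc]
            rw [e] at hs
            rw [div_lt_iff₀ hfac] at hclose
            have hpow : w ^ n ≤ h ^ n := pow_le_pow_left₀ hwm.1 hwm.2 _
            have h3 : ((n ! : ℕ) : ℝ) * w ^ n ≤ ((n ! : ℕ) : ℝ) * h ^ n :=
              mul_le_mul_of_nonneg_left hpow hfac.le
            have e2 : ((n ! : ℕ) : ℝ) * (h ^ n + (P.map fun y => y ^ n).sum +
                ((w :: W').map fun y => y ^ n).sum) =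
                ((n ! : ℕ) : ℝ) * h ^ n + ((n ! : ℕ) : ℝ) * (P.map fun y => y ^ n).sum +
                ((n ! : ℕ) : ℝ) * ((w :: W').map fun y => y ^ n).sum := by ring
            have e3 : ((P.map fun y => y ^ n).sum + w ^ n) * ((n ! : ℕ) : ℝ) =
                ((n ! : ℕ) : ℝ) * (P.map fun y => y ^ n).sum + ((n ! : ℕ) : ℝ) * w ^ n := by ring
            have hclose2 : t.2 < ((P.map fun y => y ^ n).sum + w ^ n) * ((n ! : ℕ) : ℝ) := hclose
            rw [e3] at hclose2
            linarith
          have h2 := ih hT' hd' (w :: W') hWsort hWm hrest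
          have h3 := h1.append h2 hdU
          simpa [hLPW] using h3

/-- The small balls are distributed in the cubes. -/
theorem tiny_assign (d m : ℕ) {R x C : ℝ} {Ω : Set (Fin (d + 1) → ℝ)} (a : Fin m → ℝ)
    (ha : ∀ i, 0 < a i) (hx : ∀ i, a i ≤ x) (hx0 : 0 ≤ x)
    (hfill : ∀ L : List ℝ, L.Pairwise (· ≥ ·) → (∀ y ∈ L, 0 ≤ y ∧ y ≤ x) →
      (((d + 1)! : ℕ) : ℝ) * (L.map fun y => y ^ (d + 1)).sum ≤ C → FinalPlaced (d + 1) R Ω L)
    (hvol : ∑ i, a i ^ (d + 1) + (((d + 1)! : ℕ) : ℝ) * x ^ (d + 1) ≤ C) :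
    ∃ (ρ : Fin m → Equiv.Perm (Fin (d + 1))) (b : Fin m → Fin (d + 1) → ℝ),
      (∀ i, ∀ w ∈ ordSimplex (d + 1) (a i), cellG (ρ i) (b i) w ∈ ordSimplex (d + 1) R ∧
        cellG (ρ i) (b i) w ∈ Ω) ∧
      ∀ i j, i ≠ j → ∀ w ∈ ordSimplex (d + 1) (a i), ∀ w' ∈ ordSimplex (d + 1) (a j),
        cellG (ρ i) (b i) w ≠ cellG (ρ j) (b j) w' := by
  classical
  set σ : Equiv.Perm (Fin m) := Tuple.sort (fun i => - a i) with hσ
  have hσmono : Antitone (a ∘ σ) := by
    have h := Tuple.monotone_sort (fun i => - a i)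
    intro i i' hii'
    have := h hii'
    simp only [Function.comp_apply, neg_le_neg_iff] at this
    exact this
  set G : ℕ → ℝ := fun i => if h : i < m then a (σ ⟨i, h⟩) else 0 with hGdef
  have hGval : ∀ l : Fin m, G l = a (σ l) := by
    intro l
    simp [hGdef]
  have hG0 : ∀ i, 0 ≤ G i := by
    intro i
    simp only [hGdef]
    split_ifs
    · exact (ha _).le
    · exact le_rfl
  have hG : Antitone G := by
    intro i i' hii'
    by_cases h' : i' < m
    · have h : i < m := lt_of_le_of_lt hii' h'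
      simp only [hGdef, dif_pos h, dif_pos h']
      exact hσmono (Fin.mk_le_mk.mpr hii')
    · simp only [hGdef, dif_neg h']
      exact hG0 i
  have hGx : ∀ i, G i ≤ x := by
    intro i
    simp only [hGdef]
    split_ifs
    · exact hx _
    · exact hx0
  set N : ℕ := (d + 1)! with hN
  have hNpos : 0 < N := Nat.factorial_pos _
  set L' : List ℝ := (List.range m).map fun j => G ((j + 1) * N) with hL'
  have hsum : (N : ℝ) * (L'.map fun c => c ^ (d + 1)).sum ≤ ∑ i, a i ^ (d + 1) := by
    have e1 : (L'.map fun c => c ^ (d + 1)).sum =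
        ∑ j ∈ Finset.range m, G ((j + 1) * N) ^ (d + 1) := by
      rw [hL', List.map_map, ← sum_map_range]
      rfl
    rw [e1]
    refine le_trans (block_sum_le G hG hG0 (d + 1) N m) ?_
    have e2 : ∑ i ∈ Finset.range (m * N), G i ^ (d + 1) = ∑ i ∈ Finset.range m, G i ^ (d + 1) := by
      symm
      apply Finset.sum_subset
      · intro i hi
        rw [Finset.mem_range] at hi ⊢
        nlinarith
      · intro i _ hi
        rw [Finset.mem_range, not_lt] at hi
        have : G i = 0 := by
          simp only [hGdef]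
          rw [dif_neg (not_lt.mpr hi)]
        rw [this]
        simp
    rw [e2, Finset.sum_range]
    have e3 : ∀ l : Fin m, G l ^ (d + 1) = (fun i => a i ^ (d + 1)) (σ l) := by
      intro l
      rw [hGval]
    rw [Finset.sum_congr rfl fun l _ => e3 l, Equiv.sum_comp σ (fun i => a i ^ (d + 1))]
  have hplaced : FinalPlaced (d + 1) R Ω (G 0 :: L') := by
    apply hfill
    · rw [List.pairwise_cons]
      constructor
      · intro c hc
        obtain ⟨j, -, rfl⟩ := List.mem_map.mp hc
        exact hG (Nat.zero_le _)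
      · rw [hL', List.pairwise_map]
        refine List.pairwise_lt_range.imp ?_
        intro j j' hjj'
        apply hG
        exact Nat.mul_le_mul_right _ (by omega)
    · intro y hy
      rcases List.mem_cons.mp hy with rfl | hy
      · exact ⟨hG0 0, hGx 0⟩
      · obtain ⟨j, -, rfl⟩ := List.mem_map.mp hy
        exact ⟨hG0 _, hGx _⟩
    · simp only [List.map_cons, List.sum_cons]
      have h1 : G 0 ^ (d + 1) ≤ x ^ (d + 1) := pow_le_pow_left₀ (hG0 0) (hGx 0) _
      have h2 : (N : ℝ) * G 0 ^ (d + 1) ≤ (N : ℝ) * x ^ (d + 1) :=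
        mul_le_mul_of_nonneg_left h1 (by positivity)
      rw [mul_add]
      linarith
  obtain ⟨Q, hQ, hQc, hQp⟩ := hplaced
  have hlen : Q.length = m + 1 := by
    have := congrArg List.length hQ
    simpa [hL'] using this
  set q : ℕ → (Fin (d + 1) → ℝ) × ℝ := fun j => Q.getD j (0, 0) with hq
  have hqget : ∀ j (hj : j < Q.length), q j = Q[j] := by
    intro j hj
    simp [hq, List.getElem?_eq_getElem hj]
  have hqmem : ∀ j, j < m + 1 → q j ∈ Q := by
    intro j hj
    rw [hqget j (by omega)]
    exact List.getElem_mem _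
  have hqside : ∀ j, j < m + 1 → (q j).2 = G (j * N) := by
    intro j hj
    have hj' : j < Q.length := by omega
    have h1 : (Q.map Prod.snd)[j]'(by simpa using hj') = (q j).2 := by
      rw [hqget j hj']
      simp
    rw [← h1]
    simp only [hQ]
    cases j with
    | zero => simp
    | succ j =>
      simp [hL', List.getElem_map]
  have hqsep : ∀ j j', j < m + 1 → j' < m + 1 → j ≠ j' →
      Disjoint (openCube (q j)) (openCube (q j')) := by
    have hsym : ∀ j j', j < j' → j' < m + 1 → Disjoint (openCube (q j)) (openCube (q j')) := by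
      intro j j' hjj' hj'
      rw [hqget j (by omega), hqget j' (by omega)]
      exact List.pairwise_iff_getElem.mp hQp j j' (by omega) (by omega) hjj'
    intro j j' hj hj' hne
    rcases lt_or_gt_of_ne hne with h | h
    · exact hsym j j' h hj'
    · exact (hsym j' j h hj).symm
  have hcardP : Fintype.card (Equiv.Perm (Fin (d + 1))) = N := by
    rw [Fintype.card_perm, Fintype.card_fin]
  let e : Equiv.Perm (Fin (d + 1)) ≃ Fin N := Fintype.equivFinOfCardEq hcardP
  let lv : Fin m → ℕ := fun i => (σ.symm i : ℕ)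
  have hlv : ∀ i, lv i < m := fun i => (σ.symm i).2
  have hlva : ∀ i, G (lv i) = a i := by
    intro i
    have := hGval (σ.symm i)
    simpa [lv] using this
  let cube : Fin m → ℕ := fun i => lv i / N
  have hcube : ∀ i, cube i < m + 1 := by
    intro i
    have := hlv i
    have h2 : lv i / N ≤ lv i := Nat.div_le_self _ _
    show lv i / N < m + 1
    omega
  have hside : ∀ i, a i ≤ (q (cube i)).2 := by
    intro i
    rw [hqside _ (hcube i), ← hlva i]
    apply hG
    exact Nat.div_mul_le_self _ _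
  let perm : Fin m → Equiv.Perm (Fin (d + 1)) :=
    fun i => e.symm ⟨lv i % N, Nat.mod_lt _ hNpos⟩
  have hopen : ∀ i, ∀ w ∈ ordSimplex (d + 1) (a i),
      cellG (perm i) (q (cube i)).1 w ∈ openCube (q (cube i)) := by
    intro i w hw l
    have h1 := hw.2.1 (perm i l)
    have h2 := hw.2.2 (perm i l)
    have h3 := hside i
    simp only [cellG]
    constructor <;> linarith
  refine ⟨perm, fun i => (q (cube i)).1, ?_, ?_⟩
  · intro i w hw
    have hc := hQc _ (hqmem _ (hcube i))
    exact ⟨cellG_mem_of_inChamber (s := 0) hc.1 (hside i) _ hw rfl, hc.2 (hopen i w hw)⟩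
  · intro i i' hii' w hw w' hw'
    by_cases hcc : cube i = cube i'
    · have hρ : perm i ≠ perm i' := by
        intro h
        have h1 : (⟨lv i % N, Nat.mod_lt _ hNpos⟩ : Fin N) = ⟨lv i' % N, Nat.mod_lt _ hNpos⟩ :=
          e.symm.injective h
        have h2 : lv i % N = lv i' % N := congrArg Fin.val h1
        have h3 : lv i = lv i' := by
          have e1 := Nat.div_add_mod (lv i) N
          have e2 := Nat.div_add_mod (lv i') N
          have hcc' : lv i / N = lv i' / N := hcc
          rw [hcc', h2] at e1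
          omega
        have h4 : σ.symm i = σ.symm i' := Fin.ext h3
        exact hii' (σ.symm.injective h4)
      show cellG (perm i) (q (cube i)).1 w ≠ cellG (perm i') (q (cube i')).1 w'
      rw [← hcc]
      exact cellG_ne_of_perm_ne hρ hw hw'
    · intro heq
      have h1 := hopen i w hw
      have h2 := hopen i' w' hw'
      show False
      have h3 := hqsep _ _ (hcube i) (hcube i') hcc
      refine Set.disjoint_left.mp h3 h1 ?_
      have heq' : cellG (perm i) (q (cube i)).1 w = cellG (perm i') (q (cube i')).1 w' := heq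
      rw [heq']
      exact h2

end Vale.Agent.Lib.P209
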