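import Mathlib
import Vale.Agent.Lib.P209.Assembly

/-! Integral affine maps of the toric picture. -/

namespace Vale.Agent.Lib.P209

open scoped ContDiff Matrix
open Real

variable {n : ℕ}

/-- The affine cotangent lift of a pair of matrices. -/
def linT (A B : Matrix (Fin n) (Fin n) ℝ) (c : Fin n → ℝ) (z : Fin n → ℂ) : Fin n → ℂ :=
  fun l => ⟨(A *ᵥ fun m => (z m).re) l + c l, (B *ᵥ fun m => (z m).im) l⟩

/-- The linear part of `linT`. -/
noncomputable def linL (A B : Matrix (Fin n) (Fin n) ℝ) : (Fin n → ℂ) →L[ℝ] (Fin n → ℂ) :=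
  LinearMap.toContinuousLinearMap
    { toFun := fun z l => ⟨(A *ᵥ fun m => (z m).re) l, (B *ᵥ fun m => (z m).im) l⟩
      map_add' := by
        intro x y
        funext l
        apply Complex.ext
        · simp only [Pi.add_apply, Complex.add_re]
          have : (fun m => (x m).re + (y m).re) = (fun m => (x m).re) + fun m => (y m).re := rfl
          rw [this, Matrix.mulVec_add, Pi.add_apply]
        · simp only [Pi.add_apply, Complex.add_im]
          have : (fun m => (x m).im + (y m).im) = (fun m => (x m).im) + fun m => (y m).im := rfl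
          rw [this, Matrix.mulVec_add, Pi.add_apply]
      map_smul' := by
        intro t x
        funext l
        apply Complex.ext
        · simp only [Pi.smul_apply, Complex.real_smul, RingHom.id_apply, Complex.mul_re,
            Complex.ofReal_re, Complex.ofReal_im, zero_mul, sub_zero]
          have : (fun m => t * (x m).re) = t • fun m => (x m).re := rfl
          rw [this, Matrix.mulVec_smul, Pi.smul_apply, smul_eq_mul]
        · simp only [Pi.smul_apply, Complex.real_smul, RingHom.id_apply, Complex.mul_im,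
            Complex.ofReal_re, Complex.ofReal_im, zero_mul, add_zero]
          have : (fun m => t * (x m).im) = t • fun m => (x m).im := rfl
          rw [this, Matrix.mulVec_smul, Pi.smul_apply, smul_eq_mul] }

lemma linL_apply (A B : Matrix (Fin n) (Fin n) ℝ) (z : Fin n → ℂ) (l : Fin n) :
    linL A B z l = ⟨(A *ᵥ fun m => (z m).re) l, (B *ᵥ fun m => (z m).im) l⟩ := rfl

lemma linT_eq (A B : Matrix (Fin n) (Fin n) ℝ) (c : Fin n → ℝ) :
    linT A B c = fun z => linL A B z + fun l => ((c l : ℝ) : ℂ) := by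
  funext z l
  apply Complex.ext
  · simp [linT, linL_apply]
  · simp [linT, linL_apply]

lemma contDiff_linT (A B : Matrix (Fin n) (Fin n) ℝ) (c : Fin n → ℝ) :
    ContDiff ℝ ∞ (linT A B c) := by
  rw [linT_eq]
  exact (linL A B).contDiff.add contDiff_const

lemma dotProduct_mulVec_mulVec {A B : Matrix (Fin n) (Fin n) ℝ} (h : Aᵀ * B = 1)
    (p q : Fin n → ℝ) : (A *ᵥ p) ⬝ᵥ (B *ᵥ q) = p ⬝ᵥ q := by
  rw [← Matrix.vecMul_transpose, ← Matrix.dotProduct_mulVec, Matrix.mulVec_mulVec, h,
    Matrix.one_mulVec]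

lemma omega_eq_dot (v w : Fin n → ℂ) :
    omega v w = (fun m => (v m).re) ⬝ᵥ (fun m => (w m).im) -
      (fun m => (v m).im) ⬝ᵥ (fun m => (w m).re) := by
  simp [omega, dotProduct, Finset.sum_sub_distrib]

lemma sympAt_linT {A B : Matrix (Fin n) (Fin n) ℝ} (h : Aᵀ * B = 1) (c : Fin n → ℝ)
    (z : Fin n → ℂ) : SympAt (linT A B c) z := by
  refine ⟨linL A B, ?_, fun v w => ?_⟩
  · rw [linT_eq]
    exact (linL A B).hasFDerivAt.add_const _
  · rw [omega_eq_dot, omega_eq_dot]
    have e1 : (fun m => (linL A B v m).re) = A *ᵥ fun m => (v m).re := rfl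
    have e2 : (fun m => (linL A B v m).im) = B *ᵥ fun m => (v m).im := rfl
    have e3 : (fun m => (linL A B w m).re) = A *ᵥ fun m => (w m).re := rfl
    have e4 : (fun m => (linL A B w m).im) = B *ᵥ fun m => (w m).im := rfl
    rw [e1, e2, e3, e4, dotProduct_mulVec_mulVec h, dotProduct_comm (B *ᵥ _) (A *ᵥ _),
      dotProduct_mulVec_mulVec h, dotProduct_comm (fun m => (w m).re)]

/-- The integrality criterion for the fibre coordinates. -/
lemma linT_Q {A' : Matrix (Fin n) (Fin n) ℤ} {B : Matrix (Fin n) (Fin n) ℝ}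
    (h : (A'.map (Int.cast : ℤ → ℝ))ᵀ * B = 1) (c : Fin n → ℝ) (z z' : Fin n → ℂ)
    (hre : ∀ l, (z l).re = (z' l).re)
    (hz : ∀ l, 0 < (z l).im ∧ (z l).im < 1) (hz' : ∀ l, 0 < (z' l).im ∧ (z' l).im < 1)
    (hint : ∀ l, ∃ m : ℤ, (linT (A'.map (Int.cast : ℤ → ℝ)) B c z l).im -
      (linT (A'.map (Int.cast : ℤ → ℝ)) B c z' l).im = m) : z = z' := by
  choose m hm using hint
  set δ : Fin n → ℝ := fun l => (z l).im - (z' l).im with hδ
  have h1 : B *ᵥ δ = fun l => (m l : ℝ) := by
    funext l
    rw [← hm l]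
    simp only [linT]
    have : δ = (fun m => (z m).im) - fun m => (z' m).im := rfl
    rw [this, Matrix.mulVec_sub]
    rfl
  have h2 : δ = (A'.map (Int.cast : ℤ → ℝ))ᵀ *ᵥ (fun l => (m l : ℝ)) := by
    rw [← h1, Matrix.mulVec_mulVec, h, Matrix.one_mulVec]
  have h3 : ∀ l, ∃ t : ℤ, δ l = t := by
    intro l
    refine ⟨(A'ᵀ *ᵥ m) l, ?_⟩
    rw [h2]
    simp [Matrix.mulVec, dotProduct]
  funext l
  obtain ⟨t, ht⟩ := h3 l
  have h4 : (t : ℝ) < 1 := by
    rw [← ht]; simp only [hδ]; linarith [(hz l).2, (hz' l).1]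
  have h5 : (-1 : ℝ) < t := by
    rw [← ht]; simp only [hδ]; linarith [(hz l).1, (hz' l).2]
  have h6 : t = 0 := by
    have h7 : t < 1 := by exact_mod_cast h4
    have h8 : -1 < t := by exact_mod_cast h5
    omega
  rw [h6] at ht
  apply Complex.ext (hre l)
  simp only [hδ] at ht
  have : (z l).im - (z' l).im = 0 := by simpa using ht
  linarith

/-! ### The partial sum coordinates -/

/-- partial sums from the end, integer matrix -/
def uMat (n : ℕ) : Matrix (Fin n) (Fin n) ℤ := Matrix.of fun j t => if j ≤ t then 1 else 0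

/-- differences of consecutive coordinates, integer matrix -/
def vMat (n : ℕ) : Matrix (Fin n) (Fin n) ℤ :=
  Matrix.of fun j t => if t = j then 1 else if t.val = j.val + 1 then -1 else 0

lemma uMat_mul_vMat (n : ℕ) : uMat n * vMat n = 1 := by
  ext j l
  rw [Matrix.mul_apply, Matrix.one_apply]
  simp only [uMat, vMat, Matrix.of_apply]
  by_cases hl : l.val = 0
  · -- only `t = l` contributes
    rw [Finset.sum_eq_single l]
    · have : l = j ↔ j = l := eq_comm
      by_cases hjl : j = l
      · subst hjl; simp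
      · have h2 : ¬ j ≤ l := by
          intro h3
          apply hjl
          apply Fin.ext
          have : j.val ≤ l.val := h3
          omega
        simp [hjl, h2]
    · intro t _ ht
      have h1 : ¬ l = t := fun h => ht h.symm
      have h2 : ¬ l.val = t.val + 1 := by omega
      simp [h1, h2]
    · simp
  · -- `t = l` and `t = l - 1` contribute
    have hl' : 0 < l.val := Nat.pos_of_ne_zero hl
    set t0 : Fin n := ⟨l.val - 1, by omega⟩ with ht0
    have hne : l ≠ t0 := by
      intro h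
      have := congrArg Fin.val h
      simp [ht0] at this
      omega
    rw [Finset.sum_eq_add l t0 hne]
    · have e1 : (if j ≤ l then (1 : ℤ) else 0) * (if l = l then 1 else if l.val = l.val + 1 then -1 else 0)
          = if j ≤ l then 1 else 0 := by simp
      have e2 : (if j ≤ t0 then (1 : ℤ) else 0) * (if l = t0 then 1 else if l.val = t0.val + 1 then -1 else 0)
          = if j ≤ t0 then -1 else 0 := by
        have h2 : l.val = t0.val + 1 := by simp [ht0]; omega
        simp only [hne, if_false, h2, if_true]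
        split_ifs <;> simp
      rw [e1, e2]
      by_cases hjl : j = l
      · subst hjl
        have h3 : ¬ j ≤ t0 := by
          intro h3
          have : j.val ≤ t0.val := h3
          simp [ht0] at this
          omega
        simp [h3]
      · by_cases h4 : j ≤ l
        · have h5 : j ≤ t0 := by
            have h6 : j.val ≤ l.val := h4
            have h7 : j.val ≠ l.val := fun h => hjl (Fin.ext h)
            show j.val ≤ t0.val
            simp [ht0]
            omega
          simp [h4, h5, hjl]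
        · have h5 : ¬ j ≤ t0 := by
            intro h6
            have h7 : j.val ≤ t0.val := h6
            simp [ht0] at h7
            apply h4
            show j.val ≤ l.val
            omega
          simp [h4, h5, hjl]
    · intro t _ ht
      have h1 : ¬ l = t := fun h => ht.1 h.symm
      have h2 : ¬ l.val = t.val + 1 := by
        intro h3
        apply ht.2
        apply Fin.ext
        simp [ht0]
        omega
      simp [h1, h2]
    · simp
    · simp


lemma vMat_mul_uMat (n : ℕ) : vMat n * uMat n = 1 :=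
  mul_eq_one_comm.mp (uMat_mul_vMat n)

/-- the real partial sum matrix -/
def uR (n : ℕ) : Matrix (Fin n) (Fin n) ℝ := (uMat n).map (Int.cast : ℤ → ℝ)

/-- the real difference matrix -/
def vR (n : ℕ) : Matrix (Fin n) (Fin n) ℝ := (vMat n).map (Int.cast : ℤ → ℝ)

lemma map_cast_mul {a b : Matrix (Fin n) (Fin n) ℤ} :
    (a * b).map (Int.cast : ℤ → ℝ) = a.map (Int.cast : ℤ → ℝ) * b.map (Int.cast : ℤ → ℝ) :=
  Matrix.map_mul (f := Int.castRingHom ℝ)

lemma map_cast_one : (1 : Matrix (Fin n) (Fin n) ℤ).map (Int.cast : ℤ → ℝ) = 1 :=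
  Matrix.map_one (Int.cast : ℤ → ℝ) Int.cast_zero Int.cast_one

lemma uR_mul_vR (n : ℕ) : uR n * vR n = 1 := by
  unfold uR vR
  rw [← map_cast_mul, uMat_mul_vMat, map_cast_one]

lemma vR_mul_uR (n : ℕ) : vR n * uR n = 1 := by
  unfold uR vR
  rw [← map_cast_mul, vMat_mul_uMat, map_cast_one]

lemma uR_mulVec (x : Fin n → ℝ) (j : Fin n) :
    (uR n *ᵥ x) j = ∑ t, if j ≤ t then x t else 0 := by
  simp only [uR, uMat, Matrix.mulVec, dotProduct, Matrix.map_apply, Matrix.of_apply]
  refine Finset.sum_congr rfl fun t _ => ?_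
  split_ifs <;> simp

lemma vR_mulVec (u : Fin n → ℝ) (j : Fin n) :
    (vR n *ᵥ u) j = u j - if h : j.val + 1 < n then u ⟨j.val + 1, h⟩ else 0 := by
  simp only [vR, vMat, Matrix.mulVec, dotProduct, Matrix.map_apply, Matrix.of_apply]
  have e : ∀ t : Fin n, ((if t = j then (1 : ℤ) else if t.val = j.val + 1 then -1 else 0 : ℤ) : ℝ) * u t
      = (if t = j then u t else 0) - (if t.val = j.val + 1 then u t else 0) := by
    intro t
    by_cases h1 : t = j
    · have h2 : ¬ t.val = j.val + 1 := by rw [h1]; omega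
      simp [h1]
    · by_cases h2 : t.val = j.val + 1
      · simp [h1, h2]
      · simp [h1, h2]
  simp_rw [e]
  rw [Finset.sum_sub_distrib, Finset.sum_ite_eq' Finset.univ j]
  simp only [Finset.mem_univ, if_true]
  congr 1
  by_cases h : j.val + 1 < n
  · rw [dif_pos h, Finset.sum_eq_single ⟨j.val + 1, h⟩]
    · simp
    · intro t _ ht
      have : ¬ t.val = j.val + 1 := fun h3 => ht (Fin.ext h3)
      simp [this]
    · simp
  · rw [dif_neg h]
    apply Finset.sum_eq_zero
    intro t _
    have : ¬ t.val = j.val + 1 := by omega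
    simp [this]

/-- the ordered model of the simplex -/
def ordSimplex (n : ℕ) (a : ℝ) : Set (Fin n → ℝ) :=
  {u | StrictAnti u ∧ (∀ j, 0 < u j) ∧ ∀ j, u j < a}

lemma uR_mem_ord {a : ℝ} {x : Fin n → ℝ} (hx : x ∈ openSimplex n a) :
    uR n *ᵥ x ∈ ordSimplex n a := by
  obtain ⟨hpos, hsum⟩ := hx
  refine ⟨?_, ?_, ?_⟩
  · intro j j' hjj'
    rw [uR_mulVec, uR_mulVec]
    apply Finset.sum_lt_sum
    · intro t _
      by_cases h1 : j' ≤ t
      · have h2 : j ≤ t := le_trans hjj'.le h1
        simp [h1, h2]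
      · by_cases h2 : j ≤ t
        · simp [h1, h2, (hpos t).le]
        · simp [h1, h2]
    · refine ⟨j, Finset.mem_univ _, ?_⟩
      have h1 : ¬ j' ≤ j := not_le.mpr hjj'
      simp [h1, hpos j]
  · intro j
    rw [uR_mulVec]
    apply Finset.sum_pos'
    · intro t _
      split_ifs
      · exact (hpos t).le
      · exact le_rfl
    · exact ⟨j, Finset.mem_univ _, by simp [hpos j]⟩
  · intro j
    rw [uR_mulVec]
    refine lt_of_le_of_lt ?_ hsum
    apply Finset.sum_le_sum
    intro t _
    split_ifs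
    · exact le_rfl
    · exact (hpos t).le

lemma uR_vR_mulVec (u : Fin n → ℝ) : uR n *ᵥ (vR n *ᵥ u) = u := by
  rw [Matrix.mulVec_mulVec, uR_mul_vR, Matrix.one_mulVec]

lemma vR_uR_mulVec (x : Fin n → ℝ) : vR n *ᵥ (uR n *ᵥ x) = x := by
  rw [Matrix.mulVec_mulVec, vR_mul_uR, Matrix.one_mulVec]

lemma sum_eq_uR_zero (hn : 0 < n) (x : Fin n → ℝ) : ∑ l, x l = (uR n *ᵥ x) ⟨0, hn⟩ := by
  rw [uR_mulVec]
  refine Finset.sum_congr rfl fun t _ => ?_
  have : (⟨0, hn⟩ : Fin n) ≤ t := Fin.mk_le_of_le_val (Nat.zero_le _)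
  simp [this]

lemma vR_mem_simplex (hn : 0 < n) {a : ℝ} {u : Fin n → ℝ} (hu : u ∈ ordSimplex n a) :
    vR n *ᵥ u ∈ openSimplex n a := by
  obtain ⟨hanti, hpos, hlt⟩ := hu
  refine ⟨fun l => ?_, ?_⟩
  · rw [vR_mulVec]
    by_cases h : l.val + 1 < n
    · rw [dif_pos h]
      have : u ⟨l.val + 1, h⟩ < u l := hanti (Fin.lt_def.mpr (by simp))
      linarith
    · rw [dif_neg h]
      simpa using hpos l
  · rw [sum_eq_uR_zero hn, uR_vR_mulVec]
    exact hlt _

/-! ### Permutations and the subdivision of the ordered simplex -/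

/-- the permutation matrix of `ρ` -/
def pMat (ρ : Equiv.Perm (Fin n)) : Matrix (Fin n) (Fin n) ℤ :=
  Matrix.of fun j l => if ρ j = l then 1 else 0

lemma pMat_transpose_mul (ρ : Equiv.Perm (Fin n)) : (pMat ρ)ᵀ * pMat ρ = 1 := by
  ext a b
  rw [Matrix.mul_apply, Matrix.one_apply]
  simp only [pMat, Matrix.transpose_apply, Matrix.of_apply]
  rw [Finset.sum_eq_single (ρ.symm a)]
  · simp only [Equiv.apply_symm_apply, if_true, one_mul]
  · intro j _ hj
    have : ¬ ρ j = a := by
      intro h
      apply hj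
      rw [← h]
      simp
    simp [this]
  · simp

/-- the permutation matrix over the reals -/
def pR (ρ : Equiv.Perm (Fin n)) : Matrix (Fin n) (Fin n) ℝ := (pMat ρ).map (Int.cast : ℤ → ℝ)

lemma pR_mulVec (ρ : Equiv.Perm (Fin n)) (w : Fin n → ℝ) (j : Fin n) :
    (pR ρ *ᵥ w) j = w (ρ j) := by
  simp only [pR, pMat, Matrix.mulVec, dotProduct, Matrix.map_apply, Matrix.of_apply]
  rw [Finset.sum_eq_single (ρ j)]
  · simp
  · intro t _ ht
    have : ¬ ρ j = t := fun h => ht h.symm
    simp [this]
  · simp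

/-- the integer matrix acting on the positions -/
def aMat (ρ : Equiv.Perm (Fin n)) : Matrix (Fin n) (Fin n) ℤ := vMat n * pMat ρ * uMat n

/-- the real matrix acting on the fibres -/
def bR (ρ : Equiv.Perm (Fin n)) : Matrix (Fin n) (Fin n) ℝ :=
  ((uMat n)ᵀ * pMat ρ * (vMat n)ᵀ).map (Int.cast : ℤ → ℝ)

lemma aMat_transpose_mul_b (ρ : Equiv.Perm (Fin n)) :
    ((aMat ρ).map (Int.cast : ℤ → ℝ))ᵀ * bR ρ = 1 := by
  have h0 : (vMat n)ᵀ * (uMat n)ᵀ = 1 := by
    rw [← Matrix.transpose_mul, uMat_mul_vMat, Matrix.transpose_one]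
  have h1 : (uMat n)ᵀ * (vMat n)ᵀ = 1 := by
    rw [← Matrix.transpose_mul, vMat_mul_uMat, Matrix.transpose_one]
  have key : (aMat ρ)ᵀ * ((uMat n)ᵀ * pMat ρ * (vMat n)ᵀ) = 1 := by
    unfold aMat
    simp only [Matrix.transpose_mul]
    calc (uMat n)ᵀ * ((pMat ρ)ᵀ * (vMat n)ᵀ) * ((uMat n)ᵀ * pMat ρ * (vMat n)ᵀ)
        = (uMat n)ᵀ * (pMat ρ)ᵀ * ((vMat n)ᵀ * (uMat n)ᵀ) * pMat ρ * (vMat n)ᵀ := by
          simp only [Matrix.mul_assoc]
      _ = (uMat n)ᵀ * ((pMat ρ)ᵀ * pMat ρ) * (vMat n)ᵀ := by
          rw [h0, Matrix.mul_one]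
          simp only [Matrix.mul_assoc]
      _ = 1 := by rw [pMat_transpose_mul, Matrix.mul_one, h1]
  rw [← Matrix.transpose_map]
  unfold bR
  rw [← map_cast_mul, key, map_cast_one]

/-- the cell map on ordered coordinates -/
def cellG (ρ : Equiv.Perm (Fin n)) (b w : Fin n → ℝ) : Fin n → ℝ := fun j => w (ρ j) + b j

/-- the position map of a cell -/
def cellF (ρ : Equiv.Perm (Fin n)) (b x : Fin n → ℝ) : Fin n → ℝ :=
  vR n *ᵥ cellG ρ b (uR n *ᵥ x)

lemma cellF_eq (ρ : Equiv.Perm (Fin n)) (b x : Fin n → ℝ) :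
    cellF ρ b x = (aMat ρ).map (Int.cast : ℤ → ℝ) *ᵥ x + vR n *ᵥ b := by
  unfold cellF aMat
  have e1 : cellG ρ b (uR n *ᵥ x) = pR ρ *ᵥ (uR n *ᵥ x) + b := by
    funext j
    rw [Pi.add_apply, pR_mulVec]
    rfl
  rw [e1, Matrix.mulVec_add, map_cast_mul, map_cast_mul, Matrix.mulVec_mulVec, Matrix.mulVec_mulVec]
  rfl

/-- the lifted map of a cell -/
def cellT (ρ : Equiv.Perm (Fin n)) (b : Fin n → ℝ) : (Fin n → ℂ) → (Fin n → ℂ) :=
  linT ((aMat ρ).map (Int.cast : ℤ → ℝ)) (bR ρ) (vR n *ᵥ b)

lemma cellT_re (ρ : Equiv.Perm (Fin n)) (b : Fin n → ℝ) (z : Fin n → ℂ) (l : Fin n) :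
    (cellT ρ b z l).re = cellF ρ b (fun m => (z m).re) l := by
  rw [cellF_eq]
  rfl

/-! ### Ordering a digit pattern -/

/-- a permutation sorting a digit function, larger digits first and stable on ties -/
noncomputable def digitPerm (κ : Fin n → ℕ) : Equiv.Perm (Fin n) :=
  Tuple.sort fun i => toLex (OrderDual.toDual (κ i), i)

lemma digitPerm_spec (κ : Fin n → ℕ) {j j' : Fin n} (h : j < j') :
    κ (digitPerm κ j') < κ (digitPerm κ j) ∨
      (κ (digitPerm κ j') = κ (digitPerm κ j) ∧ digitPerm κ j < digitPerm κ j') := by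
  set f : Fin n → OrderDual ℕ ×ₗ Fin n := fun i => toLex (OrderDual.toDual (κ i), i) with hf
  have hmono : Monotone (f ∘ Tuple.sort f) := Tuple.monotone_sort f
  have hinj : Function.Injective (f ∘ Tuple.sort f) := by
    intro a b hab
    have h1 : f (Tuple.sort f a) = f (Tuple.sort f b) := hab
    have h2 : Tuple.sort f a = Tuple.sort f b := by
      have := congrArg (fun p => (ofLex p).2) h1
      simpa [hf] using this
    exact (Tuple.sort f).injective h2
  have hlt : f (digitPerm κ j) < f (digitPerm κ j') := hmono.strictMono_of_injective hinj h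
  rw [Prod.Lex.toLex_lt_toLex] at hlt
  rcases hlt with h1 | ⟨h1, h2⟩
  · left
    exact h1
  · right
    refine ⟨?_, h2⟩
    exact h1.symm

/-- Sorting sends ordered tuples to ordered tuples after adding the digits. -/
lemma digit_strictAnti {s : ℝ} (κ : Fin n → ℕ) {w : Fin n → ℝ} (hw : w ∈ ordSimplex n s)
    (hs : 0 < s) : StrictAnti fun j => w (digitPerm κ j) + s * κ (digitPerm κ j) := by
  obtain ⟨hanti, hpos, hlt⟩ := hw
  intro j j' hjj'
  simp only
  rcases digitPerm_spec κ hjj' with h | ⟨h1, h2⟩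
  · have h3 : ((κ (digitPerm κ j') : ℕ) : ℝ) + 1 ≤ κ (digitPerm κ j) := by exact_mod_cast h
    have h4 := hlt (digitPerm κ j')
    have h5 := hpos (digitPerm κ j)
    nlinarith
  · rw [h1]
    have := hanti h2
    linarith


/-- Packing criterion in terms of cells in the ordered model. -/
theorem ballPacking_of_cells (hn : 0 < n) {k : ℕ} (R : ℝ) (r a : Fin k → ℝ) (hra : ∀ i, r i < a i)
    (ρ : Fin k → Equiv.Perm (Fin n)) (b : Fin k → Fin n → ℝ)
    (hin : ∀ i, ∀ w ∈ ordSimplex n (a i), cellG (ρ i) (b i) w ∈ ordSimplex n R)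
    (hdisj : ∀ i j, i ≠ j → ∀ w ∈ ordSimplex n (a i), ∀ w' ∈ ordSimplex n (a j),
      cellG (ρ i) (b i) w ≠ cellG (ρ j) (b j) w') :
    BallPacking n k R r := by
  have hF : ∀ i x x', cellF (ρ i) (b i) x = cellF (ρ i) (b i) x' → x = x' := by
    intro i x x' h
    have h1 : cellG (ρ i) (b i) (uR n *ᵥ x) = cellG (ρ i) (b i) (uR n *ᵥ x') := by
      have := congrArg (fun y => uR n *ᵥ y) h
      simpa only [cellF, uR_vR_mulVec] using this
    have h2 : uR n *ᵥ x = uR n *ᵥ x' := by
      funext l
      have := congrFun h1 ((ρ i).symm l)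
      simpa [cellG] using this
    have h3 := congrArg (fun y => vR n *ᵥ y) h2
    simpa only [vR_uR_mulVec] using h3
  refine ballPacking_of_toric R r a hra (fun i => cellT (ρ i) (b i))
    (fun i => contDiff_linT _ _ _) (fun i z => sympAt_linT (aMat_transpose_mul_b (ρ i)) _ z)
    (fun i => cellF (ρ i) (b i)) (fun i z l => cellT_re _ _ z l) ?_ ?_ ?_ ?_
  · intro i x hx
    exact vR_mem_simplex hn (hin i _ (uR_mem_ord hx))
  · intro i x _ x' _ h
    exact hF i x x' h
  · intro i j hij x hx x' hx' h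
    apply hdisj i j hij _ (uR_mem_ord hx) _ (uR_mem_ord hx')
    have := congrArg (fun y => uR n *ᵥ y) h
    simpa only [cellF, uR_vR_mulVec] using this
  · intro i z z' hre hz hz' hint
    exact linT_Q (aMat_transpose_mul_b (ρ i)) _ z z' hre hz hz' hint

lemma strictMono_perm_eq_one (τ : Equiv.Perm (Fin n)) (h : StrictMono τ) : τ = 1 := by
  have h1 : (τ : Fin n → Fin n) = id := by
    apply (StrictMono.range_inj h strictMono_id).mp
    simp [τ.surjective.range_eq]
  exact Equiv.ext fun l => congrFun h1 l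

/-- Ordered tuples agreeing after permutations have the same permutation. -/
lemma perm_eq_of_comp_eq {w w' : Fin n → ℝ} (hw : StrictAnti w) (hw' : StrictAnti w')
    {ρ ρ' : Equiv.Perm (Fin n)} (h : ∀ j, w (ρ j) = w' (ρ' j)) : ρ = ρ' := by
  set τ : Equiv.Perm (Fin n) := ρ.symm.trans ρ' with hτ
  have h1 : ∀ l, w l = w' (τ l) := by
    intro l
    have := h (ρ.symm l)
    simpa [hτ] using this
  have h2 : StrictMono τ := by
    intro a c hac
    have h3 : w c < w a := hw hac
    rw [h1 a, h1 c] at h3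
    exact (StrictAnti.lt_iff_gt hw').mp h3
  have h3 := strictMono_perm_eq_one τ h2
  ext j
  have h4 : τ (ρ j) = ρ j := by rw [h3]; rfl
  have h5 : τ (ρ j) = ρ' j := by simp [hτ]
  rw [← h5, h4]

/-- A real number determines integer part and fractional part. -/
lemma digit_unique {s θ θ' : ℝ} {a c : ℕ} (hs : 0 < s) (h1 : 0 < θ) (h2 : θ < s)
    (h3 : 0 < θ') (h4 : θ' < s) (h : θ + s * a = θ' + s * c) : a = c := by
  have h5 : (a : ℝ) < c + 1 := by
    by_contra hcon
    rw [not_lt] at hcon
    nlinarith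
  have h6 : (c : ℝ) < a + 1 := by
    by_contra hcon
    rw [not_lt] at hcon
    nlinarith
  have h7 : a < c + 1 := by exact_mod_cast h5
  have h8 : c < a + 1 := by exact_mod_cast h6
  omega

/-- The translation of the child with digit pattern `κ` of the big cell of size `q * u`
with the top coordinate shifted by `sh`. -/
noncomputable def childB (u sh : ℝ) (hn : 0 < n) (κ : Fin n → ℕ) : Fin n → ℝ :=
  fun j => u * κ (digitPerm κ j) + if j = ⟨0, hn⟩ then sh else 0

lemma childG_apply (u sh : ℝ) (hn : 0 < n) (κ : Fin n → ℕ) (w : Fin n → ℝ) (j : Fin n) :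
    cellG (digitPerm κ) (childB u sh hn κ) w j =
      (w (digitPerm κ j) + u * κ (digitPerm κ j)) + if j = ⟨0, hn⟩ then sh else 0 := by
  simp [cellG, childB, add_assoc]

lemma fin_zero_le (hn : 0 < n) (j : Fin n) : (⟨0, hn⟩ : Fin n) ≤ j :=
  Fin.mk_le_of_le_val (Nat.zero_le _)

lemma child_mem {u sh R : ℝ} (hu : 0 < u) (hsh : 0 ≤ sh) {q : ℕ} (hR : q * u + sh ≤ R)
    (hn : 0 < n) (κ : Fin n → ℕ) (hκ : ∀ l, κ l < q) {w : Fin n → ℝ}
    (hw : w ∈ ordSimplex n u) :
    cellG (digitPerm κ) (childB u sh hn κ) w ∈ ordSimplex n R := by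
  have hanti := digit_strictAnti κ hw hu
  obtain ⟨-, hpos, hlt⟩ := hw
  refine ⟨?_, ?_, ?_⟩
  · intro j j' hjj'
    rw [childG_apply, childG_apply]
    have h0 : ¬ j' = (⟨0, hn⟩ : Fin n) := by
      rintro rfl
      exact absurd hjj' (not_lt.mpr (fin_zero_le hn j))
    rw [if_neg h0, add_zero]
    have h1 := hanti hjj'
    simp only at h1
    split_ifs <;> linarith
  · intro j
    rw [childG_apply]
    have h1 := hpos (digitPerm κ j)
    have h2 : 0 ≤ u * κ (digitPerm κ j) := by positivity
    split_ifs <;> linarith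
  · intro j
    rw [childG_apply]
    have h1 := hlt (digitPerm κ j)
    have h2 : ((κ (digitPerm κ j) : ℕ) : ℝ) + 1 ≤ q := by exact_mod_cast hκ (digitPerm κ j)
    have h3 : u * κ (digitPerm κ j) + u ≤ q * u := by nlinarith
    split_ifs <;> linarith

lemma child_disjoint {u sh : ℝ} (hu : 0 < u) (hn : 0 < n) {κ κ' : Fin n → ℕ}
    {w w' : Fin n → ℝ} (hw : w ∈ ordSimplex n u) (hw' : w' ∈ ordSimplex n u)
    (h : cellG (digitPerm κ) (childB u sh hn κ) w = cellG (digitPerm κ') (childB u sh hn κ') w') :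
    κ = κ' := by
  have h1 : ∀ j, w (digitPerm κ j) + u * κ (digitPerm κ j) =
      w' (digitPerm κ' j) + u * κ' (digitPerm κ' j) := by
    intro j
    have := congrFun h j
    rw [childG_apply, childG_apply] at this
    linarith
  have h2 : ∀ j, κ (digitPerm κ j) = κ' (digitPerm κ' j) := fun j =>
    digit_unique hu (hw.2.1 _) (hw.2.2 _) (hw'.2.1 _) (hw'.2.2 _) (h1 j)
  have h3 : ∀ j, w (digitPerm κ j) = w' (digitPerm κ' j) := by
    intro j
    have := h1 j
    rw [h2 j] at this
    linarith
  have h4 := perm_eq_of_comp_eq hw.1 hw'.1 h3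
  funext l
  have := h2 ((digitPerm κ).symm l)
  rw [h4] at this
  rw [← h4] at this
  simpa [h4] using this


lemma card_digit_lower (n q d : ℕ) :
    (q ^ n - (q - d) ^ n) ≤
      (Finset.univ.filter fun κ : Fin n → Fin q => ∃ l, q - d ≤ (κ l : ℕ)).card := by
  classical
  have h1 := Finset.card_filter_add_card_filter_not (s := (Finset.univ : Finset (Fin n → Fin q)))
    (fun κ : Fin n → Fin q => ∃ l, q - d ≤ (κ l : ℕ))
  have h2 : (Finset.univ.filter fun κ : Fin n → Fin q => ¬ ∃ l, q - d ≤ (κ l : ℕ)).card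
      ≤ (q - d) ^ n := by
    have hlt : ∀ κ : {κ : Fin n → Fin q // ¬ ∃ l, q - d ≤ (κ l : ℕ)}, ∀ l, (κ.1 l : ℕ) < q - d := by
      intro κ l
      by_contra hcon
      exact κ.2 ⟨l, not_lt.mp hcon⟩
    let emb : {κ : Fin n → Fin q // ¬ ∃ l, q - d ≤ (κ l : ℕ)} → (Fin n → Fin (q - d)) :=
      fun κ l => ⟨κ.1 l, hlt κ l⟩
    have hemb : Function.Injective emb := by
      intro κ κ' h
      apply Subtype.ext
      funext l
      have := congrFun h l
      apply Fin.ext
      simpa [emb] using this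
    have h3 := Fintype.card_le_of_injective emb hemb
    rw [Fintype.card_subtype, Fintype.card_fun, Fintype.card_fin, Fintype.card_fin] at h3
    exact h3
  have h4 : (Finset.univ : Finset (Fin n → Fin q)).card = q ^ n := by
    rw [Finset.card_univ, Fintype.card_fun, Fintype.card_fin, Fintype.card_fin]
  omega

/-- The layer theorem: a ball of capacity `r i₀` at the corner together with balls of capacity
smaller than `u` placed in the outer `d` layers of a lattice of mesh `u`. -/
theorem ballPacking_layers (hn : 0 < n) {k : ℕ} {R u : ℝ} (hu : 0 < u) {q d : ℕ}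
    (hq : (q : ℝ) * u ≤ R) (r : Fin k → ℝ) (i₀ : Fin k) (hbig : r i₀ + d * u < R)
    (hsmall : ∀ i, i ≠ i₀ → r i < u) (hk : k ≤ q ^ n - (q - d) ^ n + 1) :
    BallPacking n k R r := by
  classical
  set S : Finset (Fin n → Fin q) :=
    Finset.univ.filter fun κ : Fin n → Fin q => ∃ l, q - d ≤ (κ l : ℕ) with hS
  have hcard : Fintype.card {i : Fin k // i ≠ i₀} ≤ Fintype.card {κ // κ ∈ S} := by
    rw [Fintype.card_subtype_compl, Fintype.card_coe, Fintype.card_fin]
    have h1 : q ^ n - (q - d) ^ n ≤ S.card := card_digit_lower n q d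
    have h2 : Fintype.card {x // x = i₀} = 1 := by simp
    rw [h2]
    omega
  obtain ⟨e⟩ := Function.Embedding.nonempty_of_card_le hcard
  set sh : ℝ := R - q * u with hsh
  have hsh0 : 0 ≤ sh := by simp only [hsh]; linarith
  -- digit pattern of an index
  let dig : (i : Fin k) → (h : i ≠ i₀) → Fin n → ℕ := fun i h l => ((e ⟨i, h⟩).1 l : ℕ)
  have hdig1 : ∀ i h l, dig i h l < q := fun i h l => ((e ⟨i, h⟩).1 l).2
  have hdig2 : ∀ i h, ∃ l, q - d ≤ dig i h l := by
    intro i h
    have := (e ⟨i, h⟩).2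
    simp only [hS, Finset.mem_filter, Finset.mem_univ, true_and] at this
    exact this
  have hdig3 : ∀ i j h h', dig i h = dig j h' → i = j := by
    intro i j h h' hd
    have h1 : (e ⟨i, h⟩).1 = (e ⟨j, h'⟩).1 := by
      funext l
      apply Fin.ext
      exact congrFun hd l
    have h2 := e.injective (Subtype.ext h1)
    exact congrArg Subtype.val h2
  set a : Fin k → ℝ := fun i => if i = i₀ then R - d * u else u with ha
  set ρ : Fin k → Equiv.Perm (Fin n) :=
    fun i => if h : i = i₀ then 1 else digitPerm (dig i h) with hρ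
  set b : Fin k → Fin n → ℝ :=
    fun i => if h : i = i₀ then 0 else childB u sh hn (dig i h) with hb
  have hd0 : (0 : ℝ) ≤ d * u := by positivity
  refine ballPacking_of_cells hn R r a ?_ ρ b ?_ ?_
  · intro i
    by_cases h : i = i₀
    · subst h
      simp only [ha, if_true]
      linarith
    · simp only [ha, if_neg h]
      exact hsmall i h
  · intro i w hw
    by_cases h : i = i₀
    · subst h
      simp only [ha, if_true] at hw
      have e1 : cellG (ρ i) (b i) w = w := by
        funext j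
        simp [cellG, hρ, hb]
      rw [e1]
      exact ⟨hw.1, hw.2.1, fun j => by linarith [hw.2.2 j]⟩
    · simp only [ha, if_neg h] at hw
      have e1 : ρ i = digitPerm (dig i h) := by simp [hρ, h]
      have e2 : b i = childB u sh hn (dig i h) := by simp [hb, h]
      rw [e1, e2]
      refine child_mem hu hsh0 (q := q) (by simp only [hsh]; linarith) hn _ (hdig1 i h) hw
  · -- disjointness
    have hbigchild : ∀ j (hj : j ≠ i₀), ∀ w ∈ ordSimplex n (R - d * u), ∀ w' ∈ ordSimplex n u,
        w ≠ cellG (digitPerm (dig j hj)) (childB u sh hn (dig j hj)) w' := by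
      intro j hj w hw w' hw' heq
      obtain ⟨l, hl⟩ := hdig2 j hj
      have hanti := digit_strictAnti (dig j hj) hw' hu
      set κ := dig j hj with hκ
      have hv0 := hw.2.2 ⟨0, hn⟩
      rw [heq, childG_apply, if_pos rfl] at hv0
      -- compare with the position of the digit `l`
      set j0 := (digitPerm κ).symm l with hj0
      have hle : w' (digitPerm κ j0) + u * κ (digitPerm κ j0) ≤
          w' (digitPerm κ ⟨0, hn⟩) + u * κ (digitPerm κ ⟨0, hn⟩) :=
        hanti.antitone (fin_zero_le hn j0)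
      have hj1 : digitPerm κ j0 = l := by simp [hj0]
      rw [hj1] at hle
      have hp := hw'.2.1 l
      have hc : ((q : ℝ) - d) ≤ κ l := by
        have h1 : ((q - d : ℕ) : ℝ) ≤ κ l := by exact_mod_cast hl
        have h2 : (q : ℝ) - d ≤ ((q - d : ℕ) : ℝ) := by
          rw [sub_le_iff_le_add]
          have : q ≤ (q - d) + d := by omega
          exact_mod_cast this
        linarith
      have hc2 : u * ((q : ℝ) - d) ≤ u * κ l := mul_le_mul_of_nonneg_left hc hu.le
      simp only [hsh] at hv0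
      nlinarith
    intro i j hij w hw w' hw' heq
    by_cases hi : i = i₀
    · subst hi
      have hj : j ≠ i := fun h => hij h.symm
      simp only [ha, if_true, if_neg hj] at hw hw'
      have e1 : cellG (ρ i) (b i) w = w := by
        funext l
        simp [cellG, hρ, hb]
      have e2 : ρ j = digitPerm (dig j hj) := by simp [hρ, hj]
      have e3 : b j = childB u sh hn (dig j hj) := by simp [hb, hj]
      rw [e1, e2, e3] at heq
      exact hbigchild j hj w hw w' hw' heq
    · by_cases hj : j = i₀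
      · subst hj
        simp only [ha, if_true, if_neg hi] at hw hw'
        have e1 : cellG (ρ j) (b j) w' = w' := by
          funext l
          simp [cellG, hρ, hb]
        have e2 : ρ i = digitPerm (dig i hi) := by simp [hρ, hi]
        have e3 : b i = childB u sh hn (dig i hi) := by simp [hb, hi]
        rw [e1, e2, e3] at heq
        exact hbigchild i hi w' hw' w hw heq.symm
      · simp only [ha, if_neg hi, if_neg hj] at hw hw'
        have e2 : ρ i = digitPerm (dig i hi) := by simp [hρ, hi]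
        have e3 : b i = childB u sh hn (dig i hi) := by simp [hb, hi]
        have e4 : ρ j = digitPerm (dig j hj) := by simp [hρ, hj]
        have e5 : b j = childB u sh hn (dig j hj) := by simp [hb, hj]
        rw [e2, e3, e4, e5] at heq
        exact hij (hdig3 i j hi hj (child_disjoint hu hn hw hw' heq))

end Vale.Agent.Lib.P209
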