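import Vale.Agent.Lib.P209.Rigid

/-! Packing cubes into the part of the chamber above `a'` in the first coordinate and below `c`
in the last coordinate, by shelves along the last coordinate. -/

namespace Vale.Agent.Lib.P209

open Nat

/-- The cubes of the list `L` can be placed in the chamber of size `R` with first coordinates at
least `a'`, last coordinates at least `v` and top of the last coordinate at most `c`. -/
def PlacedA (d : ℕ) (R a' c v : ℝ) (L : List ℝ) : Prop :=
  ∃ Q : List ((Fin (d + 2) → ℝ) × ℝ), Q.map Prod.snd = L ∧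
    (∀ q ∈ Q, InChamber R q ∧ a' ≤ q.1 0 ∧ v ≤ q.1 (Fin.last _) ∧ q.1 (Fin.last _) + q.2 ≤ c) ∧
    Q.Pairwise CubeSep

/-- one shelf along the last coordinate -/
lemma placedA_shelf {d : ℕ} {R a' c v h : ℝ} {L₁ L₂ : List ℝ} (hv : 0 ≤ v) (hh : 0 ≤ h)
    (hvh : v + h ≤ c) (hcR : v + h ≤ R)
    (hL₁ : ∀ x ∈ L₁, x ≤ h)
    (h₁ : Placed d (R - v - h) (a' - v - h) L₁) (h₂ : PlacedA d R a' c (v + h) L₂) :
    PlacedA d R a' c v (L₁ ++ L₂) := by
  obtain ⟨Q₁, hQ₁, hc₁, hp₁⟩ := h₁
  obtain ⟨Q₂, hQ₂, hc₂, hp₂⟩ := h₂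
  let lift : (Fin (d + 1) → ℝ) × ℝ → (Fin (d + 2) → ℝ) × ℝ :=
    fun q => (Fin.snoc (α := fun _ => ℝ) (fun j => q.1 j + (v + h)) v, q.2)
  have hlast : ∀ q, (lift q).1 (Fin.last _) = v := fun q => by simp [lift]
  have hcast : ∀ q (j : Fin (d + 1)), (lift q).1 j.castSucc = q.1 j + (v + h) :=
    fun q j => by simp [lift]
  have hside : ∀ q, (lift q).2 = q.2 := fun q => rfl
  refine ⟨Q₁.map lift ++ Q₂, ?_, ?_, ?_⟩
  · rw [List.map_append, List.map_map, hQ₂, ← hQ₁]
    rfl
  · intro q hq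
    rw [List.mem_append] at hq
    rcases hq with hq | hq
    · obtain ⟨p, hp, rfl⟩ := List.mem_map.mp hq
      obtain ⟨⟨h0, h1, h2⟩, h3⟩ := hc₁ p hp
      have hpc : p.2 ≤ h := hL₁ p.2 (by rw [← hQ₁]; exact List.mem_map_of_mem hp)
      refine ⟨⟨?_, ?_, ?_⟩, ?_, ?_, ?_⟩
      · intro j
        refine Fin.lastCases ?_ (fun j => ?_) j
        · rw [hlast]; exact hv
        · rw [hcast]
          have := h0 j
          linarith
      · intro j
        rw [hside]
        refine Fin.lastCases ?_ (fun j => ?_) j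
        · rw [hlast]; linarith
        · rw [hcast]
          have := h1 j
          linarith
      · intro j j' hjj'
        rw [hside]
        induction j' using Fin.lastCases with
        | last =>
          induction j using Fin.lastCases with
          | last => exact absurd hjj' (lt_irrefl _)
          | cast j =>
            rw [hlast, hcast]
            have := h0 j
            linarith
        | cast j' =>
          induction j using Fin.lastCases with
          | last =>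
            exact absurd hjj' (not_lt.mpr (Fin.le_last _))
          | cast j =>
            rw [hcast, hcast]
            have := h2 j j' (Fin.castSucc_lt_castSucc_iff.mp hjj')
            linarith
      · have e : (0 : Fin (d + 2)) = (0 : Fin (d + 1)).castSucc := rfl
        rw [e, hcast]
        linarith
      · rw [hlast]
      · rw [hlast, hside]
        linarith
    · obtain ⟨⟨h0, h1, h2⟩, h3, h4, h5⟩ := hc₂ q hq
      exact ⟨⟨h0, h1, h2⟩, h3, by linarith, h5⟩
  · rw [List.pairwise_append]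
    refine ⟨?_, hp₂, ?_⟩
    · rw [List.pairwise_map]
      refine hp₁.imp ?_
      rintro q q' ⟨l, hl⟩
      refine ⟨l.castSucc, ?_⟩
      rw [hcast, hcast, hside, hside]
      rcases hl with hl | hl
      · left; linarith
      · right; linarith
    · intro q hq q' hq'
      obtain ⟨p, hp, rfl⟩ := List.mem_map.mp hq
      obtain ⟨⟨-, -, -⟩, -, h4, -⟩ := hc₂ q' hq'
      have hpc : p.2 ≤ h := hL₁ p.2 (by rw [← hQ₁]; exact List.mem_map_of_mem hp)
      refine ⟨Fin.last _, Or.inl ?_⟩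
      rw [hlast, hside]
      linarith

/-- Monotonicity of increments of powers. -/
lemma pow_increment_mono (m : ℕ) {δ s t : ℝ} (hδ : 0 ≤ δ) (hs : δ ≤ s) (hst : s ≤ t) :
    s ^ m - (s - δ) ^ m ≤ t ^ m - (t - δ) ^ m := by
  induction m with
  | zero => simp
  | succ m ih =>
    have h0 : 0 ≤ s ^ m - (s - δ) ^ m := sub_nonneg.mpr (pow_le_pow_left₀ (by linarith) (by linarith) _)
    have h1 : (s - δ) ^ m ≤ (t - δ) ^ m := pow_le_pow_left₀ (by linarith) (by linarith) _
    have e1 : s ^ (m + 1) - (s - δ) ^ (m + 1) = s * (s ^ m - (s - δ) ^ m) + δ * (s - δ) ^ m := by ring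
    have e2 : t ^ (m + 1) - (t - δ) ^ (m + 1) = t * (t ^ m - (t - δ) ^ m) + δ * (t - δ) ^ m := by ring
    rw [e1, e2]
    have hs0 : 0 ≤ s := by linarith
    have h2 : s * (s ^ m - (s - δ) ^ m) ≤ t * (t ^ m - (t - δ) ^ m) :=
      mul_le_mul hst ih h0 (by linarith)
    have h3 : δ * (s - δ) ^ m ≤ δ * (t - δ) ^ m := mul_le_mul_of_nonneg_left h1 hδ
    linarith

/-- The convexity of the difference of two powers. -/
lemma pow_diff_convex (m : ℕ) {Y β w : ℝ} (hw : 0 ≤ w) (hβ : w ≤ β) (hY : β ≤ Y) :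
    (Y ^ (m + 1) - β ^ (m + 1)) - (m + 1) * w * (Y ^ m - β ^ m) ≤
      (Y - w) ^ (m + 1) - (β - w) ^ (m + 1) := by
  induction m with
  | zero => simp
  | succ m ih =>
    have hYpos : 0 ≤ Y := by linarith
    have hβpos : 0 ≤ β := by linarith
    have hP : 0 ≤ Y ^ (m + 1) - β ^ (m + 1) := sub_nonneg.mpr (pow_le_pow_left₀ hβpos hY _)
    have hP0 : 0 ≤ Y ^ m - β ^ m := sub_nonneg.mpr (pow_le_pow_left₀ hβpos hY _)
    have hbern := bernoulli_hom m hw hβ
    have hYw : 0 ≤ Y - w := by linarith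
    have hδ : 0 ≤ Y - β := by linarith
    -- the recursion
    have e1 : Y ^ (m + 1 + 1) - β ^ (m + 1 + 1) =
        Y * (Y ^ (m + 1) - β ^ (m + 1)) + β ^ (m + 1) * (Y - β) := by ring
    have e2 : (Y - w) ^ (m + 1 + 1) - (β - w) ^ (m + 1 + 1) =
        (Y - w) * ((Y - w) ^ (m + 1) - (β - w) ^ (m + 1)) + (β - w) ^ (m + 1) * (Y - β) := by ring
    have e3 : Y ^ (m + 1) - β ^ (m + 1) = Y * (Y ^ m - β ^ m) + β ^ m * (Y - β) := by ring
    have h1 : (Y - w) * ((Y ^ (m + 1) - β ^ (m + 1)) - (m + 1) * w * (Y ^ m - β ^ m)) ≤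
        (Y - w) * ((Y - w) ^ (m + 1) - (β - w) ^ (m + 1)) :=
      mul_le_mul_of_nonneg_left ih hYw
    have h2 : (β ^ (m + 1) - (m + 1) * w * β ^ m) * (Y - β) ≤ (β - w) ^ (m + 1) * (Y - β) :=
      mul_le_mul_of_nonneg_right hbern hδ
    have h3 : 0 ≤ w * (m + 1) * w * (Y ^ m - β ^ m) := by positivity
    rw [e1, e2]
    push_cast
    have e4 : ((m : ℝ) + 1 + 1) * w * (Y ^ (m + 1) - β ^ (m + 1)) =
        w * (Y ^ (m + 1) - β ^ (m + 1)) + (m + 1) * w * (Y * (Y ^ m - β ^ m) + β ^ m * (Y - β)) := by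
      rw [← e3]; ring
    rw [e4]
    nlinarith

lemma placedA_nil (d : ℕ) (R a' c v : ℝ) : PlacedA d R a' c v [] :=
  ⟨[], rfl, by simp, List.Pairwise.nil⟩

/-- The capacity theorem for the region `A`. -/
theorem placedA_claim (d : ℕ) (R a' c : ℝ) (hF : 0 ≤ a' - c) (L : List ℝ) :
    ∀ v h : ℝ, 0 ≤ v → 0 ≤ h → (∀ x ∈ L, 0 ≤ x ∧ x ≤ h) → L.Pairwise (· ≥ ·) → v + h ≤ c →
    ((d : ℝ) + 1) * h ≤ R - a' →
    (((d + 1 + 1)! : ℕ) : ℝ) * (L.map fun x => x ^ (d + 1 + 1)).sum ≤
      ((R - v - ((d : ℝ) + 1 + 1) * h) ^ (d + 1 + 1) - (a' - v - h) ^ (d + 1 + 1)) -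
      ((R - c - ((d : ℝ) + 1) * h) ^ (d + 1 + 1) - (a' - c) ^ (d + 1 + 1)) →
    PlacedA d R a' c v (h :: L) := by
  induction' hN : L.length using Nat.strong_induction_on with N ih generalizing L
  intro v h hv hh hL hsort hvh hfit hs
  set Y : ℝ := R - v - ((d : ℝ) + 1 + 1) * h with hY
  set β : ℝ := a' - v - h with hβdef
  set E : ℝ := R - c - ((d : ℝ) + 1) * h with hE
  set F : ℝ := a' - c with hFdef
  set t : ℝ := c - v - h with ht
  have ht0 : 0 ≤ t := by simp only [ht]; linarith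
  have hβF : β - t = F := by simp only [hβdef, ht, hFdef]; ring
  have hYE : Y - t = E := by simp only [hY, ht, hE]; ring
  have hβ0 : 0 ≤ β := by linarith
  have htβ : t ≤ β := by linarith
  have hβY : β ≤ Y := by
    simp only [hβdef, hY]
    linarith
  have hY0 : 0 ≤ Y := by linarith
  have hE0 : 0 ≤ E := by linarith
  have hvhR : v + h ≤ R := by
    have h1 : 0 ≤ ((d : ℝ) + 1) * h := by positivity
    linarith
  have hB : 0 ≤ Y ^ (d + 1) - β ^ (d + 1) := sub_nonneg.mpr (pow_le_pow_left₀ hβ0 hβY _)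
  have hfacpos : (0 : ℝ) < ((d + 1)! : ℝ) := by exact_mod_cast Nat.factorial_pos _
  obtain ⟨P, W, hLPW, hP, hW⟩ := exists_split (fun x => x ^ (d + 1))
    (fun x hx => pow_nonneg hx _) L (fun x hx => (hL x hx).1) _ (div_nonneg hB hfacpos.le)
  have hPmem : ∀ x ∈ P, 0 ≤ x ∧ x ≤ h := fun x hx => hL x (by rw [hLPW]; simp [hx])
  have hPsort : P.Pairwise (· ≥ ·) := by
    rw [hLPW] at hsort
    exact (List.pairwise_append.mp hsort).1
  have hRv : R - v - h - ((d : ℝ) + 1) * h = Y := by simp only [hY]; ring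
  have hcross : Placed d (R - v - h) β (h :: P) := by
    apply shelfClaim d (R - v - h) β h P hβ0 hh hPmem hPsort
    · linarith
    · rw [hRv]; exact hβY
    · rw [hRv]
      rw [le_div_iff₀ hfacpos] at hP
      linarith
  have hshelf : ∀ x ∈ h :: P, x ≤ h := by
    intro x hx
    rcases List.mem_cons.mp hx with rfl | hx
    · exact le_rfl
    · exact (hPmem x hx).2
  rcases hW with rfl | ⟨w, W', rfl, hclose⟩
  · have := placedA_shelf (d := d) (R := R) (a' := a') (c := c) (v := v) (h := h)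
      (L₁ := h :: P) (L₂ := []) hv hh hvh hvhR hshelf hcross (placedA_nil _ _ _ _ _)
    simpa [hLPW] using this
  · have hwmem : 0 ≤ w ∧ w ≤ h := hL w (by rw [hLPW]; simp)
    have hw0 := hwmem.1
    have hW'mem : ∀ x ∈ W', 0 ≤ x ∧ x ≤ w := by
      intro x hx
      refine ⟨(hL x (by rw [hLPW]; simp [hx])).1, ?_⟩
      rw [hLPW] at hsort
      have h1 := (List.pairwise_append.mp hsort).2.1
      exact (List.pairwise_cons.mp h1).1 x hx
    have hW'sort : W'.Pairwise (· ≥ ·) := by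
      rw [hLPW] at hsort
      have h1 := (List.pairwise_append.mp hsort).2.1
      exact (List.pairwise_cons.mp h1).2
    have hPw : ∀ x ∈ P, w ≤ x := by
      intro x hx
      rw [hLPW] at hsort
      exact (List.pairwise_append.mp hsort).2.2 x hx w (by simp)
    set A : ℝ := (P.map fun x => x ^ (d + 1 + 1)).sum with hA
    set B : ℝ := (P.map fun x => x ^ (d + 1)).sum with hBdef
    set C : ℝ := (W'.map fun x => x ^ (d + 1 + 1)).sum with hC
    have hAB : w * B ≤ A := sum_pow_succ_ge (d + 1) P hw0 hPw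
    have hC0 : 0 ≤ C := sum_pow_nonneg _ _ fun x hx => (hW'mem x hx).1
    have hs' : (((d + 1 + 1)! : ℕ) : ℝ) * (A + w ^ (d + 1 + 1) + C) ≤
        (Y ^ (d + 1 + 1) - β ^ (d + 1 + 1)) - (E ^ (d + 1 + 1) - F ^ (d + 1 + 1)) := by
      have h1 : (L.map fun x => x ^ (d + 1 + 1)).sum = A + (w ^ (d + 1 + 1) + C) := by
        rw [hLPW]
        simp [hA, hC]
      rw [h1] at hs
      have e : A + w ^ (d + 1 + 1) + C = A + (w ^ (d + 1 + 1) + C) := by ring
      rw [e]
      exact hs
    have hfac2 : (((d + 1 + 1)! : ℕ) : ℝ) = ((d : ℝ) + 1 + 1) * ((d + 1)! : ℝ) := by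
      rw [Nat.factorial_succ (d + 1)]
      push_cast
      ring
    have hclose' : Y ^ (d + 1) - β ^ (d + 1) < ((d + 1)! : ℝ) * (B + w ^ (d + 1)) := by
      rw [div_lt_iff₀ hfacpos] at hclose
      linarith
    -- the cubes of the shelf fill their part of the volume
    have hfill : ((d : ℝ) + 1 + 1) * w * (((d + 1)! : ℝ) * (B + w ^ (d + 1))) ≤
        (((d + 1 + 1)! : ℕ) : ℝ) * (A + w ^ (d + 1 + 1)) := by
      have h3 : (((d + 1)! : ℝ)) * (w * B) ≤ ((d + 1)! : ℝ) * A :=
        mul_le_mul_of_nonneg_left hAB hfacpos.le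
      have h4 : (0 : ℝ) < (d : ℝ) + 1 + 1 := by positivity
      have h6 := mul_le_mul_of_nonneg_left h3 h4.le
      have e : w ^ (d + 1 + 1) = w * w ^ (d + 1) := by ring
      rw [hfac2, e]
      calc ((d : ℝ) + 1 + 1) * w * (((d + 1)! : ℝ) * (B + w ^ (d + 1)))
          = ((d : ℝ) + 1 + 1) * (((d + 1)! : ℝ) * (w * B)) +
            ((d : ℝ) + 1 + 1) * ((d + 1)! : ℝ) * (w * w ^ (d + 1)) := by ring
        _ ≤ ((d : ℝ) + 1 + 1) * (((d + 1)! : ℝ) * A) +
            ((d : ℝ) + 1 + 1) * ((d + 1)! : ℝ) * (w * w ^ (d + 1)) := by linarith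
        _ = _ := by ring
    have hn0 : (0 : ℝ) < (d : ℝ) + 1 + 1 := by positivity
    have hcapsplit : (((d + 1 + 1)! : ℕ) : ℝ) * (A + w ^ (d + 1 + 1) + C) =
        (((d + 1 + 1)! : ℕ) : ℝ) * (A + w ^ (d + 1 + 1)) + (((d + 1 + 1)! : ℕ) : ℝ) * C := by ring
    have hC1 : 0 ≤ (((d + 1 + 1)! : ℕ) : ℝ) * C := by positivity
    -- the next shelf fits
    have hwt : w ≤ t := by
      by_contra hcon
      have hlt : t < w := not_le.mp hcon
      have hwpos : 0 < w := lt_of_le_of_lt ht0 hlt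
      have hconv := pow_diff_convex (d + 1) ht0 htβ hβY
      rw [hYE, hβF] at hconv
      push_cast at hconv
      have h1 : ((d : ℝ) + 1 + 1) * w * (Y ^ (d + 1) - β ^ (d + 1)) <
          ((d : ℝ) + 1 + 1) * w * (((d + 1)! : ℝ) * (B + w ^ (d + 1))) :=
        mul_lt_mul_of_pos_left hclose' (by positivity)
      have h2 : ((d : ℝ) + 1 + 1) * t * (Y ^ (d + 1) - β ^ (d + 1)) ≤
          ((d : ℝ) + 1 + 1) * w * (Y ^ (d + 1) - β ^ (d + 1)) :=
        mul_le_mul_of_nonneg_right (mul_le_mul_of_nonneg_left hlt.le hn0.le) hB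
      linarith
    have hwβ : w ≤ β := hwt.trans htβ
    have hconv := pow_diff_convex (d + 1) hw0 hwβ hβY
    push_cast at hconv
    have hmain : (((d + 1 + 1)! : ℕ) : ℝ) * C ≤
        ((Y - w) ^ (d + 1 + 1) - (β - w) ^ (d + 1 + 1)) - (E ^ (d + 1 + 1) - F ^ (d + 1 + 1)) := by
      have h1 : ((d : ℝ) + 1 + 1) * w * (Y ^ (d + 1) - β ^ (d + 1)) ≤
          ((d : ℝ) + 1 + 1) * w * (((d + 1)! : ℝ) * (B + w ^ (d + 1))) :=
        mul_le_mul_of_nonneg_left hclose'.le (by positivity)
      linarith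
    -- compare with the budget of the next state
    set δ : ℝ := ((d : ℝ) + 1) * (h - w) with hδ
    have hδ0 : 0 ≤ δ := mul_nonneg (by positivity) (by linarith [hwmem.2])
    set Y' : ℝ := R - (v + h) - ((d : ℝ) + 1 + 1) * w with hY'
    set E' : ℝ := R - c - ((d : ℝ) + 1) * w with hE'
    have hY'δ : Y' - δ = Y - w := by simp only [hY', hδ, hY]; ring
    have hE'δ : E' - δ = E := by simp only [hE', hδ, hE]; ring
    have hinc := pow_increment_mono (d + 1 + 1) hδ0 (s := E') (t := Y') (by linarith)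
      (by
        have : E ≤ Y - w := by linarith
        linarith)
    rw [hY'δ, hE'δ] at hinc
    have hβw : a' - (v + h) - w = β - w := by simp only [hβdef]; ring
    have hrec : PlacedA d R a' c (v + h) (w :: W') := by
      have hlen : W'.length < N := by
        rw [← hN, hLPW]
        simp
        omega
      refine ih W'.length hlen W' rfl (v + h) w (by linarith) hw0 hW'mem hW'sort ?_ ?_ ?_
      · have : v + h + w = c - t + w := by simp only [ht]; ring
        linarith
      · have h1 : ((d : ℝ) + 1) * w ≤ ((d : ℝ) + 1) * h :=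
          mul_le_mul_of_nonneg_left hwmem.2 (by positivity)
        linarith
      · rw [hβw]
        have e1 : R - c - ((d : ℝ) + 1) * w = E' := rfl
        have e2 : R - (v + h) - ((d : ℝ) + 1 + 1) * w = Y' := rfl
        rw [e1, e2]
        linarith
    have := placedA_shelf (d := d) (R := R) (a' := a') (c := c) (v := v) (h := h)
      (L₁ := h :: P) (L₂ := w :: W') hv hh hvh hvhR hshelf hcross hrec
    simpa [hLPW] using this

end Vale.Agent.Lib.P209
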