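import Vale.Agent.Lib.P209.Shelf

/-! From cubes in the chamber to rigid packings of order simplices, and to ball packings. -/

namespace Vale.Agent.Lib.P209

open Nat

variable {n : ℕ}

/-- Rigid packing of the order simplices of sizes `a i` into the order simplex of size `R`, by
translations and permutations of the coordinates, avoiding the order simplex of size `β`. -/
def RigidPack (n : ℕ) {ι : Type*} (R β : ℝ) (a : ι → ℝ) : Prop :=
  ∃ (ρ : ι → Equiv.Perm (Fin n)) (b : ι → Fin n → ℝ),
    (∀ i, ∀ w ∈ ordSimplex n (a i), cellG (ρ i) (b i) w ∈ ordSimplex n R ∧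
      ∃ l, β ≤ cellG (ρ i) (b i) w l) ∧
    ∀ i j, i ≠ j → ∀ w ∈ ordSimplex n (a i), ∀ w' ∈ ordSimplex n (a j),
      cellG (ρ i) (b i) w ≠ cellG (ρ j) (b j) w'

lemma cellG_mem_of_inChamber {R c s : ℝ} {q : (Fin n → ℝ) × ℝ} (hq : InChamber R q)
    (hc : c ≤ q.2) (ρ : Equiv.Perm (Fin n)) {w : Fin n → ℝ} (hw : w ∈ ordSimplex n c) (_hs : s = s) :
    cellG ρ q.1 w ∈ ordSimplex n R := by
  obtain ⟨h0, h1, h2⟩ := hq
  obtain ⟨-, hpos, hlt⟩ := hw
  refine ⟨?_, ?_, ?_⟩
  · intro j j' hjj'
    have h3 := h2 j j' hjj'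
    have h4 := hpos (ρ j)
    have h5 := hlt (ρ j')
    simp only [cellG]
    linarith
  · intro j
    have h4 := hpos (ρ j)
    have h5 := h0 j
    simp only [cellG]
    linarith
  · intro j
    have h3 := h1 j
    have h5 := hlt (ρ j)
    simp only [cellG]
    linarith

lemma cellG_ne_of_sep {c c' : ℝ} {q q' : (Fin n → ℝ) × ℝ} (hsep : CubeSep q q')
    (hc : c ≤ q.2) (hc' : c' ≤ q'.2) (ρ ρ' : Equiv.Perm (Fin n)) {w w' : Fin n → ℝ}
    (hw : w ∈ ordSimplex n c) (hw' : w' ∈ ordSimplex n c') :
    cellG ρ q.1 w ≠ cellG ρ' q'.1 w' := by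
  obtain ⟨-, hpos, hlt⟩ := hw
  obtain ⟨-, hpos', hlt'⟩ := hw'
  intro h
  obtain ⟨l, hl⟩ := hsep
  have h1 := congrFun h l
  simp only [cellG] at h1
  rcases hl with hl | hl
  · have := hlt (ρ l)
    have := hpos' (ρ' l)
    linarith
  · have := hlt' (ρ' l)
    have := hpos (ρ l)
    linarith

lemma cellG_ne_of_perm_ne {c c' : ℝ} {b : Fin n → ℝ} {ρ ρ' : Equiv.Perm (Fin n)} (hρ : ρ ≠ ρ')
    {w w' : Fin n → ℝ} (hw : w ∈ ordSimplex n c) (hw' : w' ∈ ordSimplex n c') :
    cellG ρ b w ≠ cellG ρ' b w' := by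
  intro h
  apply hρ
  apply perm_eq_of_comp_eq hw.1 hw'.1
  intro j
  have h1 := congrFun h j
  simp only [cellG] at h1
  linarith

/-- sum over the list built from a range -/
lemma sum_map_range (f : ℕ → ℝ) (m : ℕ) :
    ((List.range m).map f).sum = ∑ j ∈ Finset.range m, f j := by
  induction m with
  | zero => simp
  | succ m ih =>
    rw [List.range_succ, List.map_append, List.sum_append, ih, Finset.sum_range_succ]
    simp

/-- grouping in blocks of `N` for an antitone sequence -/
lemma block_sum_le (G : ℕ → ℝ) (hG : Antitone G) (hG0 : ∀ i, 0 ≤ G i) (D N M : ℕ) :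
    (N : ℝ) * ∑ j ∈ Finset.range M, G ((j + 1) * N) ^ D ≤ ∑ i ∈ Finset.range (M * N), G i ^ D := by
  induction M with
  | zero => simp
  | succ M ih =>
    rw [Finset.sum_range_succ, mul_add, Nat.succ_mul, Finset.sum_range_add]
    have h1 : (N : ℝ) * G ((M + 1) * N) ^ D ≤ ∑ t ∈ Finset.range N, G (M * N + t) ^ D := by
      have h2 : ∀ t ∈ Finset.range N, G ((M + 1) * N) ^ D ≤ G (M * N + t) ^ D := by
        intro t ht
        apply pow_le_pow_left₀ (hG0 _)
        apply hG
        have := Finset.mem_range.mp ht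
        rw [Nat.succ_mul]
        omega
      have h3 := Finset.sum_le_sum h2
      simpa using h3
    rw [Nat.succ_mul] at h1
    linarith

/-- The shelf packing of order simplices. -/
theorem rigidPack_shelf (d m : ℕ) (R β x : ℝ) (a : Fin m → ℝ) (ha : ∀ i, 0 < a i)
    (hx : ∀ i, a i ≤ x) (hβ : 0 ≤ β) (hx0 : 0 ≤ x)
    (hfit : β ≤ R - ((d : ℝ) + 1) * x)
    (hvol : ∑ i, a i ^ (d + 1) ≤ (R - ((d : ℝ) + 1) * x) ^ (d + 1) - β ^ (d + 1)) :
    RigidPack (d + 1) R β a := by
  classical
  set σ : Equiv.Perm (Fin m) := Tuple.sort (fun i => - a i) with hσ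
  have hσmono : Antitone (a ∘ σ) := by
    have h := Tuple.monotone_sort (fun i => - a i)
    intro i i' hii'
    have := h hii'
    simp only [Function.comp_apply, neg_le_neg_iff] at this
    exact this
  set G : ℕ → ℝ := fun i => if h : i < m then a (σ ⟨i, h⟩) else 0 with hGdef
  have hGval : ∀ l : Fin m, G l = a (σ l) := by
    intro l
    simp [hGdef]
  have hG0 : ∀ i, 0 ≤ G i := by
    intro i
    simp only [hGdef]
    split_ifs
    · exact (ha _).le
    · exact le_rfl
  have hG : Antitone G := by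
    intro i i' hii'
    by_cases h' : i' < m
    · have h : i < m := lt_of_le_of_lt hii' h'
      simp only [hGdef, dif_pos h, dif_pos h']
      exact hσmono (Fin.mk_le_mk.mpr hii')
    · simp only [hGdef, dif_neg h']
      exact hG0 i
  have hGx : ∀ i, G i ≤ x := by
    intro i
    simp only [hGdef]
    split_ifs
    · exact hx _
    · exact hx0
  set N : ℕ := (d + 1)! with hN
  have hNpos : 0 < N := Nat.factorial_pos _
  set L' : List ℝ := (List.range m).map fun j => G ((j + 1) * N) with hL'
  have hRx : R - ((d : ℝ) + 1) * x ≤ R - ((d : ℝ) + 1) * G 0 := by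
    have h1 := hGx 0
    have h2 : (0 : ℝ) ≤ (d : ℝ) + 1 := by positivity
    nlinarith
  have hbase : 0 ≤ R - ((d : ℝ) + 1) * x := le_trans hβ hfit
  have hsum : (N : ℝ) * (L'.map fun c => c ^ (d + 1)).sum ≤ ∑ i, a i ^ (d + 1) := by
    have e1 : (L'.map fun c => c ^ (d + 1)).sum =
        ∑ j ∈ Finset.range m, G ((j + 1) * N) ^ (d + 1) := by
      rw [hL', List.map_map, ← sum_map_range]
      rfl
    rw [e1]
    refine le_trans (block_sum_le G hG hG0 (d + 1) N m) ?_
    have e2 : ∑ i ∈ Finset.range (m * N), G i ^ (d + 1) = ∑ i ∈ Finset.range m, G i ^ (d + 1) := by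
      symm
      apply Finset.sum_subset
      · intro i hi
        rw [Finset.mem_range] at hi ⊢
        nlinarith
      · intro i _ hi
        rw [Finset.mem_range, not_lt] at hi
        have : G i = 0 := by
          simp only [hGdef]
          rw [dif_neg (not_lt.mpr hi)]
        rw [this]
        simp
    rw [e2, Finset.sum_range]
    have e3 : ∀ l : Fin m, G l ^ (d + 1) = (fun i => a i ^ (d + 1)) (σ l) := by
      intro l
      rw [hGval]
    rw [Finset.sum_congr rfl fun l _ => e3 l, Equiv.sum_comp σ (fun i => a i ^ (d + 1))]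
  have hplaced : Placed d R β (G 0 :: L') := by
    apply shelfClaim d R β (G 0) L' hβ (hG0 0)
    · intro c hc
      obtain ⟨j, -, rfl⟩ := List.mem_map.mp hc
      exact ⟨hG0 _, hG (Nat.zero_le _)⟩
    · rw [hL', List.pairwise_map]
      refine List.pairwise_lt_range.imp ?_
      intro j j' hjj'
      apply hG
      exact Nat.mul_le_mul_right _ (by omega)
    · have h1 : (0 : ℝ) ≤ ((d : ℝ) + 1) * G 0 := mul_nonneg (by positivity) (hG0 0)
      have h2 : β ≤ R - ((d : ℝ) + 1) * G 0 := le_trans hfit hRx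
      linarith
    · exact le_trans hfit hRx
    · have h1 : (R - ((d : ℝ) + 1) * x) ^ (d + 1) ≤ (R - ((d : ℝ) + 1) * G 0) ^ (d + 1) :=
        pow_le_pow_left₀ hbase hRx _
      linarith
  obtain ⟨Q, hQ, hQc, hQp⟩ := hplaced
  have hlen : Q.length = m + 1 := by
    have := congrArg List.length hQ
    simpa [hL'] using this
  set q : ℕ → (Fin (d + 1) → ℝ) × ℝ := fun j => Q.getD j (0, 0) with hq
  have hqget : ∀ j (hj : j < Q.length), q j = Q[j] := by
    intro j hj
    simp [hq, List.getElem?_eq_getElem hj]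
  have hqmem : ∀ j, j < m + 1 → q j ∈ Q := by
    intro j hj
    rw [hqget j (by omega)]
    exact List.getElem_mem _
  have hqside : ∀ j, j < m + 1 → (q j).2 = G (j * N) := by
    intro j hj
    have hj' : j < Q.length := by omega
    have h1 : (Q.map Prod.snd)[j]'(by simpa using hj') = (q j).2 := by
      rw [hqget j hj']
      simp
    rw [← h1]
    simp only [hQ]
    cases j with
    | zero => simp
    | succ j =>
      have hjm : j < m := by omega
      simp [hL', List.getElem_map]
  have hqsep : ∀ j j', j < m + 1 → j' < m + 1 → j ≠ j' → CubeSep (q j) (q j') := by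
    have hsym : ∀ j j', j < j' → j' < m + 1 → CubeSep (q j) (q j') := by
      intro j j' hjj' hj'
      rw [hqget j (by omega), hqget j' (by omega)]
      exact List.pairwise_iff_getElem.mp hQp j j' (by omega) (by omega) hjj'
    intro j j' hj hj' hne
    rcases lt_or_gt_of_ne hne with h | h
    · exact hsym j j' h hj'
    · obtain ⟨l, hl⟩ := hsym j' j h hj
      exact ⟨l, hl.symm⟩
  have hcardP : Fintype.card (Equiv.Perm (Fin (d + 1))) = N := by
    rw [Fintype.card_perm, Fintype.card_fin]
  let e : Equiv.Perm (Fin (d + 1)) ≃ Fin N := Fintype.equivFinOfCardEq hcardP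
  -- the data of a ball
  let lv : Fin m → ℕ := fun i => (σ.symm i : ℕ)
  have hlv : ∀ i, lv i < m := fun i => (σ.symm i).2
  have hlva : ∀ i, G (lv i) = a i := by
    intro i
    have := hGval (σ.symm i)
    simpa [lv] using this
  let cube : Fin m → ℕ := fun i => lv i / N
  have hcube : ∀ i, cube i < m + 1 := by
    intro i
    have := hlv i
    have h2 : lv i / N ≤ lv i := Nat.div_le_self _ _
    show lv i / N < m + 1
    omega
  have hside : ∀ i, a i ≤ (q (cube i)).2 := by
    intro i
    rw [hqside _ (hcube i), ← hlva i]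
    apply hG
    exact Nat.div_mul_le_self _ _
  let perm : Fin m → Equiv.Perm (Fin (d + 1)) :=
    fun i => e.symm ⟨lv i % N, Nat.mod_lt _ hNpos⟩
  refine ⟨perm, fun i => (q (cube i)).1, ?_, ?_⟩
  · intro i w hw
    obtain ⟨⟨hc, hh⟩⟩ := And.intro (hQc _ (hqmem _ (hcube i))) trivial
    refine ⟨cellG_mem_of_inChamber (s := 0) hc (hside i) _ hw rfl, 0, ?_⟩
    have := hw.2.1 (perm i 0)
    simp only [cellG]
    linarith
  · intro i i' hii' w hw w' hw'
    by_cases hcc : cube i = cube i'
    · -- the same cube, different permutations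
      have hρ : perm i ≠ perm i' := by
        intro h
        have h1 : (⟨lv i % N, Nat.mod_lt _ hNpos⟩ : Fin N) = ⟨lv i' % N, Nat.mod_lt _ hNpos⟩ :=
          e.symm.injective h
        have h2 : lv i % N = lv i' % N := congrArg Fin.val h1
        have h3 : lv i = lv i' := by
          have e1 := Nat.div_add_mod (lv i) N
          have e2 := Nat.div_add_mod (lv i') N
          have hcc' : lv i / N = lv i' / N := hcc
          rw [hcc', h2] at e1
          omega
        have h4 : σ.symm i = σ.symm i' := Fin.ext h3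
        exact hii' (σ.symm.injective h4)
      show cellG (perm i) (q (cube i)).1 w ≠ cellG (perm i') (q (cube i')).1 w'
      rw [← hcc]
      exact cellG_ne_of_perm_ne hρ hw hw'
    · exact cellG_ne_of_sep (hqsep _ _ (hcube i) (hcube i') hcc) (hside i) (hside i') _ _ hw hw'

end Vale.Agent.Lib.P209
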