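import Vale.Agent.Lib.P209.Lattice

/-! Packing cubes into the order chamber by shelves, sorted by decreasing size. -/

namespace Vale.Agent.Lib.P209

open Nat

/-- The cube with corner `q.1` and side `q.2` lies in the chamber `a ≥ w 0 ≥ w 1 ≥ ... ≥ 0`. -/
def InChamber {d : ℕ} (a : ℝ) (q : (Fin d → ℝ) × ℝ) : Prop :=
  (∀ j, 0 ≤ q.1 j) ∧ (∀ j, q.1 j + q.2 ≤ a) ∧ ∀ j j', j < j' → q.1 j' + q.2 ≤ q.1 j

/-- Two cubes are separated along a coordinate. -/
def CubeSep {d : ℕ} (q q' : (Fin d → ℝ) × ℝ) : Prop :=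
  ∃ l, q.1 l + q.2 ≤ q'.1 l ∨ q'.1 l + q'.2 ≤ q.1 l

/-- The list `L` of sides can be realized by cubes of dimension `d + 1` in the chamber of size `a`
above the height `β` in the first coordinate, separated in pairs. -/
def Placed (d : ℕ) (a β : ℝ) (L : List ℝ) : Prop :=
  ∃ Q : List ((Fin (d + 1) → ℝ) × ℝ), Q.map Prod.snd = L ∧
    (∀ q ∈ Q, InChamber a q ∧ β ≤ q.1 0) ∧ Q.Pairwise CubeSep

lemma placed_nil (d : ℕ) (a β : ℝ) : Placed d a β [] :=
  ⟨[], rfl, by simp, List.Pairwise.nil⟩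

/-- one shelf of height `h` on top of a configuration of the chamber of size `s` -/
lemma placed_shelf {d : ℕ} {s h β : ℝ} {L₁ L₂ : List ℝ} (hs : β ≤ s) (hβ : 0 ≤ β) (hh : 0 ≤ h)
    (hL₁ : ∀ c ∈ L₁, c ≤ h) (h₁ : Placed d s 0 L₁) (h₂ : Placed (d + 1) s β L₂) :
    Placed (d + 1) (s + h) β (L₁ ++ L₂) := by
  obtain ⟨Q₁, hQ₁, hc₁, hp₁⟩ := h₁
  obtain ⟨Q₂, hQ₂, hc₂, hp₂⟩ := h₂
  let lift : (Fin (d + 1) → ℝ) × ℝ → (Fin (d + 2) → ℝ) × ℝ := fun q => (Fin.cons s q.1, q.2)
  refine ⟨Q₁.map lift ++ Q₂, ?_, ?_, ?_⟩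
  · rw [List.map_append, List.map_map, hQ₂, ← hQ₁]
    rfl
  · intro q hq
    rw [List.mem_append] at hq
    rcases hq with hq | hq
    · obtain ⟨p, hp, rfl⟩ := List.mem_map.mp hq
      obtain ⟨⟨h0, h1, h2⟩, -⟩ := hc₁ p hp
      have hpc : p.2 ≤ h := hL₁ p.2 (by rw [← hQ₁]; exact List.mem_map_of_mem hp)
      refine ⟨⟨?_, ?_, ?_⟩, ?_⟩
      · intro j
        refine Fin.cases ?_ (fun j => ?_) j
        · simpa [lift] using hβ.trans hs
        · simpa [lift] using h0 j
      · intro j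
        refine Fin.cases ?_ (fun j => ?_) j
        · simpa [lift] using hpc
        · simp only [lift, Fin.cons_succ]
          linarith [h1 j]
      · intro j j' hjj'
        induction j' using Fin.cases with
        | zero => exact absurd hjj' (Fin.not_lt_zero j)
        | succ j' =>
          induction j using Fin.cases with
          | zero => simpa [lift] using h1 j'
          | succ j =>
            simp only [lift, Fin.cons_succ]
            exact h2 j j' (Fin.succ_lt_succ_iff.mp hjj')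
      · simpa [lift] using hs
    · obtain ⟨⟨h0, h1, h2⟩, h3⟩ := hc₂ q hq
      exact ⟨⟨h0, fun j => by linarith [h1 j], h2⟩, h3⟩
  · rw [List.pairwise_append]
    refine ⟨?_, hp₂, ?_⟩
    · rw [List.pairwise_map]
      refine hp₁.imp ?_
      rintro q q' ⟨l, hl⟩
      exact ⟨l.succ, by simpa [lift] using hl⟩
    · intro q hq q' hq'
      obtain ⟨p, hp, rfl⟩ := List.mem_map.mp hq
      obtain ⟨⟨-, h1, -⟩, -⟩ := hc₂ q' hq'
      exact ⟨0, Or.inr (by simpa [lift] using h1 0)⟩

/-- Splitting a list at the point where a budget is exhausted. -/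
lemma exists_split (g : ℝ → ℝ) (hg : ∀ c, 0 ≤ c → 0 ≤ g c) (L : List ℝ) (hL : ∀ c ∈ L, 0 ≤ c) :
    ∀ B : ℝ, 0 ≤ B → ∃ P W : List ℝ, L = P ++ W ∧ (P.map g).sum ≤ B ∧
      (W = [] ∨ ∃ w W', W = w :: W' ∧ B < (P.map g).sum + g w) := by
  induction L with
  | nil =>
    intro B hB
    exact ⟨[], [], rfl, by simpa using hB, Or.inl rfl⟩
  | cons x T ih =>
    intro B hB
    by_cases hx : g x ≤ B
    · obtain ⟨P, W, h1, h2, h3⟩ := ih (fun c hc => hL c (List.mem_cons_of_mem _ hc)) (B - g x)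
        (by linarith)
      refine ⟨x :: P, W, by simp [h1], ?_, ?_⟩
      · simp only [List.map_cons, List.sum_cons]
        linarith
      · rcases h3 with h3 | ⟨w, W', h4, h5⟩
        · exact Or.inl h3
        · refine Or.inr ⟨w, W', h4, ?_⟩
          simp only [List.map_cons, List.sum_cons]
          linarith
    · exact ⟨[], x :: T, rfl, by simpa using hB, Or.inr ⟨x, T, rfl, by simpa using not_le.mp hx⟩⟩

/-- Bernoulli's inequality in the homogeneous form used below. -/
lemma bernoulli_hom (D : ℕ) {y w : ℝ} (hw : 0 ≤ w) (hwy : w ≤ y) :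
    y ^ (D + 1) - (D + 1) * w * y ^ D ≤ (y - w) ^ (D + 1) := by
  induction D with
  | zero => simp
  | succ D ih =>
    have h1 : 0 ≤ y - w := by linarith
    have hy : 0 ≤ y := by linarith
    have h2 : (y - w) ^ (D + 1 + 1) = (y - w) ^ (D + 1) * (y - w) := pow_succ _ _
    have h3 : (y ^ (D + 1) - (D + 1) * w * y ^ D) * (y - w) ≤ (y - w) ^ (D + 1) * (y - w) :=
      mul_le_mul_of_nonneg_right ih h1
    have h4 : 0 ≤ (D + 1) * w * w * y ^ D := by positivity
    rw [h2]
    push_cast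
    have e : (y ^ (D + 1) - (D + 1) * w * y ^ D) * (y - w) =
        y ^ (D + 1 + 1) - ((D : ℝ) + 1 + 1) * w * y ^ (D + 1) + (D + 1) * w * w * y ^ D := by ring
    linarith

lemma sum_pow_nonneg (D : ℕ) (L : List ℝ) (hL : ∀ c ∈ L, 0 ≤ c) :
    0 ≤ (L.map fun c => c ^ D).sum := by
  apply List.sum_nonneg
  intro x hx
  obtain ⟨c, hc, rfl⟩ := List.mem_map.mp hx
  exact pow_nonneg (hL c hc) _

lemma sum_pow_succ_ge (D : ℕ) (L : List ℝ) {w : ℝ} (hw : 0 ≤ w) (hL : ∀ c ∈ L, w ≤ c) :
    w * (L.map fun c => c ^ D).sum ≤ (L.map fun c => c ^ (D + 1)).sum := by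
  induction L with
  | nil => simp
  | cons x T ih =>
    simp only [List.map_cons, List.sum_cons]
    have h1 := ih (fun c hc => hL c (List.mem_cons_of_mem _ hc))
    have h2 : w ≤ x := hL x List.mem_cons_self
    have h3 : w * x ^ D ≤ x ^ (D + 1) := by
      rw [pow_succ, mul_comm]
      exact mul_le_mul_of_nonneg_left h2 (pow_nonneg (hw.trans h2) _)
    rw [mul_add]
    linarith

/-- The case of dimension one. -/
lemma placed_base (L : List ℝ) : ∀ (a β h : ℝ), 0 ≤ β → 0 ≤ h → (∀ c ∈ L, 0 ≤ c) →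
    (L.map fun c => c).sum ≤ a - h - β → Placed 0 a β (h :: L) := by
  induction L with
  | nil =>
    intro a β h hβ hh _ hs
    simp only [List.map_nil, List.sum_nil] at hs
    have hL1 : Placed 0 (a - h) 0 ([] : List ℝ) := placed_nil _ _ _
    refine ⟨[(fun _ => a - h, h)], rfl, ?_, List.pairwise_singleton _ _⟩
    intro q hq
    rw [List.mem_singleton] at hq
    subst hq
    refine ⟨⟨?_, ?_, ?_⟩, ?_⟩
    · intro j
      show 0 ≤ a - h
      linarith
    · intro j
      show a - h + h ≤ a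
      linarith
    · intro j j' hjj'
      exact absurd hjj' (by
        have : j = j' := Fin.ext (by have := j.2; have := j'.2; omega)
        rw [this]
        exact lt_irrefl _)
    · show β ≤ a - h
      linarith
  | cons x T ih =>
    intro a β h hβ hh hL hs
    simp only [List.map_cons, List.sum_cons] at hs
    have hx : 0 ≤ x := hL x List.mem_cons_self
    have hT : ∀ c ∈ T, 0 ≤ c := fun c hc => hL c (List.mem_cons_of_mem _ hc)
    have hsT : 0 ≤ (T.map fun c => c).sum := by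
      apply List.sum_nonneg
      intro y hy
      obtain ⟨c, hc, rfl⟩ := List.mem_map.mp hy
      exact hT c hc
    obtain ⟨Q, hQ, hc, hp⟩ := ih (a - h) β x hβ hx hT (by linarith)
    refine ⟨(fun _ => a - h, h) :: Q, by simp [hQ], ?_, ?_⟩
    · intro q hq
      rcases List.mem_cons.mp hq with rfl | hq
      · refine ⟨⟨?_, ?_, ?_⟩, ?_⟩
        · intro j
          show 0 ≤ a - h
          linarith
        · intro j
          show a - h + h ≤ a
          linarith
        · intro j j' hjj'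
          exact absurd hjj' (by
            have : j = j' := Fin.ext (by have := j.2; have := j'.2; omega)
            rw [this]
            exact lt_irrefl _)
        · show β ≤ a - h
          linarith
      · obtain ⟨⟨h0, h1, h2⟩, h3⟩ := hc q hq
        exact ⟨⟨h0, fun j => by linarith [h1 j], h2⟩, h3⟩
    · rw [List.pairwise_cons]
      refine ⟨?_, hp⟩
      intro q hq
      obtain ⟨⟨-, h1, -⟩, -⟩ := hc q hq
      exact ⟨0, Or.inr (h1 0)⟩

/-- The statement of the packing theorem in dimension `d + 1`. -/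
def ShelfClaim (d : ℕ) : Prop :=
  ∀ (a β h : ℝ) (L : List ℝ), 0 ≤ β → 0 ≤ h → (∀ c ∈ L, 0 ≤ c ∧ c ≤ h) →
    L.Pairwise (· ≥ ·) → ((d : ℝ) + 1) * h ≤ a → β ≤ a - ((d : ℝ) + 1) * h →
    ((d + 1)! : ℝ) * (L.map fun c => c ^ (d + 1)).sum ≤
      (a - ((d : ℝ) + 1) * h) ^ (d + 1) - β ^ (d + 1) →
    Placed d a β (h :: L)

lemma shelfClaim_zero : ShelfClaim 0 := by
  intro a β h L hβ hh hL _ _ _ hs
  apply placed_base L a β h hβ hh (fun c hc => (hL c hc).1)
  simp only [zero_add, factorial_one, Nat.cast_one, one_mul, pow_one, CharP.cast_eq_zero] at hs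
  linarith

lemma shelfClaim_succ {d : ℕ} (hd : ShelfClaim d) : ShelfClaim (d + 1) := by
  intro a β h L
  induction' hN : L.length using Nat.strong_induction_on with N ih generalizing a h L
  intro hβ hh hL hsort hfit hβy hs
  set y : ℝ := a - (((d + 1 : ℕ) : ℝ) + 1) * h with hy
  have hy0 : 0 ≤ y := le_trans hβ hβy
  -- the first shelf
  have hbudget : (0 : ℝ) ≤ y ^ (d + 1) / ((d + 1)! : ℝ) := by positivity
  obtain ⟨P, W, hLPW, hP, hW⟩ := exists_split (fun c => c ^ (d + 1))
    (fun c hc => pow_nonneg hc _) L (fun c hc => (hL c hc).1) _ hbudget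
  have hfacpos : (0 : ℝ) < ((d + 1)! : ℝ) := by exact_mod_cast Nat.factorial_pos _
  set s : ℝ := a - h with hsdef
  have hsy : s - ((d : ℝ) + 1) * h = y := by
    simp only [hsdef, hy]; push_cast; ring
  have hPmem : ∀ c ∈ P, 0 ≤ c ∧ c ≤ h := fun c hc => hL c (by rw [hLPW]; simp [hc])
  have hPsort : P.Pairwise (· ≥ ·) := by
    rw [hLPW] at hsort
    exact (List.pairwise_append.mp hsort).1
  have hcross : Placed d s 0 (h :: P) := by
    apply hd s 0 h P le_rfl hh hPmem hPsort
    · linarith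
    · simpa [hsy] using hy0
    · rw [hsy]
      have : (0 : ℝ) ^ (d + 1) = 0 := by simp
      rw [this, sub_zero]
      rw [le_div_iff₀ hfacpos] at hP
      linarith
  have hshelf : ∀ c ∈ h :: P, c ≤ h := by
    intro c hc
    rcases List.mem_cons.mp hc with rfl | hc
    · exact le_rfl
    · exact (hPmem c hc).2
  have hsa : s + h = a := by simp [hsdef]
  have hys : y ≤ s := by
    have : (0 : ℝ) ≤ ((d : ℝ) + 1) * h := by positivity
    linarith
  rcases hW with rfl | ⟨w, W', rfl, hclose⟩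
  · -- no more cubes
    have := placed_shelf (d := d) (s := s) (h := h) (β := β) (L₁ := h :: P) (L₂ := [])
      (by linarith) hβ hh hshelf hcross (placed_nil _ _ _)
    rw [hsa] at this
    simpa [hLPW] using this
  · -- the remaining shelves
    have hwmem : 0 ≤ w ∧ w ≤ h := hL w (by rw [hLPW]; simp)
    have hw0 := hwmem.1
    have hW'mem : ∀ c ∈ W', 0 ≤ c ∧ c ≤ w := by
      intro c hc
      refine ⟨(hL c (by rw [hLPW]; simp [hc])).1, ?_⟩
      rw [hLPW] at hsort
      have h1 := (List.pairwise_append.mp hsort).2.1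
      exact (List.pairwise_cons.mp h1).1 c hc
    have hW'sort : W'.Pairwise (· ≥ ·) := by
      rw [hLPW] at hsort
      have h1 := (List.pairwise_append.mp hsort).2.1
      exact (List.pairwise_cons.mp h1).2
    have hPw : ∀ c ∈ P, w ≤ c := by
      intro c hc
      rw [hLPW] at hsort
      exact (List.pairwise_append.mp hsort).2.2 c hc w (by simp)
    -- the volume bookkeeping
    set A : ℝ := (P.map fun c => c ^ (d + 1 + 1)).sum with hA
    set B : ℝ := (P.map fun c => c ^ (d + 1)).sum with hB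
    set C : ℝ := (W'.map fun c => c ^ (d + 1 + 1)).sum with hC
    have hAB : w * B ≤ A := sum_pow_succ_ge (d + 1) P hw0 hPw
    have hC0 : 0 ≤ C := sum_pow_nonneg _ _ fun c hc => (hW'mem c hc).1
    have hA0 : 0 ≤ A := le_trans (mul_nonneg hw0 (sum_pow_nonneg _ _ fun c hc => (hPmem c hc).1)) hAB
    have hs' : (((d + 1 + 1)! : ℕ) : ℝ) * (A + w ^ (d + 1 + 1) + C) ≤
        y ^ (d + 1 + 1) - β ^ (d + 1 + 1) := by
      have h1 : (L.map fun c => c ^ (d + 1 + 1)).sum = A + (w ^ (d + 1 + 1) + C) := by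
        rw [hLPW]
        simp [hA, hC]
      rw [h1] at hs
      have e : A + w ^ (d + 1 + 1) + C = A + (w ^ (d + 1 + 1) + C) := by ring
      rw [e]
      exact hs
    have hfac2 : (((d + 1 + 1)! : ℕ) : ℝ) = ((d : ℝ) + 1 + 1) * ((d + 1)! : ℝ) := by
      rw [Nat.factorial_succ (d + 1)]
      push_cast
      ring
    have hclose' : y ^ (d + 1) < ((d + 1)! : ℝ) * (B + w ^ (d + 1)) := by
      rw [div_lt_iff₀ hfacpos] at hclose
      linarith
    have hfac2pos : (0 : ℝ) < (((d + 1 + 1)! : ℕ) : ℝ) := by exact_mod_cast Nat.factorial_pos _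
    have hwy : w ≤ y := by
      have h1 : w ^ (d + 1 + 1) ≤ y ^ (d + 1 + 1) := by
        have h2 : 1 ≤ (((d + 1 + 1)! : ℕ) : ℝ) := by exact_mod_cast Nat.factorial_pos _
        have h3 : 0 ≤ β ^ (d + 1 + 1) := pow_nonneg hβ _
        have h4 : 0 ≤ w ^ (d + 1 + 1) := pow_nonneg hw0 _
        have h5 : 0 ≤ (((d + 1 + 1)! : ℕ) : ℝ) * (A + C) := by positivity
        have h6 : w ^ (d + 1 + 1) ≤ (((d + 1 + 1)! : ℕ) : ℝ) * w ^ (d + 1 + 1) :=
          le_mul_of_one_le_left h4 h2
        have e : (((d + 1 + 1)! : ℕ) : ℝ) * (A + w ^ (d + 1 + 1) + C) =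
            (((d + 1 + 1)! : ℕ) : ℝ) * w ^ (d + 1 + 1) + (((d + 1 + 1)! : ℕ) : ℝ) * (A + C) := by
          ring
        linarith
      exact (pow_le_pow_iff_left₀ hw0 hy0 (by omega)).mp h1
    have hbern := bernoulli_hom (d + 1) hw0 hwy
    push_cast at hbern
    have hC1 : (((d + 1 + 1)! : ℕ) : ℝ) * C + β ^ (d + 1 + 1) ≤ (y - w) ^ (d + 1 + 1) := by
      have h1 : ((d : ℝ) + 1 + 1) * w * y ^ (d + 1) ≤
          (((d + 1 + 1)! : ℕ) : ℝ) * (A + w ^ (d + 1 + 1)) := by
        have h2 : w * y ^ (d + 1) ≤ w * (((d + 1)! : ℝ) * (B + w ^ (d + 1))) :=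
          mul_le_mul_of_nonneg_left hclose'.le hw0
        have h3 : (((d + 1)! : ℝ)) * (w * B) ≤ ((d + 1)! : ℝ) * A :=
          mul_le_mul_of_nonneg_left hAB hfacpos.le
        have h4 : (0 : ℝ) < (d : ℝ) + 1 + 1 := by positivity
        have e : w ^ (d + 1 + 1) = w * w ^ (d + 1) := by ring
        have e2 : w * (((d + 1)! : ℝ) * (B + w ^ (d + 1))) =
            ((d + 1)! : ℝ) * (w * B) + ((d + 1)! : ℝ) * (w * w ^ (d + 1)) := by ring
        have h5 : w * y ^ (d + 1) ≤ ((d + 1)! : ℝ) * (A + w * w ^ (d + 1)) := by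
          rw [mul_add]
          linarith
        have h6 := mul_le_mul_of_nonneg_left h5 h4.le
        rw [hfac2, e]
        calc ((d : ℝ) + 1 + 1) * w * y ^ (d + 1) = ((d : ℝ) + 1 + 1) * (w * y ^ (d + 1)) := by ring
          _ ≤ _ := h6
          _ = _ := by ring
      have e : (((d + 1 + 1)! : ℕ) : ℝ) * (A + w ^ (d + 1 + 1) + C) =
          (((d + 1 + 1)! : ℕ) : ℝ) * (A + w ^ (d + 1 + 1)) + (((d + 1 + 1)! : ℕ) : ℝ) * C := by
        ring
      linarith
    set s' : ℝ := s - ((d : ℝ) + 1 + 1) * w with hs'def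
    have hs'ge : y - w ≤ s' := by
      simp only [hs'def, hsdef, hy]
      push_cast
      have : (0 : ℝ) ≤ ((d : ℝ) + 1) * (h - w) := mul_nonneg (by positivity) (by linarith [hwmem.2])
      nlinarith
    have hyw0 : 0 ≤ y - w := by linarith
    have hpow : (y - w) ^ (d + 1 + 1) ≤ s' ^ (d + 1 + 1) := pow_le_pow_left₀ hyw0 hs'ge _
    have hβs' : β ≤ s' := by
      have h1 : β ^ (d + 1 + 1) ≤ s' ^ (d + 1 + 1) := by
        have : 0 ≤ (((d + 1 + 1)! : ℕ) : ℝ) * C := by positivity
        linarith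
      exact (pow_le_pow_iff_left₀ hβ (by linarith) (by omega)).mp h1
    have hrec : Placed (d + 1) s β (w :: W') := by
      have hlen : W'.length < N := by
        rw [← hN, hLPW]
        simp
        omega
      refine ih W'.length hlen s w W' rfl hβ hw0 hW'mem hW'sort ?_ ?_ ?_
      · push_cast
        have : s' = s - ((d : ℝ) + 1 + 1) * w := rfl
        linarith
      · push_cast
        exact hβs'
      · push_cast
        have : (((d + 1 + 1)! : ℕ) : ℝ) * C ≤ s' ^ (d + 1 + 1) - β ^ (d + 1 + 1) := by linarith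
        exact this
    have := placed_shelf (d := d) (s := s) (h := h) (β := β) (L₁ := h :: P) (L₂ := w :: W')
      (by linarith) hβ hh hshelf hcross hrec
    rw [hsa] at this
    simpa [hLPW] using this

theorem shelfClaim (d : ℕ) : ShelfClaim d := by
  induction d with
  | zero => exact shelfClaim_zero
  | succ d ih => exact shelfClaim_succ ih

end Vale.Agent.Lib.P209
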