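import Vale.Agent.Lib.P209.Fill

/-! The regions of the target simplex: images of order simplices, and the region `A`. -/

namespace Vale.Agent.Lib.P209

open Nat

variable {n : ℕ}

/-- `w ↦ cellG ρ b w` sends the order simplex of size `u` to the one of size `R`, in a way which
also sends cubes in the chamber to cubes in the chamber. -/
def ChainMap (ρ : Equiv.Perm (Fin n)) (b : Fin n → ℝ) (u R : ℝ) : Prop :=
  (∀ j, 0 ≤ b j) ∧ (∀ j, b j + u ≤ R) ∧
    ∀ j j', j < j' → b j' + u ≤ b j ∨ (b j' = b j ∧ ρ j < ρ j')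

/-- the part of the image of the order simplex of size `u` outside the image of the simplex of
size `m` -/
def chainRegion (ρ : Equiv.Perm (Fin n)) (b : Fin n → ℝ) (u m : ℝ) : Set (Fin n → ℝ) :=
  {v | ∃ w ∈ ordSimplex n u, (∃ l, m ≤ w l) ∧ cellG ρ b w = v}

/-- the image of a cube -/
def chainCube (ρ : Equiv.Perm (Fin n)) (b : Fin n → ℝ) (q : (Fin n → ℝ) × ℝ) :
    (Fin n → ℝ) × ℝ :=
  (fun j => q.1 (ρ j) + b j, q.2)

lemma chainCube_inChamber {ρ : Equiv.Perm (Fin n)} {b : Fin n → ℝ} {u R : ℝ}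
    (h : ChainMap ρ b u R) {q : (Fin n → ℝ) × ℝ} (hq : InChamber u q) :
    InChamber R (chainCube ρ b q) := by
  obtain ⟨h0, h1, h2⟩ := h
  obtain ⟨g0, g1, g2⟩ := hq
  refine ⟨?_, ?_, ?_⟩
  · intro j
    have := h0 j
    have := g0 (ρ j)
    simp only [chainCube]
    linarith
  · intro j
    have := h1 j
    have := g1 (ρ j)
    simp only [chainCube]
    linarith
  · intro j j' hjj'
    simp only [chainCube]
    rcases h2 j j' hjj' with h3 | ⟨h3, h4⟩
    · have := g1 (ρ j')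
      have := g0 (ρ j)
      linarith
    · have := g2 _ _ h4
      rw [h3]
      linarith

lemma chainCube_subset {ρ : Equiv.Perm (Fin n)} {b : Fin n → ℝ} {u m : ℝ}
    {q : (Fin n → ℝ) × ℝ} (hq : InChamber u q) (l : Fin n) (hm : m ≤ q.1 l) :
    openCube (chainCube ρ b q) ⊆ chainRegion ρ b u m := by
  intro v hv
  obtain ⟨g0, g1, g2⟩ := hq
  set w : Fin n → ℝ := fun t => v (ρ.symm t) - b (ρ.symm t) with hw
  have hw1 : ∀ t, q.1 t < w t ∧ w t < q.1 t + q.2 := by
    intro t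
    have := hv (ρ.symm t)
    simp only [chainCube, Equiv.apply_symm_apply] at this
    simp only [hw]
    constructor <;> linarith [this.1, this.2]
  refine ⟨w, ⟨?_, ?_, ?_⟩, ⟨l, by linarith [(hw1 l).1]⟩, ?_⟩
  · intro j j' hjj'
    have := g2 j j' hjj'
    linarith [(hw1 j).1, (hw1 j').2]
  · intro j
    linarith [(hw1 j).1, g0 j]
  · intro j
    linarith [(hw1 j).2, g1 j]
  · funext j
    simp [cellG, hw]

lemma chainCube_disjoint {ρ : Equiv.Perm (Fin n)} {b : Fin n → ℝ}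
    {q q' : (Fin n → ℝ) × ℝ} (h : CubeSep q q') :
    Disjoint (openCube (chainCube ρ b q)) (openCube (chainCube ρ b q')) := by
  apply disjoint_openCube_of_sep
  obtain ⟨l, hl⟩ := h
  refine ⟨ρ.symm l, ?_⟩
  simp only [chainCube, Equiv.apply_symm_apply]
  rcases hl with hl | hl
  · left; linarith
  · right; linarith

/-- The capacity of a chain region. -/
theorem canPlace_chain {d : ℕ} {ρ : Equiv.Perm (Fin (d + 1))} {b : Fin (d + 1) → ℝ} {u m R x : ℝ}
    (hc : ChainMap ρ b u R) (hm : 0 ≤ m) (hfit : m + ((d : ℝ) + 1) * x ≤ u) :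
    CanPlace (d + 1) R x (chainRegion ρ b u m) ((u - ((d : ℝ) + 1) * x) ^ (d + 1) - m ^ (d + 1)) := by
  intro h L hh hhx hL hsort hs
  have hd0 : (0 : ℝ) ≤ (d : ℝ) + 1 := by positivity
  have h1 : ((d : ℝ) + 1) * h ≤ ((d : ℝ) + 1) * x := mul_le_mul_of_nonneg_left hhx hd0
  have h2 : 0 ≤ ((d : ℝ) + 1) * h := by positivity
  have hbase : u - ((d : ℝ) + 1) * x ≤ u - ((d : ℝ) + 1) * h := by linarith
  have hbase0 : 0 ≤ u - ((d : ℝ) + 1) * x := by linarith
  have hplaced : Placed d u m (h :: L) := by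
    apply shelfClaim d u m h L hm hh hL hsort
    · linarith
    · linarith
    · have h3 := pow_le_pow_left₀ hbase0 hbase (d + 1)
      linarith
  obtain ⟨Q, hQ, hQc, hQp⟩ := hplaced
  refine ⟨Q.map (chainCube ρ b), ?_, ?_, ?_⟩
  · rw [List.map_map, ← hQ]
    rfl
  · intro q hq
    obtain ⟨p, hp, rfl⟩ := List.mem_map.mp hq
    obtain ⟨h3, h4⟩ := hQc p hp
    exact ⟨chainCube_inChamber hc h3, chainCube_subset h3 0 h4⟩
  · rw [List.pairwise_map]
    exact hQp.imp fun h => chainCube_disjoint h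

/-- the region `A` in the target -/
def regionA {d : ℕ} (a' c : ℝ) : Set (Fin (d + 2) → ℝ) :=
  {v | a' < v 0 ∧ v (Fin.last _) < c}

/-- The capacity of the region `A` with sides at most `x`. -/
noncomputable def capA (d : ℕ) (R a' c x : ℝ) : ℝ :=
  ((R - ((d : ℝ) + 1 + 1) * x) ^ (d + 1 + 1) - (a' - x) ^ (d + 1 + 1)) -
    ((R - c - ((d : ℝ) + 1) * x) ^ (d + 1 + 1) - (a' - c) ^ (d + 1 + 1))

lemma capA_nonneg (d : ℕ) {R a' c x : ℝ} (hF : 0 ≤ a' - c) (hxc : x ≤ c)
    (hfit : ((d : ℝ) + 1) * x ≤ R - a') : 0 ≤ capA d R a' c x := by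
  have h := pow_increment_mono (d + 1 + 1) (δ := c - x) (s := a' - x)
    (t := R - ((d : ℝ) + 1 + 1) * x) (by linarith) (by linarith) (by linarith)
  have e1 : a' - x - (c - x) = a' - c := by ring
  have e2 : R - ((d : ℝ) + 1 + 1) * x - (c - x) = R - c - ((d : ℝ) + 1) * x := by ring
  rw [e1, e2] at h
  unfold capA
  linarith

lemma capA_mono (d : ℕ) {R a' c x h : ℝ} (hF : 0 ≤ a' - c) (hxc : x ≤ c) (hhx : h ≤ x)
    (hfit : ((d : ℝ) + 1) * x ≤ R - a') (hx0 : 0 ≤ x) :
    capA d R a' c x ≤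
      ((R - 0 - ((d : ℝ) + 1 + 1) * h) ^ (d + 1 + 1) - (a' - 0 - h) ^ (d + 1 + 1)) -
      ((R - c - ((d : ℝ) + 1) * h) ^ (d + 1 + 1) - (a' - c) ^ (d + 1 + 1)) := by
  unfold capA
  rw [sub_zero, sub_zero]
  set δ : ℝ := x - h with hδ
  have hδ0 : 0 ≤ δ := by simp only [hδ]; linarith
  have hd0 : (0 : ℝ) ≤ (d : ℝ) + 1 := by positivity
  have hdδ : 0 ≤ ((d : ℝ) + 1) * δ := mul_nonneg hd0 hδ0
  set Yx : ℝ := R - ((d : ℝ) + 1 + 1) * x with hYx
  set Ex : ℝ := R - c - ((d : ℝ) + 1) * x with hEx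
  set βx : ℝ := a' - x with hβx
  have hEx0 : 0 ≤ Ex := by simp only [hEx]; linarith
  have hExY : Ex ≤ Yx := by simp only [hEx, hYx]; linarith
  have hβ0 : 0 ≤ βx := by simp only [hβx]; linarith
  have hβY : βx ≤ Yx := by simp only [hβx, hYx]; linarith
  have e1 : R - ((d : ℝ) + 1 + 1) * h = Yx + ((d : ℝ) + 1) * δ + δ := by
    simp only [hYx, hδ]; ring
  have e2 : R - c - ((d : ℝ) + 1) * h = Ex + ((d : ℝ) + 1) * δ := by
    simp only [hEx, hδ]; ring
  have e3 : a' - h = βx + δ := by simp only [hβx, hδ]; ring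
  rw [e1, e2, e3]
  have h1 := pow_increment_mono (d + 1 + 1) hdδ (s := Ex + ((d : ℝ) + 1) * δ)
    (t := Yx + ((d : ℝ) + 1) * δ) (by linarith) (by linarith)
  have h2 := pow_increment_mono (d + 1 + 1) hδ0 (s := βx + δ)
    (t := Yx + ((d : ℝ) + 1) * δ + δ) (by linarith) (by linarith)
  have e4 : Ex + ((d : ℝ) + 1) * δ - ((d : ℝ) + 1) * δ = Ex := by ring
  have e5 : Yx + ((d : ℝ) + 1) * δ - ((d : ℝ) + 1) * δ = Yx := by ring
  have e6 : βx + δ - δ = βx := by ring
  have e7 : Yx + ((d : ℝ) + 1) * δ + δ - δ = Yx + ((d : ℝ) + 1) * δ := by ring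
  rw [e4, e5] at h1
  rw [e6, e7] at h2
  linarith

/-- The capacity of the region `A`. -/
theorem canPlace_A {d : ℕ} {R a' c x : ℝ} (hF : 0 ≤ a' - c) (hxc : x ≤ c)
    (hfit : ((d : ℝ) + 1) * x ≤ R - a') (hx0 : 0 ≤ x) :
    CanPlace (d + 2) R x (regionA a' c) (capA d R a' c x) := by
  intro h L hh hhx hL hsort hs
  have hhc : 0 + h ≤ c := by linarith
  have hd0 : (0 : ℝ) ≤ (d : ℝ) + 1 := by positivity
  have hplaced : PlacedA d R a' c 0 (h :: L) := by
    apply placedA_claim d R a' c hF L 0 h le_rfl hh hL hsort hhc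
    · have := mul_le_mul_of_nonneg_left hhx hd0
      linarith
    · exact le_trans hs (capA_mono d hF hxc hhx hfit hx0)
  obtain ⟨Q, hQ, hQc, hQp⟩ := hplaced
  refine ⟨Q, hQ, ?_, ?_⟩
  · intro q hq
    obtain ⟨h1, h2, -, h4⟩ := hQc q hq
    refine ⟨h1, ?_⟩
    intro v hv
    have h5 := hv 0
    have h6 := hv (Fin.last _)
    exact ⟨by linarith [h5.1], by linarith [h6.2]⟩
  · exact hQp.imp fun h => disjoint_openCube_of_sep h

/-! ### The hosts of the lattice -/

/-- the translation vector of the cell with digit pattern `κ` of the lattice of mesh `u`, shifted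
by `c` -/
noncomputable def hostB (u c : ℝ) (κ : Fin n → ℕ) : Fin n → ℝ :=
  fun j => c + u * κ (digitPerm κ j)

lemma hostG_apply (u c : ℝ) (κ : Fin n → ℕ) (w : Fin n → ℝ) (j : Fin n) :
    cellG (digitPerm κ) (hostB u c κ) w j = (w (digitPerm κ j) + u * κ (digitPerm κ j)) + c := by
  simp only [cellG, hostB]
  ring

lemma host_chain {u c R : ℝ} (hu : 0 < u) (hc : 0 ≤ c) {q : ℕ} (hR : q * u + c ≤ R)
    (κ : Fin n → ℕ) (hκ : ∀ l, κ l < q) : ChainMap (digitPerm κ) (hostB u c κ) u R := by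
  refine ⟨?_, ?_, ?_⟩
  · intro j
    simp only [hostB]
    positivity
  · intro j
    simp only [hostB]
    have h2 : ((κ (digitPerm κ j) : ℕ) : ℝ) + 1 ≤ q := by exact_mod_cast hκ (digitPerm κ j)
    nlinarith
  · intro j j' hjj'
    rcases digitPerm_spec κ hjj' with h | ⟨h1, h2⟩
    · left
      simp only [hostB]
      have h3 : ((κ (digitPerm κ j') : ℕ) : ℝ) + 1 ≤ κ (digitPerm κ j) := by exact_mod_cast h
      nlinarith
    · right
      refine ⟨?_, h2⟩
      simp only [hostB]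
      rw [h1]

lemma host_disjoint {u c : ℝ} (hu : 0 < u) {κ κ' : Fin n → ℕ}
    {w w' : Fin n → ℝ} (hw : w ∈ ordSimplex n u) (hw' : w' ∈ ordSimplex n u)
    (h : cellG (digitPerm κ) (hostB u c κ) w = cellG (digitPerm κ') (hostB u c κ') w') :
    κ = κ' := by
  have h1 : ∀ j, w (digitPerm κ j) + u * κ (digitPerm κ j) =
      w' (digitPerm κ' j) + u * κ' (digitPerm κ' j) := by
    intro j
    have := congrFun h j
    rw [hostG_apply, hostG_apply] at this
    linarith
  have h2 : ∀ j, κ (digitPerm κ j) = κ' (digitPerm κ' j) := fun j =>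
    digit_unique hu (hw.2.1 _) (hw.2.2 _) (hw'.2.1 _) (hw'.2.2 _) (h1 j)
  have h3 : ∀ j, w (digitPerm κ j) = w' (digitPerm κ' j) := by
    intro j
    have := h1 j
    rw [h2 j] at this
    linarith
  have h4 := perm_eq_of_comp_eq hw.1 hw'.1 h3
  funext l
  have := h2 ((digitPerm κ).symm l)
  rw [h4] at this
  rw [← h4] at this
  simpa [h4] using this

lemma cellG_mem_of_chain {ρ : Equiv.Perm (Fin n)} {b : Fin n → ℝ} {u R : ℝ}
    (h : ChainMap ρ b u R) {w : Fin n → ℝ} (hw : w ∈ ordSimplex n u) :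
    cellG ρ b w ∈ ordSimplex n R := by
  obtain ⟨h0, h1, h2⟩ := h
  obtain ⟨hanti, hpos, hlt⟩ := hw
  refine ⟨?_, ?_, ?_⟩
  · intro j j' hjj'
    simp only [cellG]
    rcases h2 j j' hjj' with h3 | ⟨h3, h4⟩
    · have := hlt (ρ j')
      have := hpos (ρ j)
      linarith
    · have := hanti h4
      rw [h3]
      linarith
  · intro j
    have := hpos (ρ j)
    have := h0 j
    simp only [cellG]
    linarith
  · intro j
    have := hlt (ρ j)
    have := h1 j
    simp only [cellG]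
    linarith

lemma cellG_injective (ρ : Equiv.Perm (Fin n)) (b : Fin n → ℝ) :
    Function.Injective (cellG ρ b) := by
  intro w w' h
  funext l
  have := congrFun h (ρ.symm l)
  simp only [cellG, Equiv.apply_symm_apply] at this
  linarith

end Vale.Agent.Lib.P209
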