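import Vale.Agent.Lib.P209.Lattice

/-! Corollary of the layer theorem: at most `2 ^ n` balls, pairwise condition only. -/

namespace Vale.Agent.Lib.P209

/-- If there are at most `2 ^ n` balls and the pairwise condition holds (and every ball is smaller
than the target), the balls can be packed. -/
theorem ballPacking_two_pow {n k : ℕ} (hn : 0 < n) (hk : k ≤ 2 ^ n) {R : ℝ}
    (r : Fin k → ℝ) (hr : ∀ i, 0 < r i) (hR : ∀ i, r i < R)
    (hpair : ∀ i j, i ≠ j → r i + r j < R) :
    BallPacking n k R r := by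
  classical
  rcases Nat.eq_zero_or_pos k with rfl | hk0
  · exact ⟨fun i => i.elim0, fun i => i.elim0, fun i => i.elim0, fun i => i.elim0⟩
  -- choose the biggest ball
  obtain ⟨i₀, hi₀⟩ : ∃ i₀, ∀ i, r i ≤ r i₀ := by
    obtain ⟨i₀, -, h⟩ := Finset.exists_max_image (Finset.univ : Finset (Fin k)) r
      ⟨⟨0, hk0⟩, Finset.mem_univ _⟩
    exact ⟨i₀, fun i => h i (Finset.mem_univ _)⟩
  have hi0pos := hr i₀
  have hRpos : 0 < R := by linarith [hR i₀]
  -- the biggest of the others, below `R - r i₀`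
  have hgap : 0 < R - r i₀ := by linarith [hR i₀]
  obtain ⟨M, hM0, hM1, hM2, hM3⟩ : ∃ M : ℝ, 0 ≤ M ∧ M < R - r i₀ ∧ M ≤ r i₀ ∧
      ∀ i, i ≠ i₀ → r i ≤ M := by
    by_cases hex : ∃ i, i ≠ i₀
    · obtain ⟨i₁, hi₁⟩ := hex
      obtain ⟨i₂, hi₂, h⟩ := Finset.exists_max_image
        (Finset.univ.filter fun i => i ≠ i₀) r ⟨i₁, by simp [hi₁]⟩
      refine ⟨r i₂, (hr i₂).le, ?_, hi₀ i₂, ?_⟩
      · have := hpair i₂ i₀ (by simpa using hi₂)
        linarith
      · intro i hi
        exact h i (by simp [hi])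
    · refine ⟨0, le_rfl, hgap, hi0pos.le, ?_⟩
      intro i hi
      exact absurd ⟨i, hi⟩ hex
  have hMR : M < R / 2 := by
    rcases le_or_gt (R / 2) (r i₀) with h | h
    · linarith
    · linarith
  -- mesh: between `M` and `R - r i₀`, at most `R / 2`
  set u : ℝ := min (R / 2) ((R - r i₀ + M) / 2) with hu
  have hu1 : M < u := lt_min hMR (by linarith)
  have hu0 : 0 < u := by linarith
  have hu2 : u < R - r i₀ := lt_of_le_of_lt (min_le_right _ _) (by linarith)
  have hu3 : 2 * u ≤ R := by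
    have := min_le_left (R / 2) ((R - r i₀ + M) / 2)
    linarith
  refine ballPacking_layers hn (q := 2) (d := 1) (u := u) (R := R) hu0 ?_ r i₀ ?_ ?_ ?_
  · push_cast; linarith
  · push_cast; linarith
  · intro i hi; linarith [hM3 i hi]
  · have : (2 - 1) ^ n = 1 := by simp
    rw [this]
    have : 1 ≤ 2 ^ n := Nat.one_le_two_pow
    omega

end Vale.Agent.Lib.P209
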