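import Vale.Agent.Lib.P209.Rigid

/-! The volume theorem: one arbitrary ball and balls of capacities at most `μ`. -/

namespace Vale.Agent.Lib.P209

open Nat Filter Topology

variable {n : ℕ}

lemma cellG_one_zero (w : Fin n → ℝ) : cellG 1 0 w = w := by
  funext j
  simp [cellG]

theorem ballPacking_of_rigid_big (hn : 0 < n) {m : ℕ} {R β : ℝ} (r : Fin (m + 1) → ℝ)
    (a' : Fin m → ℝ) (i₀ : Fin (m + 1)) (hr₀ : r i₀ < β) (hβR : β ≤ R)
    (hr : ∀ j, r (i₀.succAbove j) < a' j) (h : RigidPack n R β a') :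
    BallPacking n (m + 1) R r := by
  obtain ⟨ρ', b', h1, h2⟩ := h
  have hball : ∀ w ∈ ordSimplex n β, w ∈ ordSimplex n R := by
    intro w hw
    exact ⟨hw.1, hw.2.1, fun j => lt_of_lt_of_le (hw.2.2 j) hβR⟩
  refine ballPacking_of_cells hn R r (i₀.insertNth (α := fun _ => ℝ) β a') ?_
    (i₀.insertNth (α := fun _ => Equiv.Perm (Fin n)) 1 ρ')
    (i₀.insertNth (α := fun _ => Fin n → ℝ) 0 b') ?_ ?_
  · intro i
    rcases Fin.eq_self_or_eq_succAbove i₀ i with rfl | ⟨j, rfl⟩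
    · simpa using hr₀
    · simpa using hr j
  · intro i w hw
    rcases Fin.eq_self_or_eq_succAbove i₀ i with rfl | ⟨j, rfl⟩
    · simp only [Fin.insertNth_apply_same] at hw ⊢
      rw [cellG_one_zero]
      exact hball w hw
    · simp only [Fin.insertNth_apply_succAbove] at hw ⊢
      exact (h1 j w hw).1
  · have key : ∀ j, ∀ w ∈ ordSimplex n β, ∀ w' ∈ ordSimplex n (a' j),
        w ≠ cellG (ρ' j) (b' j) w' := by
      intro j w hw w' hw' he
      obtain ⟨l, hl⟩ := (h1 j w' hw').2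
      rw [← he] at hl
      exact absurd (hw.2.2 l) (not_lt.mpr hl)
    intro i i' hii' w hw w' hw'
    rcases Fin.eq_self_or_eq_succAbove i₀ i with rfl | ⟨j, rfl⟩
    · rcases Fin.eq_self_or_eq_succAbove i i' with rfl | ⟨j', rfl⟩
      · exact absurd rfl hii'
      · simp only [Fin.insertNth_apply_same, Fin.insertNth_apply_succAbove] at hw hw' ⊢
        rw [cellG_one_zero]
        exact key j' w hw w' hw'
    · rcases Fin.eq_self_or_eq_succAbove i₀ i' with rfl | ⟨j', rfl⟩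
      · simp only [Fin.insertNth_apply_same, Fin.insertNth_apply_succAbove] at hw hw' ⊢
        rw [cellG_one_zero]
        exact (key j w' hw' w hw).symm
      · simp only [Fin.insertNth_apply_succAbove] at hw hw' ⊢
        refine h2 j j' ?_ w hw w' hw'
        rintro rfl
        exact hii' rfl

/-- The volume theorem: if `r i ≤ μ` for all `i` except one index, and the volume condition holds
with `R` replaced by `R - n μ`, then the balls can be packed. -/
theorem ballPacking_volume (hn : 0 < n) {k : ℕ} {R μ : ℝ} (r : Fin k → ℝ) (hr : ∀ i, 0 < r i)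
    (i₀ : Fin k) (hμ0 : 0 ≤ μ) (hμ : ∀ i, i ≠ i₀ → r i ≤ μ) (hnμ : (n : ℝ) * μ < R)
    (hvol : ∑ i, r i ^ n < (R - (n : ℝ) * μ) ^ n) :
    BallPacking n k R r := by
  obtain ⟨d, rfl⟩ : ∃ d, n = d + 1 := ⟨n - 1, by omega⟩
  obtain ⟨m, rfl⟩ : ∃ m, k = m + 1 := ⟨k - 1, by have := i₀.pos; omega⟩
  -- inflate the balls
  have hcont : Continuous fun t : ℝ =>
      (R - ((d + 1 : ℕ) : ℝ) * (t * μ)) ^ (d + 1) - t ^ (d + 1) * ∑ i, r i ^ (d + 1) := by
    fun_prop
  have hcont2 : Continuous fun t : ℝ => R - ((d + 1 : ℕ) : ℝ) * (t * μ) := by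
    fun_prop
  have h1 : ∀ᶠ t in 𝓝 (1 : ℝ), 0 <
      (R - ((d + 1 : ℕ) : ℝ) * (t * μ)) ^ (d + 1) - t ^ (d + 1) * ∑ i, r i ^ (d + 1) := by
    apply hcont.continuousAt.eventually (lt_mem_nhds _)
    simpa using hvol
  have h2 : ∀ᶠ t in 𝓝 (1 : ℝ), 0 < R - ((d + 1 : ℕ) : ℝ) * (t * μ) := by
    apply hcont2.continuousAt.eventually (lt_mem_nhds _)
    simpa using hnμ
  obtain ⟨t, ⟨ht1, ht2⟩, ht3⟩ :=
    ((h1.and h2).filter_mono (nhdsWithin_le_nhds (s := Set.Ioi 1))).and self_mem_nhdsWithin |>.exists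
  have ht : (1 : ℝ) < t := ht3
  have ht0 : 0 < t := by linarith
  set x : ℝ := t * μ with hx
  set y : ℝ := R - ((d : ℝ) + 1) * x with hy
  have hdcast : ((d + 1 : ℕ) : ℝ) = (d : ℝ) + 1 := by push_cast; ring
  rw [hdcast] at ht1 ht2
  set a' : Fin m → ℝ := fun j => t * r (i₀.succAbove j) with ha'
  set β : ℝ := t * r i₀ with hβ
  have hsum : t ^ (d + 1) * ∑ i, r i ^ (d + 1) = β ^ (d + 1) + ∑ j, a' j ^ (d + 1) := by
    rw [Fin.sum_univ_succAbove _ i₀, mul_add, Finset.mul_sum]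
    simp only [hβ, ha', mul_pow]
  rw [hsum] at ht1
  have hsum0 : 0 ≤ ∑ j, a' j ^ (d + 1) :=
    Finset.sum_nonneg fun j _ => pow_nonneg (mul_nonneg ht0.le (hr _).le) _
  have hβ0 : 0 < β := mul_pos ht0 (hr i₀)
  have hβy : β ≤ y := by
    have h3 : β ^ (d + 1) ≤ y ^ (d + 1) := by linarith
    exact (pow_le_pow_iff_left₀ hβ0.le ht2.le (by omega)).mp h3
  have hxpos : 0 ≤ x := mul_nonneg ht0.le hμ0
  have hyR : y ≤ R := by
    have : 0 ≤ ((d : ℝ) + 1) * x := by positivity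
    simp only [hy]
    linarith
  refine ballPacking_of_rigid_big hn r a' i₀ (β := β) ?_ (hβy.trans hyR) ?_ ?_
  · simp only [hβ]
    nlinarith [hr i₀]
  · intro j
    simp only [ha']
    nlinarith [hr (i₀.succAbove j)]
  · apply rigidPack_shelf d m R β x a' (fun j => mul_pos ht0 (hr _)) ?_ hβ0.le hxpos hβy ?_
    · intro j
      have := hμ (i₀.succAbove j) (Fin.succAbove_ne _ _)
      exact mul_le_mul_of_nonneg_left this ht0.le
    · linarith

end Vale.Agent.Lib.P209
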